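import Crest.Agent.X212.Hp13.Sd
import Crest.Agent.X212.Kh11.Ref
import Crest.Agent.X212.Alg36.Hp3

/-!
# X212 / Cut21 (helper21): cutting a sutured manifold along a surface (cover poset), definitions

* `Tb`, `NC`: "no closed component" on edges.
* `Fr`, `Thick`: the frontier layer of `A` under `O₊`; thickness.
* `PP`/`CondP`, `PM`/`CondM`: the conditioning on pairs; `CP`, `CM`: on the boundary data.
* `rf δ z`: refinement with values in the range of the carrier; `thk`, `hlv`; `psh`: the push.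
* `IsCut`: the cover poset as a predicate; `cut`: the construction.
-/

set_option autoImplicit false
set_option linter.unusedSectionVars false

open Finset Classical

noncomputable section

namespace Crest.Agent.X212.Cut21

open Crest.Agent.X212.Hp13 Crest.Agent.X212.Alg36

section basic

variable {P Q : Type} [PartialOrder P] [PartialOrder Q]

/-- a triangle `x ≤ y ≤ w` in the star of `A` -/
def Tri (A : Set P) (x y w : P) : Prop :=
  x ≤ y ∧ y ≤ w ∧ ∃ a ∈ A, Cm a x ∧ Cm a y ∧ Cm a w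

/-- the sheet of level `k` through the edge `x ≤ y` reaches the boundary -/
inductive Tb (A : Set P) (z : P → P → ℤ) : P → P → ℤ → Prop
  | base {x y : P} {k : ℤ} : x ∉ A → y ∉ A → Tb A z x y k
  | upR {x y w : P} {k : ℤ} : Tri A x y w → 0 ≤ k → k < z x y → Tb A z x y k → Tb A z x w k
  | dnR {x y w : P} {k : ℤ} : Tri A x y w → 0 ≤ k → k < z x y → Tb A z x w k → Tb A z x y k
  | upL {x y w : P} {k : ℤ} : Tri A x y w → 0 ≤ k → k < z y w → Tb A z y w k →
      Tb A z x w (k + z x y)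
  | dnL {x y w : P} {k : ℤ} : Tri A x y w → 0 ≤ k → k < z y w → Tb A z x w (k + z x y) →
      Tb A z y w k

/-- no closed component, edge form (`noCl_iff`) -/
def NC (A : Set P) (z : P → P → ℤ) : Prop :=
  ∀ x y k, Dp A x y → 0 ≤ k → k < z x y → Tb A z x y k

/-- the frontier layer: points of `A` under a point of `O₊` -/
def Fr (A : Set P) : Set P := {a | a ∈ A ∧ ∃ o, o ∉ A ∧ a ≤ o}

/-- near `R₊` the surface is determined by its boundary -/
def VertP (A : Set P) (z : P → P → ℤ) : Prop := ∀ a ∈ Fr A, ∃ o, o ∉ A ∧ a ≤ o ∧ z a o = 0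

/-- near `R₋` the surface is determined by its boundary -/
def VertM (A : Set P) (z : P → P → ℤ) : Prop :=
  ∀ a ∈ A, (∃ o, o ∉ A ∧ o ≤ a) → ∃ o, o ∉ A ∧ o ≤ a ∧ z o a = 0

/-- the pair `a ≤ o` (`a ∈ A`, `o ∈ O₊`) reaches, at constant level of `a`, the suture or a lower
neighbour -/
inductive PP (A : Set P) (z : P → P → ℤ) : P → P → Prop
  | sut {x a o : P} : x ∉ A → x ≤ a → PP A z a o
  | low {x a o : P} : x ∈ A → x ≤ a → 0 < z x a → PP A z a o
  | up {a b o : P} : b ∈ A → a ≤ b → b ≤ o → z a b = 0 → PP A z b o → PP A z a o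
  | dn {a b o : P} : b ∈ A → b ≤ a → z b a = 0 → PP A z b o → PP A z a o
  | mv {a o p : P} : p ∉ A → a ≤ p → Cm o p → PP A z a p → PP A z a o

/-- the pair `o ≤ a` (`a ∈ A`, `o ∈ O₋`), dual of `PP` -/
inductive PM (A : Set P) (z : P → P → ℤ) : P → P → Prop
  | sut {x a o : P} : x ∉ A → a ≤ x → PM A z a o
  | hi {x a o : P} : x ∈ A → a ≤ x → 0 < z a x → PM A z a o
  | dn {a b o : P} : b ∈ A → b ≤ a → o ≤ b → z b a = 0 → PM A z b o → PM A z a o
  | up {a b o : P} : b ∈ A → a ≤ b → z a b = 0 → PM A z b o → PM A z a o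
  | mv {a o p : P} : p ∉ A → p ≤ a → Cm o p → PM A z a p → PM A z a o

/-- conditioned along `R₊`: no source, no island -/
def CondP (A : Set P) (z : P → P → ℤ) : Prop := ∀ a ∈ A, ∀ o, o ∉ A → a ≤ o → PP A z a o

/-- conditioned along `R₋` -/
def CondM (A : Set P) (z : P → P → ℤ) : Prop := ∀ a ∈ A, ∀ o, o ∉ A → o ≤ a → PM A z a o

/-- boundary data: the point of `O₊` reaches at constant level the suture or a lower neighbour -/
inductive RP (A : Set P) (z : P → P → ℤ) : P → Prop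
  | sut {x a o : P} : x ∉ A → a ∈ A → x ≤ a → a ≤ o → RP A z o
  | low {x o : P} : x ∈ Op A → x ≤ o → 0 < z x o → RP A z o
  | up {o p : P} : o ≤ p → z o p = 0 → RP A z p → RP A z o
  | dn {o p : P} : p ∈ Op A → p ≤ o → z p o = 0 → RP A z p → RP A z o

/-- boundary data on `O₋`, dual of `RP` -/
inductive RM (A : Set P) (z : P → P → ℤ) : P → Prop
  | sut {x a o : P} : x ∉ A → a ∈ A → a ≤ x → o ≤ a → RM A z o
  | hi {x o : P} : x ∈ Om A → o ≤ x → 0 < z o x → RM A z o
  | dn {o p : P} : p ≤ o → z p o = 0 → RM A z p → RM A z o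
  | up {o p : P} : p ∈ Om A → o ≤ p → z o p = 0 → RM A z p → RM A z o

/-- the boundary has no source in `R₊` -/
def CP (A : Set P) (z : P → P → ℤ) : Prop := ∀ o ∈ Op A, RP A z o

/-- the boundary has no sink in `R₋` -/
def CM (A : Set P) (z : P → P → ℤ) : Prop := ∀ o ∈ Om A, RM A z o

/-- jumps on `O₋` are at most one -/
def JO (A : Set P) (z : P → P → ℤ) : Prop := ∀ x y, y ∈ Om A → x ≤ y → z x y ≤ 1

/-- jumps on `A × A` are at most `n` -/
def JA (A : Set P) (z : P → P → ℤ) (n : ℤ) : Prop := ∀ x ∈ A, ∀ y ∈ A, x ≤ y → z x y ≤ n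

/-- jumps on `A ∪ O₋` are at most one -/
def JK (A : Set P) (z : P → P → ℤ) : Prop := ∀ x y, y ∈ A ∨ y ∈ Om A → x ≤ y → z x y ≤ 1

/-- depth of the refined value under the value at the top of the carrier -/
def dep (δ : Ch P → ℤ) (z : P → P → ℤ) (C : Ch (Ch P)) : ℤ :=
  C.1.inf' C.2.1 fun d => δ d + z d.top C.top.top

/-- the refinement `u C = max_{d ∈ C} (u (top d) - δ d)` -/
def rf (δ : Ch P → ℤ) (z : P → P → ℤ) : Ch (Ch P) → Ch (Ch P) → ℤ :=
  pb (Ch.top ∘ Ch.top) z - cb (dep δ z)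

/-- `δ` is in the range of the carrier and vanishes off `top ⁻¹' A` -/
structure InR (A : Set P) (z : P → P → ℤ) (δ : Ch P → ℤ) : Prop where
  nn : ∀ d, Dom A d → 0 ≤ δ d
  le : ∀ d, Dom A d → δ d ≤ z d.bot d.top
  off : ∀ d : Ch P, d.top ∉ A → δ d = 0

/-- lowest value -/
def dT (A : Set P) (z : P → P → ℤ) (d : Ch P) : ℤ := if d.top ∈ A then z d.bot d.top else 0

/-- middle value inside `A`, lowest value on chains starting in `O₋` -/
def dH (A : Set P) (z : P → P → ℤ) (d : Ch P) : ℤ :=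
  if d.top ∈ A then (if d.bot ∈ A then (z d.bot d.top + 1) / 2 else z d.bot d.top) else 0

/-- thickening of the low sets -/
def thk (A : Set P) (z : P → P → ℤ) : Ch (Ch P) → Ch (Ch P) → ℤ := rf (dT A z) z

/-- halving of the jumps -/
def hlv (A : Set P) (z : P → P → ℤ) : Ch (Ch P) → Ch (Ch P) → ℤ := rf (dH A z) z

/-- `(Q, B)` is the manifold `(P, A)` cut along `z`: a cover of the star of `A` -/
structure IsCut (A : Set P) (z : P → P → ℤ) (B : Set Q) (pr : Q → P) (lev : Q → ℤ) : Prop where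
  mono : Monotone pr
  smono : StrictMono pr
  mem : ∀ b ∈ B, pr b ∈ A ∧ lev b = 0
  mem' : ∀ b ∈ B, ∀ q, Cm b q → pr q ∈ A → lev q = 0 → q ∈ B
  surj : ∀ a ∈ A, ∃ b ∈ B, pr b = a
  lift : ∀ b ∈ B, ∀ x, Cm (pr b) x → ∃ q, Cm b q ∧ pr q = x
  refl : ∀ b ∈ B, ∀ q r, Cm b q → Cm b r → pr q ≤ pr r → q ≤ r
  lv : ∀ q r, Dp B q r → lev r - lev q = z (pr q) (pr r)
  inj : ∀ q r, Dp B q q → Dp B r r → pr q = pr r → lev q = lev r → q = r

/-- `p` is the lift of a point of the star of `a` to the sheet of `(a, 0)` -/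
def Lf (z : P → P → ℤ) (a : P) (p : P × ℤ) : Prop :=
  (a ≤ p.1 ∧ p.2 = z a p.1) ∨ (p.1 ≤ a ∧ p.2 = -z p.1 a)

end basic

section fin

variable {P : Type} [PartialOrder P] [Fintype P]

/-- `A` is thick along `O₊` -/
structure Thick (A : Set P) : Prop where
  inn : ∀ a ∈ Fr A, Ctr {b | b ∈ A ∧ a ≤ b ∧ b ∉ Fr A}
  out : ∀ a ∈ A, Conn {o | o ∉ A ∧ a ≤ o}

/-- the low sets are thick along the frontier -/
def TK (A : Set P) (z : P → P → ℤ) : Prop :=
  ∀ a ∈ Fr A, ∀ n : ℤ, 0 < n → Ctr {b | b ∈ A ∧ a ≤ b ∧ b ∉ Fr A ∧ z a b < n}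

/-- the boundary curves on `R₋` are regular -/
def BR (A : Set P) (z : P → P → ℤ) : Prop :=
  ∀ o ∈ Om A, ∀ y ∈ Om A, o ≤ y → 0 < z o y → Ctr {y | y ∈ Om A ∧ o ≤ y ∧ 0 < z o y}

/-- the conditions on the boundary data -/
structure Bdy (A : Set P) (z : P → P → ℤ) : Prop where
  jo : JO A z
  br : BR A z
  cp : CP A z
  cm : CM A z

/-- the amount of the push: `max (0, z a o - z a (top c))` over `a ∈ c ∩ Fr`, min over `o` -/
def pg (A : Set P) (z : P → P → ℤ) (c : Ch P) : ℤ :=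
  if c.top ∈ A then
    ((Finset.range (∑ x, ∑ y, (z x y).toNat)).filter fun i : ℕ =>
      ∃ a ∈ c.1, a ∈ Fr A ∧ ∀ o, o ∉ A → a ≤ o → z a c.top + i < z a o).card
  else 0

/-- the push off the frontier -/
def psh (A : Set P) (z : P → P → ℤ) : Ch P → Ch P → ℤ := pb Ch.top z + cb (pg A z)

end fin

/-- the points of the cover -/
def CutP (s : St) (z : s.P → s.P → ℤ) : Type := {p : s.P × ℤ // ∃ a ∈ s.A, Lf z a p}

/-- data needed for the order of the cover -/
structure CutOK (s : St) (z : s.P → s.P → ℤ) : Prop where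
  conv : s.A.OrdConnected
  coc : Coc s.A z
  mono : Mono s.A z

/-- the state of the hierarchy -/
structure Stt (s : St) : Prop extends Taut s where
  thick : Thick s.A
  esc : Esc s.A s.A

/-- normal form of a decomposing surface -/
structure NF (A : Type) [PartialOrder A] [Fintype A] (B : Set A) (z : A → A → ℤ) : Prop where
  sf : Sf B z
  jk : JK B z
  cp : CondP B z
  cm : CondM B z

/-! ### leaves -/

/-- REFM: refinement in the range keeps everything -/
def RefStmt : Prop := ∀ (s : St) (z : s.P → s.P → ℤ) (δ : Ch s.P → ℤ), s.A.OrdConnected →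
  Mf 3 s.sd.sd.A → Coc s.A z → Mono s.A z → InR s.A z δ →
    Eqv s.sd.sd.A (pb (Ch.top ∘ Ch.top) z) (rf δ z) ∧ Mono s.sd.sd.A (rf δ z) ∧
    chi s.sd.sd.A (rf δ z) = chi s.A z ∧ (NC s.A z → NC s.sd.sd.A (rf δ z)) ∧
    (CondP s.A z → CondP s.sd.sd.A (rf δ z))

/-- GOOD-CUT, part 1: what holds for every cut -/
def Cut1Stmt : Prop := ∀ (s t : St) (z : s.P → s.P → ℤ) (pr : t.P → s.P) (lev : t.P → ℤ),
  Good s → Coc s.A z → Mono s.A z → NC s.A z → IsCut s.A z t.A pr lev →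
    t.A.OrdConnected ∧ Mf 3 t.A ∧ Bnd ℤ t.A ∧ Bnd (ZMod 2) t.A ∧ ee t.A = ee s.A ∧
    (Esc s.A s.A → Esc t.A t.A)

/-- GOOD-CUT, part 2: the cut along a thickened surface is nice and thick -/
def Cut2Stmt : Prop := ∀ (s t : St) (w : s.P → s.P → ℤ) (pr : t.P → s.sd.sd.P) (lev : t.P → ℤ),
  Good s → Thick s.A → Coc s.A w → Mono s.A w → JK s.A w → BR s.A w →
    IsCut s.sd.sd.A (thk s.A w) t.A pr lev → Nice t.A ∧ Thick t.A

/-- existence of a maximiser in a class -/
def MaxStmt : Prop := ∀ (s : St) (z : s.P → s.P → ℤ), Good s → Coc s.A z → Mono s.A z →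
  ∃ t f w, Desc s t f ∧ Sf t.A w ∧ Eqv t.A (pb f z) w ∧ Max t w

/-- superadditivity -/
def SupStmt : Prop := ∀ (s : St) (z w : s.P → s.P → ℤ), Good s → Thick s.A → Sf s.A z →
  Sf s.A w → Max s z → Max s w →
    ∃ t f u, Desc s t f ∧ Sf t.A u ∧ Eqv t.A (pb f (z + w)) u ∧
      chi s.A z + chi s.A w ≤ chi t.A u

/-- CUT: a surface with conditioned boundary whose sum with `R` is maximal is isotopic to a
surface in normal form, and the cut is taut -/
def CutStmt : Prop := ∀ (s : St) (z : s.P → s.P → ℤ), Good s → Thick s.A → Esc s.A s.A →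
  ee s.A = 0 → Sf s.A z → Bdy s.A z → Max s (z + Rm s.A) →
    ∃ (t : St) (f : t.P → s.P) (z' : t.P → t.P → ℤ) (c : St) (pr : c.P → t.P) (lev : c.P → ℤ),
      Desc s t f ∧ Eqv t.A (pb f z) z' ∧ chi t.A z' = chi s.A z ∧ NF t.P t.A z' ∧
      IsCut t.A z' c.A pr lev ∧ Stt c

/-- STEP: every class is carried by a decomposing surface -/
def StepStmt : Prop := ∀ (s : St) (z : s.P → s.P → ℤ), Stt s → Coc s.A z →
  ∃ (t : St) (f : t.P → s.P) (z' : t.P → t.P → ℤ) (g : t.P → ℤ) (c : St) (pr : c.P → t.P)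
    (lev : c.P → ℤ), Desc s t f ∧ EqD t.A z' (pb f z + cb g) ∧ Max t z' ∧ NF t.P t.A z' ∧
      IsCut t.A z' c.A pr lev ∧ Stt c

end Crest.Agent.X212.Cut21
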