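import Crest.Agent.X212.Cut21.Defs

/-!
# X212 / Cut21 (helper21): `NoCl` on edges, local potentials, stability of the conditions under
subdivision
-/

set_option autoImplicit false
set_option linter.unusedSectionVars false

open Finset Classical

noncomputable section

namespace Crest.Agent.X212.Cut21

open Crest.Agent.X212.Hp13 Crest.Agent.X212.Alg36

section basic

variable {P Q : Type} [PartialOrder P] [PartialOrder Q] {A : Set P} {z z' : P → P → ℤ}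
  {x y w a : P} {k k' : ℤ}

theorem Tri.d12 (h : Tri A x y w) : Dp A x y := let ⟨h1, _, a, ha, c1, c2, _⟩ := h; ⟨h1, a, ha, c1, c2⟩
theorem Tri.d23 (h : Tri A x y w) : Dp A y w := let ⟨_, h2, a, ha, _, c2, c3⟩ := h; ⟨h2, a, ha, c2, c3⟩
theorem Tri.d13 (h : Tri A x y w) : Dp A x w :=
  let ⟨h1, h2, a, ha, c1, _, c3⟩ := h; ⟨h1.trans h2, a, ha, c1, c3⟩
theorem Tri.add {G : Type} [AddCommGroup G] {z : P → P → G} (h : Tri A x y w) (hz : Coc A z) :
    z x w = z x y + z y w :=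
  let ⟨h1, h2, a, ha, c1, c2, c3⟩ := h; hz a ha x y w h1 h2 c1 c2 c3
theorem tri1 (hx : x ∈ A) (h1 : x ≤ y) (h2 : y ≤ w) : Tri A x y w :=
  ⟨h1, h2, x, hx, Cm.rfl, Or.inl h1, Or.inl (h1.trans h2)⟩
theorem tri2 (hy : y ∈ A) (h1 : x ≤ y) (h2 : y ≤ w) : Tri A x y w :=
  ⟨h1, h2, y, hy, Or.inr h1, Cm.rfl, Or.inl h2⟩
theorem tri3 (hw : w ∈ A) (h1 : x ≤ y) (h2 : y ≤ w) : Tri A x y w :=
  ⟨h1, h2, w, hw, Or.inr (h1.trans h2), Or.inr h2, Cm.rfl⟩
theorem tri_lo (ha : a ∈ A) (h0 : a ≤ x) (h1 : x ≤ y) (h2 : y ≤ w) : Tri A x y w :=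
  ⟨h1, h2, a, ha, Or.inl h0, Or.inl (h0.trans h1), Or.inl ((h0.trans h1).trans h2)⟩
theorem tri_hi (ha : a ∈ A) (h1 : x ≤ y) (h2 : y ≤ w) (h3 : w ≤ a) : Tri A x y w :=
  ⟨h1, h2, a, ha, Or.inr ((h1.trans h2).trans h3), Or.inr (h2.trans h3), Or.inr h3⟩
theorem dp_lo (ha : a ∈ A) (h0 : a ≤ x) (h1 : x ≤ y) : Dp A x y :=
  ⟨h1, a, ha, Or.inl h0, Or.inl (h0.trans h1)⟩
theorem dp_hi (ha : a ∈ A) (h1 : x ≤ y) (h2 : y ≤ a) : Dp A x y :=
  ⟨h1, a, ha, Or.inr (h1.trans h2), Or.inr h2⟩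
theorem dp_mid (ha : a ∈ A) (h1 : x ≤ a) (h2 : a ≤ y) : Dp A x y :=
  ⟨h1.trans h2, a, ha, Or.inr h1, Or.inl h2⟩
theorem Tri.map {f : Q → P} (hf : Monotone f) {x y w : Q} (h : Tri (f ⁻¹' A) x y w) :
    Tri A (f x) (f y) (f w) :=
  let ⟨h1, h2, a, ha, c1, c2, c3⟩ := h; ⟨hf h1, hf h2, f a, ha, c1.map hf, c2.map hf, c3.map hf⟩
theorem dom_tri {c : Ch P} (h : Dom A c) (hx : x ∈ c.1) (hy : y ∈ c.1) (hw : w ∈ c.1)
    (h1 : x ≤ y) (h2 : y ≤ w) : Tri A x y w :=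
  let ⟨a, ha, h⟩ := h; ⟨h1, h2, a, ha, h x hx, h y hy, h w hw⟩
theorem self0 {G : Type} [AddCommGroup G] {z : P → P → G} (hz : Coc A z) (hx : x ∈ A) :
    z x x = 0 := hz.self hx Cm.rfl

theorem Tb.R (h : Tri A x y w) (h0 : 0 ≤ k) (h1 : k < z x y) : Tb A z x y k ↔ Tb A z x w k :=
  ⟨Tb.upR h h0 h1, Tb.dnR h h0 h1⟩
theorem Tb.L (h : Tri A x y w) (h0 : 0 ≤ k) (h1 : k < z y w) (e : k' = k + z x y) :
    Tb A z y w k ↔ Tb A z x w k' := e ▸ ⟨Tb.upL h h0 h1, Tb.dnL h h0 h1⟩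

theorem Tb.congr (h : Tb A z x y k) (e : EqD A z' z) : Tb A z' x y k := by
  induction h with
  | base hx hy => exact Tb.base hx hy
  | upR t h0 h1 _ ih => exact Tb.upR t h0 (by rwa [e _ _ t.d12]) ih
  | dnR t h0 h1 _ ih => exact Tb.dnR t h0 (by rwa [e _ _ t.d12]) ih
  | upL t h0 h1 _ ih => exact (Tb.L t h0 (by rwa [e _ _ t.d23]) (by rw [e _ _ t.d12])).1 ih
  | dnL t h0 h1 _ ih => exact (Tb.L t h0 (by rwa [e _ _ t.d23]) (by rw [e _ _ t.d12])).2 ih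

theorem NC.congr (h : NC A z) (e : EqD A z' z) : NC A z' := fun x y k hp h0 h1 =>
  (h x y k hp h0 (by rwa [← e _ _ hp])).congr e

/-- induction along `Tb` for a predicate on edges of the star with a level in the range -/
theorem NC.ind (h : NC A z) (hz : Coc A z) (hm : Mono A z) {G : P → P → ℤ → Prop}
    (hb : ∀ x y k, Dp A x y → x ∉ A → y ∉ A → 0 ≤ k → k < z x y → G x y k)
    (hR : ∀ x y w k, Tri A x y w → 0 ≤ k → k < z x y → (G x y k ↔ G x w k))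
    (hL : ∀ x y w k, Tri A x y w → 0 ≤ k → k < z y w → (G y w k ↔ G x w (k + z x y)))
    (hp : Dp A x y) (h0 : 0 ≤ k) (h1 : k < z x y) : G x y k := by
  have := h x y k hp h0 h1
  induction this with
  | base hx hy => exact hb _ _ _ hp hx hy h0 h1
  | upR t a0 a1 _ ih => exact (hR _ _ _ _ t a0 a1).1 (ih t.d12 a0 a1)
  | dnR t a0 a1 _ ih =>
    have := t.add hz; have := hm _ _ t.d23
    exact (hR _ _ _ _ t a0 a1).2 (ih t.d13 a0 (by omega))
  | upL t a0 a1 _ ih => exact (hL _ _ _ _ t a0 a1).1 (ih t.d23 a0 a1)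
  | dnL t a0 a1 _ ih =>
    have := t.add hz; have := hm _ _ t.d12
    exact (hL _ _ _ _ t a0 a1).2 (ih t.d13 (by omega) (by omega))

/-- the potential on the star of `a` -/
def pot {G : Type} [AddCommGroup G] (z : P → P → G) (a x : P) : G :=
  if a ≤ x then z a x else -z x a

theorem pot_ge {G : Type} [AddCommGroup G] (z : P → P → G) (h : a ≤ x) : pot z a x = z a x :=
  if_pos h
theorem pot_le {G : Type} [AddCommGroup G] {z : P → P → G} (hz : Coc A z) (ha : a ∈ A)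
    (h : x ≤ a) : pot z a x = -z x a := by
  unfold pot
  split_ifs with h'
  · obtain rfl := le_antisymm h h'; simp [self0 hz ha]
  · rfl
theorem pot_sub {G : Type} [AddCommGroup G] {z : P → P → G} (hz : Coc A z) (ha : a ∈ A)
    (hx : Cm a x) (hy : Cm a y) (h : x ≤ y) : z x y = pot z a y - pot z a x := by
  rcases hx with hx | hx
  · rw [pot_ge z hx, pot_ge z (hx.trans h), (tri1 ha hx h).add hz]; abel
  rcases hy with hy | hy
  · rw [pot_le hz ha hx, pot_ge z hy, (tri2 ha hx hy).add hz]; abel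
  · rw [pot_le hz ha hx, pot_le hz ha hy, (tri3 ha h hy).add hz]; abel

theorem op_up (hA : A.OrdConnected) (hx : x ∈ Op A) (h : x ≤ y) : y ∈ Op A :=
  let ⟨hx, a, ha, h'⟩ := hx; ⟨fun hy => hx (hA.out ha hy ⟨h', h⟩), a, ha, h'.trans h⟩
theorem om_dn (hA : A.OrdConnected) (hx : x ∈ Om A) (h : y ≤ x) : y ∈ Om A :=
  let ⟨hx, a, ha, h'⟩ := hx; ⟨fun hy => hx (hA.out hy ha ⟨h, h'⟩), a, ha, h.trans h'⟩
theorem not_up (hA : A.OrdConnected) (ha : a ∈ A) (h0 : a ≤ x) (hx : x ∉ A) (h : x ≤ y) :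
    y ∉ A := fun hy => hx (hA.out ha hy ⟨h0, h⟩)
theorem not_dn (hA : A.OrdConnected) (ha : a ∈ A) (h0 : x ≤ a) (hx : x ∉ A) (h : y ≤ x) :
    y ∉ A := fun hy => hx (hA.out hy ha ⟨h, h0⟩)
theorem fr_dn (ha : a ∈ Fr A) (hx : x ∈ A) (h : x ≤ a) : x ∈ Fr A :=
  let ⟨_, o, ho, h'⟩ := ha; ⟨hx, o, ho, h.trans h'⟩

theorem JK.ja (h : JK A z) : JA A z 1 := fun x _ y hy hxy => h x y (Or.inl hy) hxy
theorem JK.jo (h : JK A z) : JO A z := fun x y hy hxy => h x y (Or.inr hy) hxy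

end basic

section fin

variable {P : Type} [PartialOrder P] [Fintype P] {A : Set P} {z : P → P → ℤ}

/-- the cell of an edge -/
def ec {x y : P} {k : ℤ} (hp : Dp A x y) (h0 : 0 ≤ k) (h1 : k < z x y) : Lv A z :=
  ⟨(Ch.pr x y hp.1, k), (dom_pr hp.1).2 hp, h0, by simpa using h1⟩

theorem tb_face [hz : IsCoc A z] (hm : Mono A z) {p q : Lv A z} (h : q ≤ p) :
    Tb A z q.1.1.bot q.1.1.top q.1.2 ↔ Tb A z p.1.1.bot p.1.1.top p.1.2 := by
  obtain ⟨h1, h2⟩ := Kh11.lv_le.1 h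
  have t1 : Tri A q.1.1.bot q.1.1.top p.1.1.top :=
    dom_tri p.2.1 (h1 q.1.1.bot_mem) (h1 q.1.1.top_mem) p.1.1.top_mem q.1.1.bot_le_top
      (Ch.top_mono h1)
  have t2 : Tri A p.1.1.bot q.1.1.bot p.1.1.top :=
    dom_tri p.2.1 p.1.1.bot_mem (h1 q.1.1.bot_mem) p.1.1.top_mem (Ch.bot_anti h1)
      (Ch.le_top (h1 q.1.1.bot_mem))
  have := t1.add hz.coc
  have := hm _ _ t1.d23
  have := q.2.2.2
  rw [Tb.R t1 q.2.2.1 q.2.2.2, Tb.L t2 q.2.2.1 (by omega) h2]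

theorem noCl_iff [hz : IsCoc A z] (hm : Mono A z) : NoCl A z ↔ NC A z := by
  constructor
  · intro h x y k hp h0 h1
    obtain ⟨d, hd, hd'⟩ := dom_iff.1 (ec hp h0 h1).2.1
    let p := Kh11.lvUp hm (ec hp h0 h1) d hd'.dom hd
    have hp' : p ∈ LA A z := hd'
    obtain ⟨p', ⟨-, hr⟩, q, hq, hqp⟩ := h _ (isCmp_cmp hp')
    have e1 := tb_face hm (Kh11.le_lvUp hm (ec hp h0 h1) d hd'.dom hd)
    have e2 : Tb A z p'.1.1.bot p'.1.1.top p'.1.2 :=
      (tb_face hm (show q ≤ p' from hqp)).1 (Tb.base (fun h => hq ⟨_, q.1.1.bot_mem, h⟩)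
        fun h => hq ⟨_, q.1.1.top_mem, h⟩)
    have e3 := hr.symm.ind (p := fun p : Lv A z => Tb A z p.1.1.bot p.1.1.top p.1.2) e2
      fun a _ b _ hab => tb_face hm hab
    simpa [ec] using e1.2 e3
  · rintro h C ⟨p, hp, rfl⟩
    let E : Lv A z → Prop := fun q => ∀ p ∈ LA A z, q ≤ p → Tch A z (cmp (LA A z) p)
    have k1 : ∀ q q' p0 : Lv A z, p0 ∈ LA A z → q ≤ p0 → q' ≤ p0 → E q → E q' := by
      intro q q' p0 h0 a1 a2 e p hp a3
      by_cases hq : q' ∈ LA A z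
      · rw [cmp_eq ((Rch.of_cm hp hq (Or.inr a3)).trans (Rch.of_cm hq h0 (Or.inl a2)))]
        exact e p0 h0 a1
      · exact ⟨p, mem_cmp_self hp, q', hq, a3⟩
    have k2 : ∀ {x y w x' w' : P} {k k' : ℤ} (t : Tri A x y w) (hp : Dp A x' w') (h0 : 0 ≤ k')
        (h1 : k' < z x' w') (h0' : 0 ≤ k) (h1' : k < z x w), x' ∈ ({x, y, w} : Finset P) →
        w' ∈ ({x, y, w} : Finset P) → k = k' + z x x' →
        (E (ec hp h0 h1) ↔ E (ec t.d13 h0' h1')) := by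
      intro x y w x' w' k k' t hp h0 h1 h0' h1' m1 m2 e
      let c : Ch P := (Ch.pr y w t.2.1).ins x (by
        intro u hu
        simp only [Ch.pr_val, mem_insert, mem_singleton] at hu
        rcases hu with rfl | rfl
        exacts [Or.inl t.1, Or.inl (t.1.trans t.2.1)])
      have hc : Dom A c := by
        obtain ⟨-, -, a, ha, c1, c2, c3⟩ := t
        refine ⟨a, ha, fun u hu => ?_⟩
        simp only [c, Ch.ins_val, Ch.pr_val, mem_insert, mem_singleton] at hu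
        rcases hu with rfl | rfl | rfl <;> assumption
      have hb : c.bot = x := Ch.bot_eq (by simp [c]) fun u hu => by
        simp only [c, Ch.ins_val, Ch.pr_val, mem_insert, mem_singleton] at hu
        rcases hu with rfl | rfl | rfl
        exacts [le_rfl, t.1, t.1.trans t.2.1]
      have l1 : (ec t.d13 h0' h1').1.1 ≤ c := by
        intro u hu
        simp only [ec, Ch.pr_val, mem_insert, mem_singleton] at hu
        rcases hu with rfl | rfl <;> simp [c]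
      have l2 : (ec hp h0 h1).1.1 ≤ c := by
        intro u hu
        simp only [ec, Ch.pr_val, mem_insert, mem_singleton] at hu
        rcases hu with rfl | rfl
        exacts [m1, m2]
      let r := Kh11.lvUp hm (ec t.d13 h0' h1') c hc l1
      have a1 : ec t.d13 h0' h1' ≤ r := Kh11.le_lvUp hm _ c hc l1
      have a2 : ec hp h0 h1 ≤ r := by
        refine Kh11.lv_le.2 ⟨l2, ?_⟩
        have h3 := (Kh11.lv_le.1 a1).2
        have h4 : z x x = 0 := Kh11.dom_self hz.coc hc (by simp [c])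
        have h5 : r.1.1.bot = x := hb
        rw [h3, h5]
        simp [ec, h4, e]
      obtain ⟨d, hd, hd'⟩ := dom_iff.1 hc
      have a3 := Kh11.le_lvUp hm r d hd'.dom hd
      exact ⟨k1 _ _ _ hd' (a2.trans a3) (a1.trans a3), k1 _ _ _ hd' (a1.trans a3) (a2.trans a3)⟩
    have k3 : ∀ x y k, Dp A x y → 0 ≤ k → k < z x y →
        ∀ (hp : Dp A x y) (h0 : 0 ≤ k) (h1 : k < z x y), E (ec hp h0 h1) := by
      intro x y k hp h0 h1
      refine NC.ind h hz.coc hm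
        (G := fun x y k => ∀ (hp : Dp A x y) (h0 : 0 ≤ k) (h1 : k < z x y), E (ec hp h0 h1))
        ?_ ?_ ?_ hp h0 h1
      · intro x y k _ hx hy _ _ hp h0 h1 p hp' hle
        refine ⟨p, mem_cmp_self hp', _, ?_, hle⟩
        rintro ⟨u, hu, hA⟩
        simp only [ec, Ch.pr_val, mem_insert, mem_singleton] at hu
        rcases hu with rfl | rfl
        exacts [hx hA, hy hA]
      · intro x y w k t h0 h1
        have := t.add hz.coc; have := hm _ _ t.d23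
        have h4 : z x x = 0 := let ⟨_, _, a, ha, c1, _⟩ := t; hz.coc.self ha c1
        have := k2 t t.d12 h0 h1 h0 (by omega) (by simp) (by simp) (by omega)
        exact ⟨fun h _ _ _ => this.1 (h _ _ _), fun h _ _ _ => this.2 (h _ _ _)⟩
      · intro x y w k t h0 h1
        have := t.add hz.coc; have := hm _ _ t.d12
        have := k2 (k := k + z x y) t t.d23 h0 h1 (by omega) (by omega) (by simp) (by simp) rfl
        exact ⟨fun h _ _ _ => this.1 (h _ _ _), fun h _ _ _ => this.2 (h _ _ _)⟩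
    refine k3 _ _ _ p.2.1.bt p.2.2.1 p.2.2.2 p.2.1.bt p.2.2.1 p.2.2.2 p hp (Kh11.lv_le.2 ⟨?_, ?_⟩)
    · intro u hu
      simp only [ec, Ch.pr_val, mem_insert, mem_singleton] at hu
      rcases hu with rfl | rfl
      exacts [p.1.1.bot_mem, p.1.1.top_mem]
    · simp [ec, Kh11.dom_self hz.coc p.2.1 p.1.1.bot_mem]

theorem sf_iff : Sf A z ↔ Mono A z ∧ Coc A z ∧ NC A z :=
  ⟨fun ⟨hm, hz, h⟩ => ⟨hm, hz.coc, (noCl_iff hm).1 h⟩,
    fun ⟨hm, hz, h⟩ => ⟨hm, ⟨hz⟩, (@noCl_iff _ _ _ _ _ ⟨hz⟩ hm).2 h⟩⟩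

theorem _root_.Crest.Agent.X212.Hp13.Sf.nc (h : Sf A z) : NC A z := (sf_iff.1 h).2.2

end fin

end Crest.Agent.X212.Cut21
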