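import Crest.Agent.X212.Cut21.Mv2
import Crest.Agent.X212.Kh11.Lev
import Crest.Agent.X212.Alg36.Rev
import Crest.Agent.X212.Sm25.Glu

/-!
# X212 / Cut21 (helper21): the leaves NBH and BALL of P1
-/

set_option autoImplicit false
set_option linter.unusedSectionVars false

open Finset Classical

noncomputable section

namespace Crest.Agent.X212.Cut21

open Crest.Agent.X212.Hp13 hiding exOn_add exOn_neg exOn_congr exOn_pb sub_cl cl_low cl_mono om_low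
  dp_iff coc_iff
open Alg36 (Om Esc mix Clo)
open _root_.Crest.Agent.X212.Hk
open Kh11 (WS)

variable {P R : Type} [PartialOrder P] [Fintype P] [PartialOrder R] {X X' Y G N Z H B : Set P}
  {w : P → P → ℤ} {car : P → R}

theorem ws_val (hZ : Z ⊆ H) : WS (Subtype.val ⁻¹' Z : Set H) Z Subtype.val :=
  WS.of_iso (fun _ k => k) (fun y k => ⟨⟨y, hZ k⟩, k, rfl⟩) fun _ _ _ _ => Iff.rfl

/-- the frontier of an open disc of a surface is connected -/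
theorem conn_cv_ind (hm : MfIn H Z) (hZ : Z ⊆ H) (hu : ∀ x ∈ Z, ∀ y ∈ H, x ≤ y → y ∈ Z)
    (hc : Conn Z) (he : 1 ≤ eu Z) : Conn (Cv H (cb (ind Z))) := by
  have k := Sf30.conn_mix2 hm ((ws_val hZ).conn_iff.2 hc) ((ws_val hZ).eu_eq ▸ he)
  have u : IsUpperSet (Subtype.val ⁻¹' Z : Set H) := fun a b l j => hu _ j _ b.2 l
  have e : ∀ c : Ch H, c ∈ mix (Subtype.val ⁻¹' Z : Set H) ↔ c.up ∈ Cv H (cb (ind Z)) := fun c => by
    rw [Cut21.mix_up u, Cv, Set.mem_ofPred_eq, cb_ind_pos, Ch.top_up, Ch.bot_up]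
    exact ⟨fun j => ⟨c.up_sub, j.2, j.1⟩, fun j => ⟨j.2.2, j.2.1⟩⟩
  intro a ha b hb
  obtain ⟨a, rfl⟩ := Ch.exists_up ha.1
  obtain ⟨b, rfl⟩ := Ch.exists_up hb.1
  exact (k a ((e a).2 ha) b ((e b).2 hb)).map fun c hc d hd l =>
    Rch.of_cm ((e c).1 hc) ((e d).1 hd) (Or.inl (Ch.up_le.2 l))

theorem conn_ca' (h : Rg X) (hw : S1 X w) (hc : Conn (Cv (Om X) w))
    (k : ∀ c ∈ CA X w, ∃ q ∈ Cv (Om X) w, Rch (Cv (cl X) w) c q) : Conn (CA X w) := by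
  intro c hc' d hd
  obtain ⟨q, q1, q2⟩ := k c hc'
  obtain ⟨r, r1, r2⟩ := k d hd
  exact ((ws_ca h hw).rch_iff hc' hd).2 ((q2.trans ((hc q q1 r r1).mono
    (cv_mono om_sub_cl))).trans r2.symm)

/-- an open disc of the boundary -/
theorem om_disc (hN : NmStmt) (h : Rg X) (hG : Bd X G) (hZ : Z ⊆ G)
    (hu : ∀ x ∈ Z, ∀ y ∈ G, x ≤ y → y ∈ Z) (hc : Ctr Z) :
    chi X (cb (ind Z)) = -1 ∧ Conn (Cv (Om X) (cb (ind Z))) ∧ ∃ x ∈ Z, ∃ y, y ∉ Z ∧ y ≤ x := by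
  obtain ⟨m, -, -, -, e⟩ := (hN P).1 X h
  have s := hZ.trans hG.sub
  have u : ∀ x ∈ Z, ∀ y ∈ Om X, x ≤ y → y ∈ Z := fun x a y b l => hu x a y (hG.clo x (hZ a) y b l) l
  obtain ⟨x, x1, y, y1, y2, l⟩ := (hN P).2.1 _ Z m s hc
  have l' := l.resolve_left fun j => y2 (u x x1 y y1 j)
  have m' : MfIn (Om X) Z := m.mono (Set.subset_univ _)
  have lo : Low Set.univ (Om X) Z :=
    ⟨m', Set.subset_univ _, fun y a x l => om_low h.up l (s a), u, hc.conn, y, y2, x, x1, l'⟩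
  exact ⟨by rw [e Z s, lo.ee_eq, hc.eu], conn_cv_ind m' s u hc.conn hc.eu.ge, x, x1, y, y2, l'⟩

theorem ind_split (hG : Bd X G) (ho : N ⊆ X ∪ G) : cb (ind N) = cb (ind (N ∩ X)) + cb (ind (N ∩ G)) := by
  rw [← cb_add]
  congr 1
  funext x
  by_cases a : x ∈ N
  · rcases ho a with b | b
    · simp [ind, a, b, show x ∉ G from fun j => hG.not j b]
    · simp [ind, a, b, hG.not b]
  · simp [ind, a]

theorem opn_up (hX : IsUpperSet X) (ho : Opn X G N) : IsUpperSet (N ∩ X) :=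
  fun _ _ l k => ⟨ho.up _ k.1 _ (sub_cl (hX l k.2)) l, hX l k.2⟩

/-- a ball that meets the boundary in a disc -/
theorem bl_of (hN : NmStmt) (h : Rg X) (hG : Bd X G) (ho : Opn X G N) (hc : Conn (mix (N ∩ X)))
    (he : eu (N ∩ X) = 1) (hz : Ctr (N ∩ G)) : Bl X G N := by
  have u := opn_up h.up ho
  have hb : Bal X (N ∩ X) := ⟨u, Set.inter_subset_right, hc, he⟩
  obtain ⟨a1, a2, x, x1, y, y1, l⟩ := om_disc hN h hG Set.inter_subset_right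
    (fun x a y b l => ⟨ho.up x a.1 y (hG.sub_cl b) l, b⟩) hz
  have s := s1_ind ho.up
  have e : Cv (Om X) (cb (ind N)) = Cv (Om X) (cb (ind (N ∩ G))) := cv_congr fun a b c d _ => by
    have k : ∀ a ∈ Om X, ind N a = ind (N ∩ G) a := fun a b => ind_congr
      ⟨fun j => ⟨j, (ho.sub j).resolve_left b.1⟩, fun j => j.1⟩
    rw [cb, cb, k a b, k c d]
  have q : ∀ x ∈ N, x ∉ X → ∀ y, y ∉ N → (l : y ≤ x) → Ch.pr y x l ∈ Cv (Om X) (cb (ind N)) :=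
    fun x a b y c l => by
      have := hG.sub ((ho.sub a).resolve_left b)
      exact ⟨by simpa using ⟨om_low h.up l this, this⟩, by simpa using cb_ind_pos.2 ⟨c, a⟩⟩
  refine ⟨ho, hz, s, conn_ca' h s (e ▸ a2) fun c k => ?_,
    by rw [ind_split hG ho.sub, chi_add, (hb.sp h).chi, a1]; rfl,
    _, q x x1.1 (hG.not x1.2) y (fun j => y1 ⟨j, hG.low l x1.2⟩) l⟩
  obtain ⟨a, a3, a4⟩ := hG.sub_cl x1.2
  have k1 := cb_ind_pos.1 k.2
  have m : mix (N ∩ X) \ {e : Ch P | e.bot ∈ N} ⊆ Cv (cl X) (cb (ind N)) := fun e j =>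
    have i := (Cut21.mix_up u).1 j.1
    (mem_cv cl_low).2 ⟨sub_cl i.1.2, cb_ind_pos.2 ⟨j.2, i.1.1⟩⟩
  rcases (hc c ((Cut21.mix_up u).2 ⟨⟨k1.2, k.1⟩, fun j => k1.1 j.1⟩) (Ch.pr x a a4)
    ((Cut21.mix_up u).2 ⟨by simpa using ⟨ho.up x x1.1 a (sub_cl a3) a4, a3⟩,
      by simpa using fun _ => hG.not x1.2⟩)).exit (X := {e : Ch P | e.bot ∈ N}) k1.1 with
    ⟨j, -⟩ | ⟨r, r1, r2, t, t1, t2, j⟩
  · exact absurd (by simpa using x1.1) j
  have i := (Cut21.mix_up u).1 r1.1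
  have l : t ≤ r := j.resolve_left fun l =>
    r1.2 (ho.up _ t2 _ (cl_low r.bot_le_top (sub_cl i.1.2)) (Ch.bot_anti l))
  have i' := q _ t2 (fun n => ((Cut21.mix_up u).1 t1).2 ⟨t2, n⟩) _ r1.2 (Ch.bot_anti l)
  exact ⟨_, i', (r2.mono m).trans (Rch.of_cm (m r1) (cv_mono om_sub_cl i')
    (Or.inr (pr_le r.bot_mem (l t.bot_mem))))⟩

theorem nbhStmt (hN : NmStmt) : NbhStmt := fun P _ _ X G B h hG hB hs hc hg => by
  have T := Tw.one P
  have ho : Opn (Ch.top ⁻¹' X) (Ch.top ⁻¹' G) {c : Ch P | Mt B c ∧ c.top ∈ cl X} :=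
    ⟨fun c ⟨⟨b, b1, b2⟩, k⟩ => hG.up h.up (hs b2) k (Ch.le_top b1),
      fun c k d l j => ⟨k.1.mono j, by rwa [cl_sd] at l⟩⟩
  have sB : B ⊆ cl X := hs.trans (Set.union_subset sub_cl hG.sub_cl)
  have c1 : Ctr {c : Ch P | Mt B c ∧ c.top ∈ cl X} := by
    convert (ws_ce sB).ctr_iff.1 ((Alg36.ws_cq B).ctr_iff.2 hc) using 1
    exact Set.ext fun c => and_comm.trans (and_congr_left' (all_low cl_low).symm)
  have c2 : Ctr ({c : Ch P | Mt B c ∧ c.top ∈ cl X} ∩ Ch.top ⁻¹' X) := by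
    refine (WS.of_ge (f := id) (fun _ k => k.1) (fun _ _ _ _ l => l) fun d k => ?_).ctr_iff.2 c1
    convert Pt30.ctr_over (fun _ => True) trivial (h.ctr k.2) using 1
    exact Set.ext fun c => ⟨fun j => ⟨j.2, j.1.2, trivial⟩,
      fun j => ⟨⟨⟨k.1.mono j.1, sub_cl j.2.1⟩, j.2.1⟩, j.1⟩⟩
  refine bl_of hN (h.pre T) (hG.pre T) ho ((hN (Ch P)).2.2 _
    ((h.pre T).mf.mono Set.inter_subset_right) (opn_up (h.pre T).up ho) c2) c2.eu ?_
  convert (ws_ce (Q := G) Set.inter_subset_right).ctr_iff.1 ((Alg36.ws_cq _).ctr_iff.2 hg) using 1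
  exact Set.ext fun c => ⟨fun ⟨⟨⟨b, b1, b2⟩, _⟩, k⟩ =>
    ⟨(all_low hG.low).2 k, b, b1, b2, hG.low (Ch.le_top b1) k⟩, fun ⟨k, b, b1, b2⟩ =>
      ⟨⟨⟨b, b1, b2.1⟩, hG.sub_cl (k _ c.top_mem)⟩, k _ c.top_mem⟩⟩

theorem two_rg (hY : Rg Y) (h : Two car Y X G X') (hG : G ⊆ Y) : Rg X := by
  refine rg_of h.up (hY.mf.mono h.sub) fun x hx => ?_
  obtain ⟨a, a1, a2⟩ := hx.2
  by_cases k : x ∈ G
  · simpa using h.tv Set.univ isLowerSet_univ x ⟨k, hG k⟩ trivial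
  have n : x ∉ Y := fun j => (h.cov x j).elim hx.1 fun j => j.elim k fun j =>
    Set.disjoint_left.1 h.dj a1 (h.up' a2 j)
  have c := hY.ctr (x := x) ⟨a, h.sub a1, a2⟩
  convert c using 1
  refine Set.ext fun b => ⟨fun j => ⟨h.sub j.1, j.2⟩, fun j => ⟨?_, j.2⟩⟩
  exact (c.conn a ⟨h.sub a1, a2⟩ b j).ind a1 fun s hs t _ l => ⟨h.up l, fun i =>
    (h.cov s hs.1).resolve_right fun j => j.elim (fun j => k (h.bd.low hs.2 j))
      fun j => Set.disjoint_left.1 h.dj i (h.up' l j)⟩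

/-- the hypotheses of BALL -/
structure BI' (car : P → R) (Y X G X' Z : Set P) (w : P → P → ℤ) : Prop where
  amb : Amb Y
  two : Two car Y X G X'
  sub : G ⊆ Y
  conn : Conn G
  nb : NB Y G
  td : TD X w
  on : On X G w
  zs : Z ⊆ G
  ctr : Ctr Z

/-- the conclusion of BALL -/
def BO (Y X G Z : Set P) (w : P → P → ℤ) : Prop :=
  ∃ t f N, Tw P t f ∧ Bl (f ⁻¹' X) (f ⁻¹' G) N ∧
    (∀ K, IsLowerSet K → Flat (K ∩ cl X) w → Flat (f ⁻¹' (K ∩ cl X)) (cb (ind N))) ∧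
    (∀ K, IsLowerSet K → (Z ∩ K).Nonempty → (N ∩ f ⁻¹' (G ∩ K)).Nonempty) ∧
    ∀ K, IsLowerSet K → K ⊆ X → Conn K → Flat K w → NB Y K → Disjoint N (f ⁻¹' K)

theorem BI'.rev (h : BI' car Y X G X' Z w) : BI' (car ∘ Ch.top) (Ch.top ⁻¹' Y) (Ch.top ⁻¹' X)
    (Ch.top ⁻¹' G) (Ch.top ⁻¹' X') (Ch.top ⁻¹' G ∩ Ch.bot ⁻¹' Z) (rev w) :=
  have T := Tw.one P
  ⟨h.amb.pre T, h.two.pre T, Set.preimage_mono h.sub, T.conn.2 h.conn, h.nb.pre T,
    Alg36.td_rev h.two.up h.td, by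
      unfold On; rw [om_sd']; exact Alg36.flat_rev (h.two.bd.low_diff h.two.up) h.on,
    Set.inter_subset_left, (Alg36.ctr_bot h.two.bd.low h.zs).2 h.ctr⟩

theorem BO.rev (hZ : Z ⊆ G) (h : BO (Ch.top ⁻¹' Y) (Ch.top ⁻¹' X) (Ch.top ⁻¹' G)
    (Ch.top ⁻¹' G ∩ Ch.bot ⁻¹' Z) (rev w)) : BO Y X G Z w := by
  have T := Tw.one P
  obtain ⟨t, f, N, a, b, c, d, e⟩ := h
  rw [cl_sd] at c
  exact ⟨t, _, N, T.trans a, b, fun K k l => c _ (T.lower k) (Alg36.flat_rev (k.inter cl_low) l),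
    fun K k ⟨z, l⟩ => d _ (T.lower k) ⟨Ch.pt z, by
      show (Ch.top _ ∈ G ∧ Ch.bot _ ∈ Z) ∧ Ch.top _ ∈ K
      simpa using ⟨⟨hZ l.1, l.1⟩, l.2⟩⟩,
    fun K k1 k2 k3 k4 k5 => e _ (T.lower k1) (Set.preimage_mono k2) (T.conn.2 k3)
      (Alg36.flat_rev k1 k4) (k5.pre T)⟩

theorem BI'.sp (hN : NmStmt) (h : BI' car Y X G X' Z w) (e : EqE G w (cb (ind Z)))
    (v : ∀ x ∈ Z, ∀ y ∈ cl X, x ≤ y → w x y = 0) : SP X (w - cb (ind Z)) := by
  have hG := h.two.bd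
  have r := two_rg h.amb.toRg h.two h.sub
  have u : ∀ x ∈ Z, ∀ y ∈ G, x ≤ y → y ∈ Z := fun x a y b l =>
    (cb_ind_eq_zero.1 ((e x (h.zs a) y b l).symm.trans (v x a y (hG.sub_cl b) l))).1 a
  have o : ∀ x, ∀ y ∈ Z, x ≤ y → (w - cb (ind Z)) x y = 0 := fun x y a l =>
    sub_eq_zero.2 (e x (hG.low l (h.zs a)) y (h.zs a) l)
  have o1 : ∀ x ∈ Z, ∀ y ∈ cl X, y ∉ Z → x ≤ y → (w - cb (ind Z)) x y = 1 := fun x a y b c l => by
    simp [cb, ind, a, c, v x a y b l]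
  have o2 : ∀ x y, x ∉ Z → y ∉ Z → (w - cb (ind Z)) x y = w x y := fun x y a b => by
    simp [cb, ind, a, b]
  have s : ∀ x, ∀ y ∈ cl X, x ≤ y → 0 ≤ (w - cb (ind Z)) x y ∧ (w - cb (ind Z)) x y ≤ 1 :=
    fun x y a l => by
      by_cases b : y ∈ Z
      · rw [o x y b l]; omega
      by_cases c : x ∈ Z
      · rw [o1 x c y a b l]; omega
      · rw [o2 x y c b]; exact ⟨h.td.nn x y a l, h.td.le1 x y a l⟩
  have nz : ∀ x ∈ X, x ∉ Z := fun x a b => hG.not (h.zs b) a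
  refine ⟨⟨cocOn_sub h.td.coc (cocOn_cb _), fun x y a l => (s x y a l).1,
    fun x y a l => (s x y a l).2⟩, fun x a y b l => ?_, ?_,
    by rw [chi_sub, h.td.chi, (om_disc hN r hG h.zs u h.ctr).1]; rfl⟩
  · by_cases k : y ∈ G
    · exact sub_eq_zero.2 (e x (hG.low l k) y k l)
    · have k' : x ∉ G := fun j => k (hG.clo x j y b l)
      rw [o2 x y (fun j => k' (h.zs j)) fun j => k (h.zs j)]
      exact h.on x ⟨a, k'⟩ y ⟨b, k⟩ l
  have e1 : CA X (w - cb (ind Z)) = Pt30.Sr X Z ∪ CA X w := Set.ext fun c => by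
    by_cases k : c.bot ∈ Z
    · exact ⟨fun j => Or.inl ⟨j.1, _, c.bot_mem, k⟩, fun j =>
        have i : c.top ∈ X := j.elim And.left And.left
        ⟨i, by rw [o1 _ k _ (sub_cl i) (nz _ i) c.bot_le_top]; exact one_pos⟩⟩
    · refine ⟨fun j => Or.inr ⟨j.1, o2 _ _ k (nz _ j.1) ▸ j.2⟩, fun j => ?_⟩
      have i : c ∈ CA X w := j.elim (fun ⟨i, z, z1, z2⟩ => ⟨i, h.td.pos (sub_cl i) c.bot_mem z1
        (Ch.bot_le z1) (by
          rw [e _ (hG.low (Ch.bot_le z1) (h.zs z2)) z (h.zs z2) (Ch.bot_le z1)]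
          exact cb_ind_pos.2 ⟨k, z2⟩)⟩) id
      exact ⟨i.1, (o2 _ _ k (nz _ i.1)).symm ▸ i.2⟩
  obtain ⟨q, hq⟩ := h.td.ne
  rw [h.on.cv hG] at hq
  obtain ⟨c, c1, c2⟩ := ex_ca r.up (h.td.toS1.z1 r.up) (q := q)
    ⟨(dom_iff' r.up).2 (hG.sub_cl (hq.1 _ q.top_mem)), hq.2⟩
  rw [e1]
  refine Cut21.conn_union ((Pt30.ws_sr r.up r.nice (h.zs.trans hG.sub)).conn_iff.2 h.ctr.conn) h.td.conn
    ⟨c, ⟨c1.1, _, c2 q.top_mem, (cb_ind_pos (x := q.bot).1 ?_).2⟩, c1⟩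
  exact e _ (hq.1 _ q.bot_mem) _ (hq.1 _ q.top_mem) q.bot_le_top ▸ hq.2

theorem BI'.bo (hN : NmStmt) (h : BI' car Y X G X' Z w) (e : EqE G w (cb (ind Z)))
    (v : ∀ x ∈ Z, ∀ y ∈ cl X, x ≤ y → w x y = 0) : BO Y X G Z w := by
  have hG := h.two.bd
  have sp := h.sp hN e v
  have sp' := ((extStmt P Y X (Om X) h.amb.up h.two.up h.two.sub (om_low h.two.up)
    Set.inter_subset_left fun y a v _ l n => ⟨fun j => n (sub_cl (h.two.up l j)), a⟩).2 _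
      (sp.flat.mono Set.inter_subset_left)).2.2.2 sp
  have x1 : EqE (cl X) (Hk.ext X (w - cb (ind Z))) (w - cb (ind Z)) := fun _ _ _ k _ => if_pos k
  have sY := cl_mono h.two.sub
  have fG : Flat G (Hk.ext X (w - cb (ind Z))) := (sp.flat.mono hG.sub).congr (x1.mono hG.sub_cl)
  rcases encStmt P Y _ h.amb sp' with ⟨B, b, e'⟩ | ⟨L, l1, l2, e', b⟩
  swap
  · obtain ⟨z, hz⟩ := h.ctr.ne
    obtain ⟨a, a1, a2⟩ := hG.sub_cl (h.zs hz)
    have k := (x1 z ⟨a, a1, a2⟩ a (sub_cl a1) a2).symm.trans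
      (e' z (sY ⟨a, a1, a2⟩) a (sY (sub_cl a1)) a2)
    have zL : z ∈ L := by_contra fun n => by
      have : a ∉ Z := fun j => hG.not (h.zs j) a1
      by_cases j : a ∈ L <;> simp [cb, ind, hz, this, n, j, v z hz a (sub_cl a1) a2] at k
    have f : Flat G (cb (ind L)) := fun x a y b l => neg_eq_zero.1
      ((e' x (sY (hG.sub_cl a)) y (sY (hG.sub_cl b)) l).symm.trans (fG x a y b l))
    have s := (f.sub_or h.conn).resolve_right fun j => Set.disjoint_left.1 j (h.zs hz) zL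
    exact (h.nb _ _ (Tw.one P) _ b fun c j => s (hG.low c.bot_le_top j)).elim
  have d : Disjoint G B := ((fG.congr (e'.symm.mono (hG.sub_cl.trans sY))).sub_or
    h.conn).resolve_left (h.nb.zero b)
  have n' : ∀ x, ∀ y ∈ X', x ≤ y → (x ∈ B ↔ y ∈ B) := fun x y a l => by
    have k : y ∈ cl Y := sub_cl (h.two.sub' a)
    refine cb_ind_eq_zero.1 ((e' x (cl_low l k) y k l).symm.trans (if_neg fun ⟨c, c1, c2⟩ => ?_))
    exact Set.disjoint_left.1 h.two.dj c1 (h.two.up' c2 a)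
  have sB : B ⊆ X := fun p hp => (h.two.cov p (b.sub hp)).resolve_right fun j => j.elim
    (fun j => Set.disjoint_left.1 d j hp) fun j => by
      obtain ⟨q, q1, r, x, x1, x2⟩ := h.amb.esc p (b.sub hp)
      have s : ∀ q, Rch (Y \ X'ᶜ) p q → q ∈ B := fun q r =>
        r.ind hp fun s _ t ht l => n' s t (not_not.1 ht.2) l
      rcases r.exit (X := X'ᶜ) (not_not.2 j) with ⟨q2, r⟩ | ⟨t, t1, r, y, y1, y2, l⟩
      · exact x1 (b.sub ((n' x q (not_not.1 q2)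
          (x2.resolve_left fun i => x1 (h.amb.up i q1))).2 (s q r)))
      · have l' := l.resolve_left fun i => y2 (h.two.up' i (not_not.1 t1.2))
        have yB := (n' y t (not_not.1 t1.2) l').2 (s t r)
        exact (h.two.cov y y1).elim
          (fun i => Set.disjoint_left.1 h.two.dj (h.two.up l' i) (not_not.1 t1.2))
          fun i => i.elim (fun i => Set.disjoint_left.1 d i yB) y2
  have sN : B ∪ Z ⊆ X ∪ G := Set.union_subset_union sB h.zs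
  have eG : (B ∪ Z) ∩ G = Z := Set.ext fun x => ⟨fun k => k.1.resolve_left
    (Set.disjoint_left.1 d k.2), fun k => ⟨Or.inr k, h.zs k⟩⟩
  have eX : (B ∪ Z) ∩ X = B := Set.ext fun x => ⟨fun k => k.1.resolve_right
    fun j => hG.not (h.zs j) k.2, fun k => ⟨Or.inl k, sB k⟩⟩
  have ew : EqE (cl X) (cb (ind (B ∪ Z))) w := fun x a y c l => by
    rw [ind_split hG sN, eG, eX, Pi.add_apply, Pi.add_apply, ← e' x (sY a) y (sY c) l, x1 x a y c l]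
    simp
  refine ⟨lv0 P, id, B ∪ Z, Tw.refl P, ⟨⟨sN, fun x a y c l => by_contra fun n => ?_⟩,
    eG.symm ▸ h.ctr, h.td.congr h.two.up ew⟩, fun K _ k => k.congr (ew.mono Set.inter_subset_right),
    fun K _ ⟨z, k⟩ => ⟨z, Or.inr k.1, h.zs k.1, k.2⟩, fun K _ k2 k3 k4 k5 => ?_⟩
  · have := h.td.nn x y c l
    rw [← ew x (cl_low l c) y c l] at this
    simp [cb, ind, n, show x ∈ B ∪ Z from a] at this
  · exact (((k4.congr (ew.mono (k2.trans sub_cl))).sub_or k3).resolve_left fun j =>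
      k5.zero b fun x i => eX ▸ ⟨j i, k2 i⟩).symm

theorem BI'.low (hN : NmStmt) (h : BI' car Y X G X' Z w) (e : EqE G w (-cb (ind Z))) :
    BO Y X G Z w := by
  have hG := h.two.bd
  have lz : ∀ y ∈ Z, ∀ x, x ≤ y → x ∈ Z := fun y a x l => by_contra fun n => by
    have := h.td.nn x y (hG.sub_cl (h.zs a)) l
    rw [e x (hG.low l (h.zs a)) y (h.zs a) l] at this
    simp [cb, ind, a, n] at this
  refine (h.rev.bo hN (fun c a d b l => ?_) fun c a d _ l => ?_).rev h.zs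
  · rw [Hp13.rev, e _ (hG.low d.bot_le_top b) _ (hG.low c.bot_le_top a) (Ch.bot_anti l)]
    simp [cb, ind, show c.top ∈ G from a, show d.top ∈ G from b]
  · have k := lz _ a.2 _ (Ch.bot_anti l)
    rw [Hp13.rev, e _ (h.zs k) _ (h.zs a.2) (Ch.bot_anti l)]
    simp [cb, ind, k, show c.bot ∈ Z from a.2]

theorem ballStmt (hN : NmStmt) : BallStmt := fun P _ _ R _ car Y X G X' Z w a b c d e f g i j k => by
  have h : BI' car Y X G X' Z w := ⟨a, b, c, d, e, f, g, i, j⟩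
  refine k.elim (fun k => (h.rev.low hN fun c a d b' l => ?_).rev i) (h.low hN)
  rw [Hp13.rev, k _ (b.bd.low d.bot_le_top b') _ (b.bd.low c.bot_le_top a) (Ch.bot_anti l)]
  simp [cb, ind, show c.top ∈ G from a, show d.top ∈ G from b']

end Crest.Agent.X212.Cut21
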