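import Crest.Agent.X212.Hp13.Tra1
import Crest.Agent.X212.Hp13.Tst
import Crest.Agent.X212.Sf30.P2Rev
import Crest.Agent.X212.Kh11.Leaf

/-!
# X212 / Cut21 (helper21): the leaves BRG and ENC of P1
-/

set_option autoImplicit false
set_option linter.unusedSectionVars false

open Finset Classical

noncomputable section

namespace Crest.Agent.X212.Cut21

open Crest.Agent.X212.Hp13 Alg36 Ind26
open Pt30 hiding Dsc
open Hk
open Kh11 (WS sctr_min sctr_max)

variable {P R : Type} [PartialOrder P] [Fintype P] [PartialOrder R] [Fintype R]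

/-- `Mf` goes down along an embedding whose image contains the star -/
theorem mf_img {d : ℕ} {A : Set P} {B : Set R} {f : R → P} (hf : ∀ a b, f a ≤ f b ↔ a ≤ b)
    (hA : ∀ a ∈ A, ∃ b ∈ B, f b = a) (hs : ∀ a ∈ A, ∀ x, Cm a x → ∃ y, f y = x) (h : Mf d B) :
    Mf d A := by
  have inj : Function.Injective f := fun a b e => le_antisymm ((hf a b).1 e.le) ((hf b a).1 e.ge)
  have mon : Monotone f := fun a b => (hf a b).2
  have le : ∀ c e : Ch R, Ch.img f mon c ≤ Ch.img f mon e ↔ c ≤ e := fun c e =>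
    ⟨fun k x hx => by
      obtain ⟨y, hy, l⟩ := Ch.mem_img.1 (k (Ch.mem_img.2 ⟨x, hx, rfl⟩))
      exact inj l ▸ hy, fun k => Ch.img_mono mon k⟩
  have ij : Function.Injective (Ch.img f mon) := fun a b e =>
    le_antisymm ((le a b).1 e.le) ((le b a).1 e.ge)
  have cd : ∀ c : Ch R, (Ch.img f mon c).1.card = c.1.card := fun c => card_image_of_injective _ inj
  have ex : ∀ c : Ch P, Mt A c → ∃ e, Ch.img f mon e = c ∧ Mt B e := fun c ⟨a, ha, k⟩ => by
    obtain ⟨b, hb, rfl⟩ := hA a k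
    refine ⟨⟨univ.filter (f · ∈ c.1), ⟨b, by simpa using ha⟩, fun x hx y hy _ => ?_⟩,
      Ch.ext (Finset.ext fun x => Ch.mem_img.trans ⟨fun j => ?_, fun hx => ?_⟩), b, by simpa using ha, hb⟩
    · exact (c.total (by simpa using hx) (by simpa using hy)).imp (hf _ _).1 (hf _ _).1
    · obtain ⟨y, hy, rfl⟩ := j
      simpa using hy
    · obtain ⟨y, rfl⟩ := hs _ k x (c.total ha hx)
      exact ⟨y, by simpa using hx, rfl⟩
  refine ⟨fun c k => ?_, fun c k => ?_, fun c k l => ?_, fun c k => ?_⟩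
  · obtain ⟨e, rfl, m⟩ := ex c k
    rw [cd]; exact h.card_le e m
  · obtain ⟨e, rfl, m⟩ := ex c k
    rw [← h.eul e m]
    refine (sum_bij (fun e' _ => Ch.img f mon e') (fun _ j => by simpa [le] using j)
      (fun _ _ _ _ j => ij j) (fun c' j => ?_) fun _ _ => by rw [Ch.sg, Ch.sg, cd]).symm
    obtain ⟨e', rfl, -⟩ := ex c' (k.mono (by simpa using j))
    exact ⟨e', by simpa [le] using j, rfl⟩
  · obtain ⟨e, rfl, m⟩ := ex c k
    have lt : ∀ c e : Ch R, Ch.img f mon c < Ch.img f mon e ↔ c < e := fun c e => by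
      simp only [lt_iff_le_not_ge, le]
    intro a ha b hb
    obtain ⟨a, rfl, -⟩ := ex a (k.mono ha.le)
    obtain ⟨b, rfl, -⟩ := ex b (k.mono hb.le)
    exact (h.conn e m (cd e ▸ l) a ((lt _ _).1 ha) b ((lt _ _).1 hb)).map fun x hx y hy j =>
      Rch.of_cm ((lt _ _).2 hx) ((lt _ _).2 hy) (Or.inl ((le _ _).2 j))
  · obtain ⟨e, rfl, m⟩ := ex c k
    obtain ⟨e', a, b⟩ := h.pure e m
    exact ⟨_, (le _ _).2 a, (cd _).trans b⟩

variable {X Y : Set P} {w : P → P → ℤ}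

theorem qe_eq (hX : IsUpperSet X) : Qe X w = Cv (cl X) w := Set.ext fun c =>
  and_congr_left' ((dom_up hX).trans ⟨fun k _ hx => cl_low (Ch.le_top hx) k, fun k => k _ c.top_mem⟩)

theorem cv_om (hX : IsUpperSet X) {c : Ch P} : c ∈ Cv (Om X) w ↔ c ∈ Qe X w ∧ c ∉ CA X w :=
  ⟨fun k => ⟨⟨(dom_up hX).2 (k.1 _ c.top_mem).2, k.2⟩, fun l => (k.1 _ c.top_mem).1 l.1⟩,
    fun ⟨k, l⟩ => ⟨fun _ hx => om_low hX (Ch.le_top hx) ⟨fun j => l ⟨j, k.2⟩, (dom_up hX).1 k.1⟩,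
      k.2⟩⟩

theorem mfIn_ca (h : Rg X) (hw : S1 X w) : MfIn (mx w) (CA X w) := by
  have z := (s1_iff h.up).1 hw
  have : IsCoc X w := ⟨z.coc⟩
  have q : ∀ c ∈ CA X w, ∀ e ∈ mx w, Cm c e → e ∈ Qe X w := fun c k e l m =>
    ⟨m.elim (fun j => dom_top (h.up (Ch.top_mono j) k.1)) (dom_top k.1).mono, l⟩
  exact mf_img (f := fun p : Lv X w => (⟨Pt30.ch p, (ch_mem p).2⟩ : mx w)) (fun _ _ => z.ch_le)
    (fun a k => ⟨cel (q _ k _ a.2 Cm.rfl), k, rfl⟩)
    (fun a k x l => ⟨cel (q _ k _ x.2 l), rfl⟩) (z.mf h.mf (S := CA X w) subset_rfl)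

theorem chi_ca (h : Rg X) (hw : S1 X w) : chi X w = eu (CA X w) := by
  have z := (s1_iff h.up).1 hw
  have : IsCoc X w := ⟨z.coc⟩
  rw [← eu_LA h.mf z.mono, la_eq h.up]
  exact z.eu_pre (mx_qe subset_rfl)

theorem Hk.Rg.ctr_ge (h : Rg X) {o : P} (ho : o ∈ cl X) : Ctr {i | i ∈ X ∧ o ≤ i} := by
  by_cases k : o ∈ X
  · exact sctr_min ⟨k, le_rfl⟩ fun _ l => l.2
  · exact Nice.ctr_ge h.up.ordConnected h.nice ⟨k, ho⟩

theorem ws_ca (h : Rg X) (hw : S1 X w) : WS (CA X w) (Cv (cl X) w) id := by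
  have z := (s1_iff h.up).1 hw
  refine WS.of_ge (fun c k => qe_eq h.up ▸ mx_qe subset_rfl k) (fun _ _ _ _ l => l) fun e he => ?_
  convert ctr_over (fun _ => True) trivial (Hk.Rg.ctr_ge h (he.1 _ e.top_mem)) using 1
  exact Set.ext fun c => ⟨fun k => ⟨k.2, k.1.1, trivial⟩,
    fun k => ⟨⟨k.2.1, z.up (dom_top k.2.1) k.1 he.2⟩, k.1⟩⟩

theorem ex_ca (hX : IsUpperSet X) (z : Z1 X w) {q : Ch P} (hq : q ∈ Qe X w) :
    ∃ c ∈ CA X w, q ≤ c :=
  let ⟨u, hu, l⟩ := (dom_up hX).1 hq.1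
  have k : (tp q u l).top ∈ X := by simpa using hu
  ⟨tp q u l, ⟨k, z.up (dom_top k) (le_tp _ _ _) hq.2⟩, le_tp _ _ _⟩

theorem td_ctr (h : Rg X) (hw : TD X w) : Ctr (CA X w) := by
  have z := (s1_iff h.up).1 hw.toS1
  obtain ⟨q, hq⟩ := hw.ne
  obtain ⟨a, b⟩ := (cv_om h.up).1 hq
  obtain ⟨c, k, l⟩ := ex_ca h.up z a
  exact z.ctr h.mf subset_rfl hw.conn k a b (Or.inr l) (chi_ca h hw.toS1 ▸ hw.chi.ge)

theorem conn_cv (h : Rg X) (hw : S1 X w) (hc : Conn (CA X w)) (h1 : 1 ≤ chi X w) :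
    Conn (Cv (Om X) w) := fun q hq q' hq' => by
  have z := (s1_iff h.up).1 hw
  obtain ⟨a, b⟩ := (cv_om h.up).1 hq
  obtain ⟨a', b'⟩ := (cv_om h.up).1 hq'
  obtain ⟨c, k, l⟩ := ex_ca h.up z a
  obtain ⟨c', k', l'⟩ := ex_ca h.up z a'
  have e := z.rim h.mf subset_rfl (mx_upper z h.up subset_rfl) hc (chi_ca h hw ▸ h1)
    (fun q _ => Hp13.cmp (Cv (Om X) w) q) (fun _ _ _ _ _ _ _ _ => rfl)
    (fun q a b _ _ r c l _ => cmp_eq (Rch.of_cm ((cv_om h.up).2 ⟨a, b⟩) ((cv_om h.up).2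
      ⟨c, fun j => b (mx_upper z h.up subset_rfl l j)⟩) (Or.inr l))) a b k l a' b' k' l'
  exact (e ▸ mem_cmp_self hq' : q' ∈ Hp13.cmp _ q).2

theorem conn_ca (h : Rg X) (hw : S1 X w) (hs : Sf X w) (hc : Conn (Cv (Om X) w)) :
    Conn (CA X w) := by
  have z := (s1_iff h.up).1 hw
  have : IsCoc X w := ⟨z.coc⟩
  have s : CA X w ⊆ Cv (cl X) w := fun c k => qe_eq h.up ▸ mx_qe subset_rfl k
  have k : ∀ c ∈ CA X w, ∃ q ∈ Cv (Om X) w, Rch (Cv (cl X) w) c q := fun c k => by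
    have l : cel (mx_qe subset_rfl k) ∈ LA X w := by rw [la_eq h.up]; exact k
    obtain ⟨p, p1, q, q1, q2⟩ := hs.noCl _ (isCmp_cmp l)
    have m : ∀ p : Lv X w, Pt30.ch p ∈ Cv (cl X) w := fun p => qe_eq h.up ▸ ch_mem p
    refine ⟨Pt30.ch q, (cv_om h.up).2 ⟨ch_mem q, fun j => q1 (by rw [la_eq h.up]; exact j)⟩,
      (p1.2.map (f := Pt30.ch) fun a _ b _ j => Rch.of_cm (m a) (m b) (Or.inl (z.ch_le.2 j))).trans
        (Rch.of_cm (m p) (m q) (Or.inr (z.ch_le.2 q2)))⟩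
  intro c hc' d hd
  obtain ⟨q, q1, q2⟩ := k c hc'
  obtain ⟨r, r1, r2⟩ := k d hd
  exact ((ws_ca h hw).rch_iff hc' hd).2 ((q2.trans ((hc q q1 r r1).mono
    fun e j => ⟨fun x l => om_cl (j.1 x l), j.2⟩)).trans r2.symm)

theorem brgStmt : BrgStmt := fun _ _ _ X w h hw =>
  ⟨mfIn_ca h hw, chi_ca h hw, ws_ca h hw, fun k =>
    have : IsCoc X w := ⟨(coc_iff h.up).1 hw.coc⟩
    ⟨(td_dsc h.up k).sf, conn_cv h hw k.conn k.chi.ge, td_ctr h k⟩,
    fun a b _ => conn_ca h hw a b⟩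

theorem mix_up {B : Set P} (hB : IsUpperSet B) {c : Ch P} : c ∈ mix B ↔ c.top ∈ B ∧ c.bot ∉ B :=
  ⟨fun ⟨a, _, hb, l⟩ => ⟨(mt_top hB).1 a, fun k => l (hB (Ch.bot_le hb) k)⟩,
    fun k => ⟨(mt_top hB).2 k.1, _, c.bot_mem, k.2⟩⟩

/-- a region whose `mix` is a sphere -/
theorem bal_of (h : Rg Y) (hc : Conn (CA Y w)) (h2 : eu (CA Y w) = 2) {B : Set P}
    (hB : IsUpperSet B) (hs : B ⊆ Y) (e : mix B = CA Y w) : Bal Y B :=
  ⟨hB, hs, e ▸ hc, by have := Mf.eu_mix (h.mf.mono hs); rw [e, h2] at this; omega⟩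

theorem encStmt : EncStmt := fun P _ _ Y w h hw => by
  have z := (s1_iff h.up).1 hw.toS1
  have e2 : eu (CA Y w) = 2 := chi_ca h.toRg hw.toS1 ▸ hw.chi
  obtain ⟨g, g0, g1⟩ := ext_bnd h.up h.up subset_rfl h.bnd hw.coc hw.flat
  have g2 : ∀ x, ∀ y ∈ cl Y, x ≤ y → w x y = g y - g x := fun x y a l => by
    rw [← g1 x y a l, Hk.ext, if_pos a]
  obtain ⟨c, hc⟩ : (CA Y w).Nonempty := by
    by_contra k
    rw [eu, filter_false_of_mem fun c _ j => k ⟨_, j _ c.top_mem⟩] at e2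
    simp at e2
  have g3 : ∀ x, ∀ y ∈ cl Y, x ≤ y → g x = g y ∨ (g x = g c.bot ∧ g y = g c.bot + 1) :=
    fun x y a l => by
      have := hw.nn x y a l
      have := hw.le1 x y a l
      have := g2 x y a l
      by_cases k : w x y = 0
      · omega
      obtain ⟨d, hd, j⟩ := ex_ca h.up z (q := Ch.pr x y l)
        ⟨(dom_up h.up).2 (by rw [Ch.top_pr]; exact a), by simp; omega⟩
      have b1 := z.bot_bot (dom_top hd.1) j (by simp; omega)
      have b2 := (hw.conn c hc d hd).eq (g := fun c => g c.bot) fun c m d n j => by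
        have := z.bot_bot (dom_top n.1) j m.2
        have := g2 _ _ (cl_low c.bot_le_top (sub_cl m.1)) (Ch.bot_anti j)
        omega
      have := g2 _ _ (cl_low l a) (by simpa using Ch.bot_anti j : d.bot ≤ x)
      simp only [Ch.bot_pr] at b1
      omega
  have g4 : ∀ a ∈ Y, ∃ x, g x = 0 ∧ ((g a = g c.bot ∨ g a = g c.bot + 1) ↔
      (g x = g c.bot ∨ g x = g c.bot + 1)) := fun a ha => by
    obtain ⟨b, hb, r, x, hx, l⟩ := h.esc a ha
    refine ⟨x, g0 x hx, (r.ind (p := fun t => (g a = g c.bot ∨ g a = g c.bot + 1) ↔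
      (g t = g c.bot ∨ g t = g c.bot + 1)) Iff.rfl fun s _ t ht j => ?_).trans ?_⟩
    · have := g3 s t (sub_cl ht) j
      omega
    · have := g3 x b (sub_cl hb) (l.resolve_left fun j => hx (h.up j hb))
      omega
  have g5 := g3 _ _ (sub_cl hc.1) c.bot_le_top
  have g6 := g2 _ _ (sub_cl hc.1) c.bot_le_top
  have g7 := hc.2
  obtain ⟨x, x1, x2⟩ := g4 _ hc.1
  have g8 : ∀ a, g a = g c.bot ∨ g a = g c.bot + 1 := fun a => by
    by_cases k : a ∈ Y
    · obtain ⟨y, y1, y2⟩ := g4 a k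
      omega
    · have := g0 a k
      omega
  by_cases k : g c.bot = 0
  · have i : ∀ a, ind {y | g y = 1} a = g a := fun a => by
      have := g8 a
      simp only [ind, Set.mem_ofPred_eq]; split_ifs <;> omega
    have s : {y | g y = 1} ⊆ Y := fun a j => by_contra fun n => by
      have := g0 a n; simp only [Set.mem_ofPred_eq] at j; omega
    have u : IsUpperSet {y | g y = 1} := fun a b l j => by
      have := g3 a b (sub_cl (h.up l (s j))) l
      simp only [Set.mem_ofPred_eq] at j ⊢; omega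
    refine Or.inl ⟨_, bal_of h.toRg hw.conn e2 u s (Set.ext fun d => (mix_up u).trans
      ⟨fun j => ⟨s j.1, ?_⟩, fun j => ?_⟩), fun x _ y a l => by rw [g2 x y a l, cb, i, i]⟩
    · have := g2 _ _ (sub_cl (s j.1)) d.bot_le_top
      have := g8 d.bot
      simp only [Set.mem_ofPred_eq] at j; omega
    · have := g2 _ _ (sub_cl j.1) d.bot_le_top
      have := g8 d.bot
      have := g8 d.top
      have := j.2
      simp only [Set.mem_ofPred_eq]; omega
  · have i : ∀ a, ind {y | g y = -1} a = -g a := fun a => by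
      have := g8 a
      simp only [ind, Set.mem_ofPred_eq]; split_ifs <;> omega
    have s : {y | g y = -1} ⊆ Y := fun a j => by_contra fun n => by
      have := g0 a n; simp only [Set.mem_ofPred_eq] at j; omega
    have u : IsLowerSet {y | g y = -1} := fun b a l j => by
      have := g3 a b (sub_cl (s j)) l
      simp only [Set.mem_ofPred_eq] at j ⊢; omega
    have u' : IsUpperSet (Ch.bot ⁻¹' {y | g y = -1} : Set (Ch P)) := fun _ _ l j =>
      u (Ch.bot_anti l) j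
    have t : IsUpperSet (Ch.top ⁻¹' Y : Set (Ch P)) := h.up.preimage Ch.top_mono
    have r := ws_rev z subset_rfl
    refine Or.inr ⟨_, u, s, fun x _ y a l => by
      rw [g2 x y a l, Pi.neg_apply, Pi.neg_apply, cb, i, i]; ring, bal_of ⟨t, Mf.sd h.mf, Nice.sd h.up.ordConnected h.nice⟩ (w := rev w)
        (r.conn_iff.2 hw.conn) (r.eu_eq.trans e2) u' (fun d j => h.up d.bot_le_top (s j))
        (Set.ext fun d => (mix_up u').trans ⟨fun j => ⟨h.up d.top.bot_le_top (s j.1), ?_⟩,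
          fun j => ?_⟩)⟩
    · have m : d.bot.bot ∈ cl Y := cl_low (Ch.le_top (d.bot_le_top d.bot.bot_mem))
        (sub_cl (h.up d.top.bot_le_top (s j.1)))
      have := g2 _ _ m (Ch.bot_anti d.bot_le_top)
      have := g8 d.bot.bot
      simp only [Set.mem_preimage, Set.mem_ofPred_eq, rev] at j ⊢; omega
    · have m : d.bot.bot ∈ cl Y := cl_low (Ch.le_top (d.bot_le_top d.bot.bot_mem)) (sub_cl j.1)
      have := g2 _ _ m (Ch.bot_anti d.bot_le_top)
      have := g8 d.bot.bot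
      have := g8 d.top.bot
      have := j.2
      simp only [Set.mem_preimage, Set.mem_ofPred_eq, rev] at this ⊢; omega

end Crest.Agent.X212.Cut21
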