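import Crest.Agent.X212.Cut21.Tau

/-!
# X212 / Cut21 (helper21): a competitor in the cut gives a competitor below; `cut_max`
-/

set_option autoImplicit false
set_option linter.unusedSectionVars false

open Finset Classical

noncomputable section

namespace Crest.Agent.X212.Cut21

open Crest.Agent.X212.Hp13 Crest.Agent.X212.Alg36 Crest.Agent.X212.Ind26

variable {s c : St} {z : s.P → s.P → ℤ} {π : c.P → s.P}

/-- push a function on the cut down -/
def dnF {G : Type} [Zero G] (s c : St) (π : c.P → s.P) (g : c.P → G) (x : s.P) : G :=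
  if h : ∃ b ∈ c.A, π b = x then g h.choose else 0

theorem dnF_eq {G : Type} [Zero G] (h : Lift s c π) (g : c.P → G) {b : c.P} (hb : b ∈ c.A) :
    dnF s c π g (π b) = g b := by
  have e : ∃ b' ∈ c.A, π b' = π b := ⟨b, hb, rfl⟩
  rw [dnF, dif_pos e, h.bij.injOn e.choose_spec.1 hb e.choose_spec.2]

theorem dnF_off {G : Type} [Zero G] (h : Lift s c π) (g : c.P → G) {x : s.P} (hx : x ∉ s.A) :
    dnF s c π g x = 0 := dif_neg fun ⟨_, hb, e⟩ => hx (e ▸ h.mem hb)

theorem sum_eps_dnF (h : Lift s c π) {g : c.P → ℤ} (hg : ∀ q, q ∉ c.A → g q = 0) :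
    ∑ x, eps x * dnF s c π g x = ∑ q, eps q * g q := by
  rw [← sum_filter_of_ne (p := (· ∈ s.A)) (s := univ) fun x _ hx => by
      by_contra hA; exact hx (by rw [dnF_off h g hA, mul_zero]),
    ← sum_filter_of_ne (p := (· ∈ c.A)) (s := univ) fun x _ hx => by
      by_contra hA; exact hx (by rw [hg x hA, mul_zero])]
  symm
  refine sum_bij (fun q _ => π q) (fun q hq => ?_) (fun q hq r hr e => ?_) (fun x hx => ?_)
    fun q hq => ?_
  · simpa using h.mem (by simpa using hq)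
  · exact h.bij.injOn (by simpa using hq) (by simpa using hr) e
  · obtain ⟨b, hb, e⟩ := h.exA (a := x) (by simpa using hx)
    exact ⟨b, by simpa using hb, e⟩
  · have hq : q ∈ c.A := by simpa using hq
    rw [lift_eps h hq, dnF_eq h g hq]

/-- the data of a competitor in the cut -/
structure Cpt (s c : St) (z : s.P → s.P → ℤ) (π : c.P → s.P) (lev : c.P → ℤ) (g : s.P → ℤ)
    (g' : c.P → ℤ) : Prop where
  cov : Cov s c z π
  conv : s.A.OrdConnected
  coc : Coc s.A z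
  mono : Mono s.A z
  lv : ∀ q r, Dp c.A q r → lev r - lev q = z (π q) (π r)
  l0 : ∀ b ∈ c.A, lev b = 0
  off : ∀ x, x ∉ s.A → g x = 0
  off' : ∀ x, x ∉ c.A → g' x = 0
  eq : ∀ b ∈ c.A, g (π b) = g' b
  mono' : Mono c.A (Rm c.A + cb g')

namespace Cpt

variable {lev : c.P → ℤ} {g : s.P → ℤ} {g' : c.P → ℤ} (h : Cpt s c z π lev g g')
include h

theorem hB : c.A.OrdConnected := cov_conv h.cov h.conv h.coc h.mono

omit h in
theorem val (x y : s.P) : (z + Rm s.A + cb g) x y = z x y + (um s.A y - um s.A x) + (g y - g x) := rfl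

omit h in
theorem val' (p q : c.P) : (Rm c.A + cb g') p q = (um c.A q - um c.A p) + (g' q - g' p) := rfl

theorem g_le {x y : s.P} (hx : x ∈ s.A) (hxy : x ≤ y) (hy : y ∉ s.A ∨ z x y ≠ 0) : g x ≤ 0 := by
  obtain ⟨b, hb, rfl⟩ := h.cov.exA hx
  obtain ⟨q, hq, rfl⟩ := lift_up h.cov.toLift hb hxy
  have hq' : q ∉ c.A := fun h' => by
    have := (h.cov.up b hb q hq).1 h'; tauto
  have := h.mono' _ _ (Dp.of_left hb hq)
  rw [val', um_mem hb, um_ge hb hq, h.off' q hq'] at this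
  rw [h.eq b hb]; omega

theorem g_ge {x y : s.P} (hy : y ∈ s.A) (hxy : x ≤ y) (hx : x ∉ s.A ∨ z x y ≠ 0) : -1 ≤ g y := by
  obtain ⟨b, hb, rfl⟩ := h.cov.exA hy
  obtain ⟨q, hq, rfl⟩ := lift_dn h.cov.toLift hb hxy
  have hq' : q ∉ c.A := fun h' => by
    have := (h.cov.dn b hb q hq).1 h'; tauto
  have := h.mono' _ _ (Dp.of_right hb hq)
  rw [val', um_mem hb, um_le h.hB hb hq hq', h.off' q hq'] at this
  rw [h.eq b hb]; omega

theorem monoW : Mono s.A (z + Rm s.A + cb g) := by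
  intro x y hp
  have h0 := h.mono _ _ hp
  by_cases hx : x ∈ s.A <;> by_cases hy : y ∈ s.A
  · rw [val, um_mem hx, um_mem hy]
    by_cases e : z x y = 0
    · obtain ⟨b, hb, rfl⟩ := h.cov.exA hx
      obtain ⟨q, hq, rfl⟩ := lift_up h.cov.toLift hb hp.1
      have hq' := (h.cov.up b hb q hq).2 ⟨hy, e⟩
      have := h.mono' _ _ (Dp.of_left hb hq)
      rw [val', um_mem hb, um_mem hq'] at this
      rw [h.eq b hb, h.eq q hq']; omega
    · have := h.g_le hx hp.1 (Or.inr e)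
      have := h.g_ge hy hp.1 (Or.inr e)
      omega
  · have := h.g_le hx hp.1 (Or.inl hy)
    rw [val, um_mem hx, um_ge hx hp.1, h.off y hy]; omega
  · have := h.g_ge hy hp.1 (Or.inl hx)
    rw [val, um_mem hy, um_le h.conv hy hp.1 hx, h.off x hx]; omega
  · have := mono_Rm _ _ hp
    rw [Rm_um] at this
    rw [val, h.off x hx, h.off y hy]; omega

theorem cocW : Coc s.A (z + Rm s.A + cb g) := (h.coc.add coc_Rm).add (coc_cb g)

theorem thinP (hc : CondP s.A z) {x y : s.P} {m : ℤ} (hx : x ∈ s.A) (hy : y ∉ s.A) (hxy : x ≤ y)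
    (h0 : 0 < m) (h1 : m ≤ z x y) : Tb s.A (z + Rm s.A + cb g) x y (m - 1 - g x) := by
  obtain ⟨N, hN⟩ : ∃ N : ℤ, ∀ x y, z x y ≤ N :=
    let ⟨N, hN⟩ := (Set.finite_range fun p : s.P × s.P => z p.1 p.2).bddAbove
    ⟨N, fun x y => hN ⟨(x, y), rfl⟩⟩
  obtain ⟨n, hn⟩ : ∃ n : ℕ, N - m < n := ⟨(N - m + 1).toNat, by omega⟩
  have v : ∀ {x y : s.P}, x ∈ s.A → y ∉ s.A → x ≤ y → (z + Rm s.A + cb g) x y = z x y - g x :=
    fun {x y} hx hy hxy => by rw [val, um_mem hx, um_ge hx hxy, h.off y hy]; ring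
  have v2 : ∀ {x y : s.P}, x ∈ s.A → y ∈ s.A → (z + Rm s.A + cb g) x y = z x y + g y - g x :=
    fun {x y} hx hy => by rw [val, um_mem hx, um_mem hy]; ring
  induction n generalizing x y m with
  | zero => have := hN x y; omega
  | succ n ih0 =>
  have hp := hc x hx y hy hxy
  induction hp with
  | @sut w a o hw h2 =>
    have := h.g_le hx hxy (Or.inl hy)
    exact Tb.dnL (tri2 hx h2 hxy) (by omega) (by rw [v hx hy hxy]; omega) (Tb.base hw hy)
  | @low w a o hw h2 h3 =>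
    have := h.g_le hx hxy (Or.inl hy)
    have := (tri2 hx h2 hxy).add h.coc
    refine (Tb.L (tri2 hx h2 hxy) (by omega) (by rw [v hx hy hxy]; omega) ?_).2
      (ih0 (m := m + z w a) hw hy (h2.trans hxy) (by omega) (by omega) (by push_cast at hn; omega))
    rw [v2 hw hx]; ring
  | @up a b o hb h2 h3 h4 _ ih =>
    have := h.g_le hb h3 (Or.inl hy)
    have := (tri1 hx h2 h3).add h.coc
    refine (Tb.L (tri1 hx h2 h3) (by omega) (by rw [v hb hy h3]; omega) ?_).1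
      (ih hb hy h3 (by omega))
    rw [v2 hx hb, h4]; ring
  | @dn a b o hb h2 h4 _ ih =>
    have := h.g_le hx hxy (Or.inl hy)
    have := (tri1 hb h2 hxy).add h.coc
    refine (Tb.L (tri1 hb h2 hxy) (by omega) (by rw [v hx hy hxy]; omega) ?_).2
      (ih hb hy (h2.trans hxy) (by omega))
    rw [v2 hb hx, h4]; ring
  | @mv a o p hp h2 h3 _ ih =>
    have := h.g_le hx hxy (Or.inl hy)
    rcases h3 with h3 | h3
    · have := (tri1 hx hxy h3).add h.coc
      have := h.mono _ _ (tri1 hx hxy h3).d23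
      exact Tb.dnR (tri1 hx hxy h3) (by omega) (by rw [v hx hy hxy]; omega) (ih hx hp h2 (by omega))
    · by_cases h5 : m ≤ z a p
      · exact Tb.upR (tri1 hx h2 h3) (by omega) (by rw [v hx hp h2]; omega) (ih hx hp h2 h5)
      · have := (tri1 hx h2 h3).add h.coc
        refine (Tb.L (k := m - 1 - z a p) (tri1 hx h2 h3) (by omega) ?_ ?_).1 (Tb.base hp hy)
        · rw [val, um_ge hx h2, um_ge hx hxy, h.off _ hp, h.off _ hy]; omega
        · rw [v hx hp h2]; ring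

theorem thinM (hc : CondM s.A z) {x y : s.P} {m : ℤ} (hx : x ∉ s.A) (hy : y ∈ s.A) (hxy : x ≤ y)
    (h0 : 0 ≤ m) (h1 : m < z x y) : Tb s.A (z + Rm s.A + cb g) x y m := by
  obtain ⟨N, hN⟩ : ∃ N : ℤ, ∀ x y, z x y ≤ N :=
    let ⟨N, hN⟩ := (Set.finite_range fun p : s.P × s.P => z p.1 p.2).bddAbove
    ⟨N, fun x y => hN ⟨(x, y), rfl⟩⟩
  obtain ⟨n, hn⟩ : ∃ n : ℕ, N - (z x y - m) < n := ⟨(N - (z x y - m) + 1).toNat, by omega⟩
  have v : ∀ {x y : s.P}, x ∉ s.A → y ∈ s.A → x ≤ y → (z + Rm s.A + cb g) x y = z x y + 1 + g y :=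
    fun {x y} hx hy hxy => by rw [val, um_mem hy, um_le h.conv hy hxy hx, h.off x hx]; ring
  have v2 : ∀ {a x y : s.P}, a ∈ s.A → x ∉ s.A → y ∉ s.A → x ≤ a → y ≤ a →
      (z + Rm s.A + cb g) x y = z x y := fun {a x y} ha hx hy h1 h2 => by
    rw [val, um_le h.conv ha h1 hx, um_le h.conv ha h2 hy, h.off x hx, h.off y hy]; ring
  induction n generalizing x y m with
  | zero => have := hN x y; omega
  | succ n ih0 =>
  have hp := hc y hy x hx hxy
  induction hp generalizing m with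
  | @sut w a o hw h2 =>
    have := h.g_ge hy hxy (Or.inl hx)
    exact Tb.dnR (tri2 hy hxy h2) h0 (by rw [v hx hy hxy]; omega) (Tb.base hx hw)
  | @hi w a o hw h2 h3 =>
    have := h.g_ge hy hxy (Or.inl hx)
    have := (tri2 hy hxy h2).add h.coc
    exact Tb.dnR (tri2 hy hxy h2) h0 (by rw [v hx hy hxy]; omega)
      (ih0 hx hw (hxy.trans h2) h0 (by omega) (by push_cast at hn; omega))
  | @dn a b o hb h2 h3 h4 _ ih =>
    have := h.g_ge hb h3 (Or.inl hx)
    have := (tri3 hy h3 h2).add h.coc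
    exact Tb.upR (tri3 hy h3 h2) h0 (by rw [v hx hb h3]; omega)
      (ih hx hb h3 h0 (by omega) (by omega))
  | @up a b o hb h2 h4 _ ih =>
    have := h.g_ge hy hxy (Or.inl hx)
    have := (tri2 hy hxy h2).add h.coc
    exact Tb.dnR (tri2 hy hxy h2) h0 (by rw [v hx hy hxy]; omega)
      (ih hx hb (hxy.trans h2) h0 (by omega) (by omega))
  | @mv a o p hp h2 h3 _ ih =>
    have := h.g_ge hy hxy (Or.inl hx)
    rcases h3 with h3 | h3
    · have := (tri3 hy h3 h2).add h.coc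
      by_cases h5 : m < z o p
      · exact Tb.upR (tri3 hy h3 h2) h0 (by rwa [v2 hy hx hp hxy h2]) (Tb.base hx hp)
      · have := h.g_ge hy h2 (Or.inl hp)
        refine (Tb.L (k := m - z o p) (tri3 hy h3 h2) (by omega) (by rw [v hp hy h2]; omega) ?_).1
          (ih hp hy h2 (by omega) (by omega) (by omega))
        rw [v2 hy hx hp hxy h2]; ring
    · have := (tri3 hy h3 hxy).add h.coc
      have := h.mono _ _ (tri3 hy h3 hxy).d12
      refine (Tb.L (k' := m + z p o) (tri3 hy h3 hxy) h0 (by rw [v hx hy hxy]; omega) ?_).2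
        (ih hp hy h2 (by omega) (by omega) (by omega))
      rw [v2 hy hp hx h2 hxy]

/-- the shift of levels -/
def sh (s c : St) (π : c.P → s.P) (lev : c.P → ℤ) (g : s.P → ℤ) (g' : c.P → ℤ) (p : c.P) : ℤ :=
  (um c.A p + g' p) - (lev p + um s.A (π p) + g (π p))

theorem sh_mem {b : c.P} (hb : b ∈ c.A) : sh s c π lev g g' b = 0 := by
  rw [sh, um_mem hb, um_mem (h.cov.mem hb), h.l0 b hb, h.eq b hb]; ring

theorem sh_val {p q : c.P} (hp : Dp c.A p q) : (z + Rm s.A + cb g) (π p) (π q) =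
    (Rm c.A + cb g') p q + sh s c π lev g g' p - sh s c π lev g g' q := by
  rw [val, val', sh, sh, ← h.lv p q hp]; ring

theorem sh_le {b p : c.P} (hb : b ∈ c.A) (hp : p ≤ b) (hp' : p ∉ c.A) :
    sh s c π lev g g' p = z (π p) (π b) - um s.A (π p) - g (π p) := by
  have := h.lv p b (Dp.of_right hb hp)
  rw [sh, um_le h.hB hb hp hp', h.off' p hp', ← this, h.l0 b hb]; ring

theorem sh_ge {b p : c.P} (hb : b ∈ c.A) (hp : b ≤ p) (hp' : p ∉ c.A) :
    sh s c π lev g g' p = -z (π b) (π p) - g (π p) := by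
  have := h.lv b p (Dp.of_left hb hp)
  rw [sh, um_ge hb hp, h.off' p hp', ← this, h.l0 b hb, um_ge (h.cov.mem hb) (h.cov.mon hp)]; ring

theorem sh_nn {b p : c.P} (hb : b ∈ c.A) (hp : p ≤ b) : 0 ≤ sh s c π lev g g' p := by
  by_cases hp' : p ∈ c.A
  · rw [h.sh_mem hp']
  rw [h.sh_le hb hp hp']
  have := h.mono _ _ (Dp.of_right (h.cov.mem hb) (h.cov.mon hp))
  by_cases hx : π p ∈ s.A
  · have h1 : z (π p) (π b) ≠ 0 := fun e => hp' ((h.cov.dn b hb p hp).2 ⟨hx, e⟩)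
    have := h.g_le hx (h.cov.mon hp) (Or.inr h1)
    rw [um_mem hx]; omega
  · rw [um_le h.conv (h.cov.mem hb) (h.cov.mon hp) hx, h.off _ hx]; omega

theorem sh_np {b p : c.P} (hb : b ∈ c.A) (hp : b ≤ p) : sh s c π lev g g' p ≤ 0 := by
  by_cases hp' : p ∈ c.A
  · rw [h.sh_mem hp']
  rw [h.sh_ge hb hp hp']
  have := h.mono _ _ (Dp.of_left (h.cov.mem hb) (h.cov.mon hp))
  by_cases hx : π p ∈ s.A
  · have h1 : z (π b) (π p) ≠ 0 := fun e => hp' ((h.cov.up b hb p hp).2 ⟨hx, e⟩)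
    have := h.g_ge hx (h.cov.mon hp) (Or.inr h1)
    omega
  · rw [h.off _ hx]; omega

/-- an edge that meets the competitor lies around a point of the cut -/
theorem mid {p q : c.P} (hp : Dp c.A p q) (h1 : 0 < (Rm c.A + cb g') p q) :
    ∃ b ∈ c.A, p ≤ b ∧ b ≤ q := by
  by_cases k1 : p ∈ c.A
  · exact ⟨p, k1, le_rfl, hp.1⟩
  by_cases k2 : q ∈ c.A
  · exact ⟨q, k2, hp.1, le_rfl⟩
  obtain ⟨h0, b, hb, c1, c2⟩ := hp
  rw [val', h.off' p k1, h.off' q k2] at h1
  rcases c1 with c1 | c1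
  · rw [um_ge hb c1, um_ge hb (c1.trans h0)] at h1; omega
  rcases c2 with c2 | c2
  · exact ⟨b, hb, c1, c2⟩
  · rw [um_le h.hB hb c1 k1, um_le h.hB hb c2 k2] at h1; omega

theorem tb_img (hs : Spr s.A z) (hc : CondP s.A z) (hc' : CondM s.A z)
    (hn : NC c.A (Rm c.A + cb g')) {p q : c.P} {k : ℤ} (hp : Dp c.A p q) (h0 : 0 ≤ k)
    (h1 : k < (Rm c.A + cb g') p q) :
    Tb s.A (z + Rm s.A + cb g) (π p) (π q) (k + sh s c π lev g g' p) := by
  have rg : ∀ {p q : c.P} {k : ℤ}, Dp c.A p q → 0 ≤ k → k < (Rm c.A + cb g') p q →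
      0 ≤ k + sh s c π lev g g' p ∧
        k + sh s c π lev g g' p < (z + Rm s.A + cb g) (π p) (π q) := by
    intro p q k hp h0 h1
    obtain ⟨b, hb, a1, a2⟩ := h.mid hp (by omega)
    have := h.sh_nn hb a1
    have := h.sh_np hb a2
    rw [h.sh_val hp]; omega
  refine NC.ind hn (coc_Rm.add (coc_cb g')) h.mono' (G := fun p q k =>
    Tb s.A (z + Rm s.A + cb g) (π p) (π q) (k + sh s c π lev g g' p)) ?_ ?_ ?_ hp h0 h1
  · intro p q k hp k1 k2 h0 h1
    obtain ⟨b, hb, a1, a2⟩ := h.mid hp (by omega)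
    rw [val', h.off' p k1, h.off' q k2, um_le h.hB hb a1 k1, um_ge hb a2] at h1
    obtain rfl : k = 0 := by omega
    have ha := h.cov.mem hb
    have t := tri2 ha (h.cov.mon a1) (h.cov.mon a2)
    have := t.add h.coc
    have := h.mono _ _ t.d12
    have := h.mono _ _ t.d23
    have n1 : π p ∈ s.A → z (π p) (π b) ≠ 0 := fun hx e => k1 ((h.cov.dn b hb p a1).2 ⟨hx, e⟩)
    have n2 : π q ∈ s.A → z (π b) (π q) ≠ 0 := fun hx e => k2 ((h.cov.up b hb q a2).2 ⟨hx, e⟩)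
    rw [zero_add, h.sh_le hb a1 k1]
    by_cases hx : π p ∈ s.A <;> by_cases hy : π q ∈ s.A
    · have := hs _ hx _ hy t.d13.1
      have := n1 hx; have := n2 hy; omega
    · have := n1 hx
      rw [um_mem hx]
      exact h.thinP hc hx hy t.d13.1 (by omega) (by omega)
    · have := n2 hy
      rw [um_le h.conv ha t.1 hx, h.off _ hx, sub_zero, sub_zero]
      exact h.thinM hc' hx hy t.d13.1 (by omega) (by omega)
    · exact Tb.base hx hy
  · intro p q r k t h0 h1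
    exact Tb.R (lift_tri h.cov.toLift t) (rg t.d12 h0 h1).1 (rg t.d12 h0 h1).2
  · intro p q r k t h0 h1
    exact Tb.L (lift_tri h.cov.toLift t) (rg t.d23 h0 h1).1 (rg t.d23 h0 h1).2
      (by rw [h.sh_val t.d12]; ring)

theorem ncW (hs : Spr s.A z) (hc : CondP s.A z) (hc' : CondM s.A z)
    (hn : NC c.A (Rm c.A + cb g')) : NC s.A (z + Rm s.A + cb g) := by
  have k2 : ∀ b ∈ c.A, ∀ p, p ≤ b → ∀ k, sh s c π lev g g' p ≤ k →
      k < (z + Rm s.A + cb g) (π p) (π b) → Tb s.A (z + Rm s.A + cb g) (π p) (π b) k := by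
    intro b hb p hp k h0 h1
    have e := h.sh_val (Dp.of_right hb hp)
    rw [h.sh_mem hb] at e
    have := h.tb_img hs hc hc' hn (k := k - sh s c π lev g g' p) (Dp.of_right hb hp) (by omega)
      (by omega)
    rwa [sub_add_cancel] at this
  intro x y k hp h0 h1
  by_cases hx : x ∈ s.A
  · obtain ⟨b, hb, rfl⟩ := h.cov.exA hx
    obtain ⟨q, hq, rfl⟩ := lift_up h.cov.toLift hb hp.1
    by_cases h2 : k < (Rm c.A + cb g') b q
    · have := h.tb_img hs hc hc' hn (Dp.of_left hb hq) h0 h2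
      rwa [h.sh_mem hb, add_zero] at this
    have e := h.sh_val (Dp.of_left hb hq)
    rw [h.sh_mem hb] at e
    have hq' : q ∉ c.A := fun h' => by rw [h.sh_mem h'] at e; omega
    rw [val', um_mem hb, um_ge hb hq, h.off' q hq', ← h.eq b hb] at h2
    by_cases hy : π q ∈ s.A
    · obtain ⟨b', hb', e'⟩ := h.cov.exA hy
      obtain ⟨p, hp', e2⟩ := lift_dn h.cov.toLift hb' (e'.symm ▸ hp.1)
      have h3 : z (π b) (π q) ≠ 0 := fun e => hq' ((h.cov.up b hb q hq).2 ⟨hy, e⟩)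
      have h4 : p ∉ c.A := fun h' => h3 (by rw [← e2, ← e']; exact ((h.cov.dn b' hb' p hp').1 h').2)
      have h5 := h.sh_le hb' hp' h4
      have := hs _ hx _ hy hp.1
      rw [e2, e', um_mem hx] at h5
      have := k2 b' hb' p hp' k (by omega) (by rwa [e2, e'])
      rwa [e2, e'] at this
    · rw [val, um_mem hx, um_ge hx hp.1, h.off _ hy] at h1
      have := h.thinP hc hx hy hp.1 (m := k + 1 + g (π b)) (by omega) (by omega)
      rwa [show k + 1 + g (π b) - 1 - g (π b) = k by ring] at this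
  by_cases hy : y ∈ s.A
  · obtain ⟨b, hb, rfl⟩ := h.cov.exA hy
    obtain ⟨p, hp', rfl⟩ := lift_dn h.cov.toLift hb hp.1
    by_cases h2 : sh s c π lev g g' p ≤ k
    · exact k2 b hb p hp' k h2 h1
    rw [h.sh_le hb hp' fun h' => hx (h.cov.mem h'), um_le h.conv hy hp.1 hx, h.off _ hx] at h2
    exact h.thinM hc' hx hy hp.1 h0 (by omega)
  · exact Tb.base hx hy

end Cpt

/-- the sum of an admissible surface with `R₋` has no closed component -/
theorem sf_add_Rm (hA : s.A.OrdConnected) (hz : Adm s z) : Sf s.A (z + Rm s.A) := by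
  obtain ⟨c, π, lev, h⟩ := exists_cut hA hz.sf.coc hz.sf.mono
  have k : Cpt s c z π lev 0 0 := ⟨h.cov, hA, hz.sf.coc, hz.sf.mono, h.lv, fun b hb => (h.mem b hb).2,
    fun _ _ => rfl, fun _ _ => rfl, fun _ _ => rfl, by rw [cb_zero, add_zero]; exact mono_Rm⟩
  have := k.ncW hz.spr (condP_iff.2 hz.cu) (condM_iff.2 hz.cd) (by
    rw [cb_zero, add_zero]
    exact nc_rm h.cov hA hz.sf.coc hz.sf.mono hz.sf.nc (condM_iff.2 hz.cd))
  rw [cb_zero, add_zero] at this
  exact sf_iff.2 ⟨hz.sf.mono.add mono_Rm, hz.sf.coc.add coc_Rm, this⟩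

/-- CUT: maximality passes to the cut -/
theorem cut_max {lev : c.P → ℤ} (h : IsCut s.A z c.A π lev) (hA : s.A.OrdConnected) (hz : Adm s z)
    (hM : ∀ t f, Desc s t f → Mf 3 t.A) (hM' : ∀ t f, Desc c t f → Mf 3 t.A)
    (hx : Max s (z + Rm s.A)) : Max c (Rm c.A) := by
  intro t' f' hd z' hz' he
  obtain ⟨t, f, π', hd', hc, e⟩ := h.cov.lift hd
  have hB := cov_conv h.cov hA hz.sf.coc hz.sf.mono
  obtain ⟨g', g0, hg⟩ := (Eqv.of_eqD (hd.Rm hB).symm).trans he
  have hz2 := hz.desc hd'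
  have e' : ∀ q, f (π' q) = π (f' q) := fun q => congrFun e q
  have k : Cpt t t' (pb f z) π' (lev ∘ f') (dnF t t' π' g') g' :=
    ⟨hc, hd'.conv hA, hz2.sf.coc, hz2.sf.mono, fun q r hp => by
      have := h.lv (f' q) (f' r) (Dp.map hd.mono (hd.A_eq ▸ hp))
      simpa only [pb, e', Function.comp] using this,
      fun b hb => (h.mem (f' b) (by rwa [hd.A_eq] at hb)).2, fun x hx => dnF_off hc.toLift g' hx, g0,
      fun b hb => dnF_eq hc.toLift g' hb, hz'.mono.congr hg.symm⟩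
  have sfW : Sf t.A (pb f z + Rm t.A + cb (dnF t t' π' g')) := sf_iff.2 ⟨k.monoW, k.cocW,
    k.ncW hz2.spr (condP_iff.2 hz2.cu) (condM_iff.2 hz2.cd) (hz'.nc.congr hg.symm)⟩
  have e1 : EqD t.A (pb f (z + Rm s.A)) (pb f z + Rm t.A) := EqD.rfl.add (hd'.Rm hA)
  have h1 := hx t f hd' _ sfW ((Eqv.of_eqD e1).trans (eqv_add_cb k.off))
  rw [chi_add, chi_cb (hM t f hd') k.off, sum_eps_dnF hc.toLift g0, ← chi_congr e1, hd'.chi] at h1
  rw [chi_congr hg, chi_add, chi_cb (hM' t' f' hd) g0, ← chi_congr (hd.Rm hB), hd.chi]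
  omega

end Crest.Agent.X212.Cut21
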