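import Crest.Agent.X212.Cut21.Psh2
import Crest.Agent.X212.Cut21.Tau2
import Crest.Agent.X212.Alg36.Cut1
import Crest.Agent.X212.Alg36.Cut2c
import Crest.Agent.X212.Hp13.Mx

/-!
# X212 / Cut21 (helper21): conditioning from the boundary data; CUT and STEP from the leaves
-/

set_option autoImplicit false
set_option linter.unusedSectionVars false

open Finset Classical

noncomputable section

namespace Crest.Agent.X212.Cut21

open Crest.Agent.X212.Hp13 Crest.Agent.X212.Alg36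
open Crest.Agent.X212.Ind26 (Coh)

section
variable {P : Type} [PartialOrder P] [Fintype P] {A : Set P} {z : P → P → ℤ}

theorem fb_le (hA : A.OrdConnected) {o b : P} (ho : o ∈ Op A) (hb : b ∈ Fb A o o) : b ≤ o :=
  hb.2.1.resolve_right fun h => let ⟨k, _, ha, l⟩ := ho; k (hA.out ha hb.1 ⟨l, h⟩)

theorem fb_ge (hA : A.OrdConnected) {o b : P} (ho : o ∈ Om A) (hb : b ∈ Fb A o o) : o ≤ b :=
  hb.2.1.resolve_left fun h => let ⟨k, _, ha, l⟩ := ho; k (hA.out hb.1 ha ⟨h, l⟩)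

/-- walk under `o` at the level of `o` -/
theorem pp_walk (hA : A.OrdConnected) (hN : Nice A) (hz : Coc A z) (hm : Mono A z) {o a b : P}
    (ho : o ∉ A) (ha : a ∈ A) (hb : b ∈ A) (h1 : a ≤ o) (h2 : b ≤ o) (h0 : z a o = 0)
    (h : z b o = 0 → PP A z b o) : PP A z a o := by
  have op : o ∈ Op A := ⟨ho, a, ha, h1⟩
  refine Ind26.rch_ind (Nice.conn_fb hN Cm.rfl b ⟨hb, Or.inl h2, Or.inl h2⟩ a ⟨ha, Or.inl h1, Or.inl h1⟩)
    (p := fun x => z x o = 0 → PP A z x o) h ?_ h0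
  intro x hx y hy c r e
  have lx := fb_le hA op hx
  have ly := fb_le hA op hy
  rcases c with c | c
  · have := (tri1 hx.1 c ly).add hz
    have := hm _ _ (Dp.of_left hx.1 c)
    by_cases k : z x y = 0
    · exact PP.dn hx.1 c k (r (by omega))
    · exact PP.low hx.1 c (by omega)
  · have := (tri1 hy.1 c lx).add hz
    have := hm _ _ (Dp.of_left hy.1 c)
    have := hm _ _ (Dp.of_left hx.1 lx)
    exact PP.up hx.1 c lx (by omega) (r (by omega))

/-- walk over `o` at the level of `o` -/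
theorem pm_walk (hA : A.OrdConnected) (hN : Nice A) (hz : Coc A z) (hm : Mono A z) {o a b : P}
    (ho : o ∉ A) (ha : a ∈ A) (hb : b ∈ A) (h1 : o ≤ a) (h2 : o ≤ b) (h0 : z o a = 0)
    (h : z o b = 0 → PM A z b o) : PM A z a o := by
  have op : o ∈ Om A := ⟨ho, a, ha, h1⟩
  refine Ind26.rch_ind (Nice.conn_fb hN Cm.rfl b ⟨hb, Or.inr h2, Or.inr h2⟩ a ⟨ha, Or.inr h1, Or.inr h1⟩)
    (p := fun x => z o x = 0 → PM A z x o) h ?_ h0
  intro x hx y hy c r e
  have lx := fb_ge hA op hx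
  have ly := fb_ge hA op hy
  rcases c with c | c
  · have := (tri2 hx.1 lx c).add hz
    have := hm _ _ (Dp.of_left hx.1 c)
    have := hm _ _ (Dp.of_right hx.1 lx)
    exact PM.dn hx.1 c lx (by omega) (r (by omega))
  · have := (tri2 hy.1 ly c).add hz
    have := hm _ _ (Dp.of_left hy.1 c)
    by_cases k : z y x = 0
    · exact PM.up hx.1 c k (r (by omega))
    · exact PM.hi hx.1 c (by omega)

theorem pp_of_rp (hA : A.OrdConnected) (hN : Nice A) (hz : Coc A z) (hm : Mono A z) {o : P}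
    (h : RP A z o) : o ∉ A → ∀ a ∈ A, a ≤ o → z a o = 0 → PP A z a o := by
  induction h with
  | sut hx hb h1 h2 => exact fun ho a ha l e => pp_walk hA hN hz hm ho ha hb l h2 e fun _ => .sut hx h1
  | low hx h1 h2 =>
    obtain ⟨-, b, hb, k⟩ := hx
    refine fun ho a ha l e => pp_walk hA hN hz hm ho ha hb l (k.trans h1) e fun e' => ?_
    have := (tri1 hb k h1).add hz
    have := hm _ _ (Dp.of_left hb k)
    omega
  | up h1 h2 _ ih =>
    intro ho a ha l e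
    have := (tri1 ha l h1).add hz
    have hp := not_up hA ha l ho h1
    exact PP.mv hp (l.trans h1) (Or.inl h1) (ih hp a ha (l.trans h1) (by omega))
  | dn hp h1 h2 _ ih =>
    obtain ⟨hp, b, hb, k⟩ := hp
    refine fun ho a ha l e => pp_walk hA hN hz hm ho ha hb l (k.trans h1) e fun e' => ?_
    have := (tri1 hb k h1).add hz
    exact PP.mv hp k (Or.inr h1) (ih hp b hb k (by omega))

theorem pm_of_rm (hA : A.OrdConnected) (hN : Nice A) (hz : Coc A z) (hm : Mono A z) {o : P}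
    (h : RM A z o) : o ∉ A → ∀ a ∈ A, o ≤ a → z o a = 0 → PM A z a o := by
  induction h with
  | sut hx hb h1 h2 => exact fun ho a ha l e => pm_walk hA hN hz hm ho ha hb l h2 e fun _ => .sut hx h1
  | hi hx h1 h2 =>
    obtain ⟨-, b, hb, k⟩ := hx
    refine fun ho a ha l e => pm_walk hA hN hz hm ho ha hb l (h1.trans k) e fun e' => ?_
    have := (tri3 hb h1 k).add hz
    have := hm _ _ (Dp.of_right hb k)
    omega
  | dn h1 h2 _ ih =>
    intro ho a ha l e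
    have := (tri3 ha h1 l).add hz
    have hp := not_dn hA ha l ho h1
    exact PM.mv hp (h1.trans l) (Or.inr h1) (ih hp a ha (h1.trans l) (by omega))
  | up hp h1 h2 _ ih =>
    obtain ⟨hp, b, hb, k⟩ := hp
    refine fun ho a ha l e => pm_walk hA hN hz hm ho ha hb l (h1.trans k) e fun e' => ?_
    have := (tri3 hb h1 k).add hz
    exact PM.mv hp k (Or.inl h1) (ih hp b hb k (by omega))

theorem Bdy.congr {w : P → P → ℤ} (hA : A.OrdConnected) (h : Bdy A z)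
    (h1 : ∀ x y, y ∈ Om A → x ≤ y → w x y = z x y)
    (h2 : ∀ x y, x ∈ Op A → x ≤ y → w x y = z x y) : Bdy A w where
  jo x y hy l := h1 x y hy l ▸ h.jo x y hy l
  br o ho y hy l k := by
    convert h.br o ho y hy l (h1 o y hy l ▸ k) using 2
    ext p
    exact and_congr_right fun a => and_congr_right fun b => by rw [h1 o p a b]
  cp o ho := by
    have := h.cp o ho
    induction this with
    | sut a b c d => exact .sut a b c d
    | low a b c => exact .low a b (h2 _ _ a b ▸ c)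
    | up a b _ ih => exact .up a (h2 _ _ ho a ▸ b) (ih (op_up hA ho a))
    | dn a b c _ ih => exact .dn a b (h2 _ _ a b ▸ c) (ih a)
  cm o ho := by
    have := h.cm o ho
    induction this with
    | sut a b c d => exact .sut a b c d
    | hi a b c => exact .hi a b (h1 _ _ a b ▸ c)
    | dn a b _ ih => exact .dn a (h1 _ _ ho a ▸ b) (ih (om_dn hA ho a))
    | up a b c _ ih => exact .up a b (h1 _ _ a b ▸ c) (ih a)

theorem Bdy.add_Rm (hA : A.OrdConnected) (h : Bdy A z) (k : ℤ) : Bdy A (z + k • Rm A) := by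
  refine h.congr hA (fun x y hy l => ?_) fun x y hx l => ?_
  · obtain ⟨n, a, ha, e⟩ := hy
    simp [Rm_um, um_le hA ha e n, um_le hA ha (l.trans e) (not_dn hA ha e n l)]
  · obtain ⟨n, a, ha, e⟩ := hx
    simp [Rm_um, um_ge ha e, um_ge ha (e.trans l)]

theorem coh_of_eqv {w : P → P → ℤ} (h : Eqv A z w) : Coh A z w := let ⟨g, _, e⟩ := h; ⟨g, e⟩

theorem coh_trans {w u : P → P → ℤ} (h : Coh A z w) (h' : Coh A w u) : Coh A z u :=
  let ⟨g, e⟩ := h; let ⟨g', e'⟩ := h'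
  ⟨g + g', e'.trans (by rw [cb_add, ← add_assoc]; exact e.add EqD.rfl)⟩

theorem coh_Rm (z : P → P → ℤ) (k : ℤ) : Coh A z (z + k • Rm A) :=
  ⟨k • um A, fun x y _ => by simp [Rm_um, cb, mul_sub]⟩

end

theorem coh_desc {s t : St} {f : t.P → s.P} (hd : Desc s t f) {z w : s.P → s.P → ℤ}
    (h : Coh s.A z w) : Coh t.A (pb f z) (pb f w) := let ⟨g, e⟩ := h; ⟨g ∘ f, hd.eqD e⟩

theorem condPStmt : CondPStmt := fun s z hs ht hz hm hv hc a ha o ho l => by
  obtain ⟨p, hp, k, e⟩ := hv a ⟨ha, o, ho, l⟩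
  exact Ind26.rch_ind (ht.out a ha p ⟨hp, k⟩ o ⟨ho, l⟩) (p := PP s.A z a)
    (pp_of_rp hs.conv hs.nice hz hm (hc p ⟨hp, a, ha, k⟩) hp a ha k e)
    fun x hx y _ c r => PP.mv hx.1 hx.2 c.symm r

theorem condMStmt : CondMStmt := fun s z hs hz hm hv hc a ha o ho l => by
  obtain ⟨p, hp, k, e, m⟩ := hv a ha o ho l
  exact PM.mv hp k (Or.inl (m o ho l))
    (pm_of_rm hs.conv hs.nice hz hm (hc p ⟨hp, a, ha, k⟩) hp a ha k e)

theorem BdyStmt.bdy (hb : BdyStmt) {s t : St} {f : t.P → s.P} {z : s.P → s.P → ℤ}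
    {w : t.P → t.P → ℤ} (hs : Good s) (hz : Coc s.A z) (hd : Desc s t f)
    (e : Eqv t.A (pb f z) w) (h : Bdy s.A z) : Bdy t.A w :=
  let ⟨h1, h2, h3, h4⟩ := hb s t f z w hs hz hd e; ⟨h1 h.jo, h2 h.br, h3 h.cp, h4 h.cm⟩

theorem halfStmt_of (hh : Half2Stmt) : Sup43.HalfStmt := fun s z hs hz hj =>
  let ⟨t, f, w, d, m, e, c, j, n, _⟩ := hh s z hs hz.coc hz.mono hj
  ⟨t, f, w, d, sf_iff.2 ⟨m, e.coc (d.coc hz.coc), n hz.nc⟩, e, c, j⟩

theorem max_add_Rm {s t : St} {f : t.P → s.P} {z : s.P → s.P → ℤ} {w : t.P → t.P → ℤ}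
    (hA : s.A.OrdConnected) (hd : Desc s t f) (e : Eqv t.A (pb f z) w)
    (c : chi s.A z ≤ chi t.A w) (h : Max s (z + Rm s.A)) : Max t (w + Rm t.A) :=
  (h.desc hd).of_eqv (e.add (Eqv.of_eqD (hd.Rm hA))) (by
    rw [pb_add, chi_add, chi_add, chi_congr (hd.Rm hA), hd.chi]; omega)

/-- the last step of CUT: thicken and cut -/
theorem cut_thk (hb : BdyStmt) (hk : ThkStmt) {s : St} {w : s.P → s.P → ℤ} (hs : Good s)
    (ht : Thick s.A) (he : Esc s.A s.A) (h0 : ee s.A = 0) (hw : Sf s.A w) (b : Bdy s.A w)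
    (j : JK s.A w) (p : CondP s.A w) (hx : Max s (w + Rm s.A)) :
    NF s.sd.sd.P s.sd.sd.A (thk s.A w) ∧ ∃ (c : St) (pr : c.P → s.sd.sd.P) (lev : c.P → ℤ),
      IsCut s.sd.sd.A (thk s.A w) c.A pr lev ∧ Stt c := by
  have r := inR_dT hw.mono
  have d := desc2 s
  have g := Good.desc hs d
  have sf : Sf s.sd.sd.A (thk s.A w) := r.sf hs.conv hw
  have e : Eqv s.sd.sd.A (pb (Ch.top ∘ Ch.top) w) (thk s.A w) := r.eqv hw.coc hw.mono
  have nf : NF s.sd.sd.P s.sd.sd.A (thk s.A w) :=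
    ⟨sf, hk s w hs hw.coc hw.mono j, r.condP hs.conv hw.coc hw.mono p,
      condMStmt _ _ g sf.coc sf.mono
        (fun _ ha _ ho l => lowM_dT.max r hs.conv hw.coc hw.mono ha ho l)
        (hb.bdy hs hw.coc d e b).cm⟩
  obtain ⟨c, pr, lev, hc⟩ := exists_cut (s := s.sd.sd) g.conv sf.coc sf.mono
  obtain ⟨c1, c2, c3, c4, c5, c6⟩ := cut1Stmt _ c _ pr lev g sf.coc sf.mono sf.nc hc
  obtain ⟨c7, c8⟩ := cut2Stmt s c w pr lev hs ht hw.coc hw.mono j b.br hc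
  refine ⟨nf, c, pr, lev, hc, ⟨⟨c1, c2, c7, c3, c4⟩,
    sf_iff.2 ⟨mono_Rm, coc_Rm, nc_rm hc.cov g.conv sf.coc sf.mono sf.nc nf.cm⟩,
    sf_iff.2 ⟨mono_Rp c1, coc_Rp, nc_rp hc.cov g.conv sf.coc sf.mono sf.nc nf.cp⟩,
    by rw [c5, d.ee_A, h0], cut_max hc g.conv nf.adm (fun _ _ k => Mf.desc g.mf k)
      (fun _ _ k => Mf.desc c2 k) (max_add_Rm hs.conv d e (r.chi g.mf hw.coc hw.mono).ge hx)⟩,
    c8, c6 (Esc.desc' he d)⟩

theorem cutStmt_of (hb : BdyStmt) (hh : Half2Stmt) (hk : ThkStmt) : CutStmt := by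
  intro s z hs ht he h0 hz b hx
  obtain ⟨t1, f1, w1, d1, s1, e1, c1, v1⟩ := nfStmt s z hs ht hz
  have g1 := Good.desc hs d1
  have b1 := hb.bdy hs hz.coc d1 e1 b
  obtain ⟨t2, f2, w2, d2, m2, e2, c2, j2, n2, p2⟩ := hh t1 w1 g1 s1.coc s1.mono b1.jo
  have d := d1.trans d2
  have s2 : Sf t2.A w2 := sf_iff.2 ⟨m2, e2.coc (d2.coc s1.coc), n2 s1.nc⟩
  have e : Eqv t2.A (pb (f1 ∘ f2) z) w2 := (d2.eqv e1).trans e2
  obtain ⟨nf, c, pr, lev, hc, st⟩ := cut_thk hb hk (Good.desc hs d) (thick_desc ht d)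
    (Esc.desc' he d) (by rw [d.ee_A, h0]) s2 (hb.bdy hs hz.coc d e b) j2
    (p2 (condPStmt _ _ g1 (thick_desc ht d1) s1.coc s1.mono v1 b1.cp))
    (max_add_Rm hs.conv d e (by omega) hx)
  have r := inR_dT m2
  exact ⟨_, _, _, c, pr, lev, d.trans (desc2 t2), ((desc2 t2).eqv e).trans (r.eqv s2.coc m2),
    (r.chi (Mf.desc hs.mf (d.trans (desc2 t2))) s2.coc m2).trans (c2.trans c1), nf, hc, st⟩

/-- some multiple of `R` makes the maximiser rigid -/
theorem exists_rigid (hB : Sup43.BoundStmt) {s : St} {z : s.P → s.P → ℤ} (hs : Stt s)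
    (hz : Coc s.A z) (hm : Mono s.A z) (hj : JK s.A z) :
    ∃ (k : ℕ) (t : St) (f : t.P → s.P) (T : t.P → t.P → ℤ), Desc s t f ∧ Sf t.A T ∧
      Eqv t.A (pb f (z + (k : ℤ) • Rm s.A)) T ∧ Max t T ∧ Max t (T + Rm t.A) := by
  by_contra H
  obtain ⟨C, hC⟩ := hB s z hs hz hm hj
  obtain ⟨t0, f0, T0, d0, s0, e0, -⟩ := maxStmt s z hs.toGood hz hm
  have key : ∀ k : ℕ, ∃ (t : St) (f : t.P → s.P) (T : t.P → t.P → ℤ), Desc s t f ∧ Sf t.A T ∧
      Eqv t.A (pb f (z + (k : ℤ) • Rm s.A)) T ∧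
      chi t0.A T0 + k * (chi s.A (Rm s.A) + 1) ≤ chi t.A T := by
    intro k
    induction k with
    | zero => exact ⟨t0, f0, T0, d0, s0, by simpa using e0, by simp⟩
    | succ k ih =>
      obtain ⟨t, f, T, d, sf, e, c⟩ := ih
      obtain ⟨t1, f1, T1, d1, s1, e1, m1⟩ := maxStmt t T (Good.desc hs.toGood d) sf.coc sf.mono
      have c1 := m1 _ _ Desc.refl _ (d1.sf sf) e1.symm
      rw [d1.chi] at c1
      have D := d.trans d1
      have E : Eqv t1.A (pb (f ∘ f1) (z + (k : ℤ) • Rm s.A)) T1 := (d1.eqv e).trans e1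
      have : ¬ Max t1 (T1 + Rm t1.A) := fun h => H ⟨k, t1, _, T1, D, s1, E, m1, h⟩
      simp only [Hp13.Max, not_forall, not_le] at this
      obtain ⟨t2, f2, d2, T2, s2, e2, c2⟩ := this
      refine ⟨t2, _, T2, D.trans d2, s2, Eqv.trans ?_ e2, ?_⟩
      · have := d2.eqv (E.add (Eqv.of_eqD (D.Rm hs.conv)))
        rwa [← pb_add, add_assoc, ← add_one_zsmul, ← Nat.cast_succ] at this
      · rw [chi_add, ← chi_congr (D.Rm hs.conv), D.chi] at c2
        push_cast; linarith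
  obtain ⟨t, f, T, d, sf, e, c⟩ := key (C - chi t0.A T0 + 1).toNat
  have := hC _ t f T d sf e
  have := Int.self_le_toNat (C - chi t0.A T0 + 1)
  linarith

theorem stepStmt_of (hb : BdyStmt) (hh : Half2Stmt) (hk : ThkStmt) (hp : PrepStmt)
    (hB : Sup43.BoundStmt) : StepStmt := by
  intro s z hs hz
  obtain ⟨t0, f0, g0, w0, d0, e0, m0, b0⟩ := hp s z hs.toGood hs.sfm.nc hs.sfp.nc hz
  have c0 : Coc t0.A w0 := ((d0.coc hz).add (coc_cb _)).congr e0
  have s0 := stt_desc hs d0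
  obtain ⟨t1, f1, w1, d1, m1, e1, -, j1, -⟩ := hh t0 w0 s0.toGood c0 m0 b0.jo
  have c1 := e1.coc (d1.coc c0)
  have s1 := stt_desc s0 d1
  have b1 := hb.bdy s0.toGood c0 d1 e1 b0
  obtain ⟨k, t2, f2, T, d2, sf, e2, x1, x2⟩ := exists_rigid hB s1 c1 m1 j1
  have s2 := stt_desc s1 d2
  obtain ⟨t, f, z', c, pr, lev, d, e, ch, nf, hc, st⟩ := cutStmt_of hb hh hk t2 T s2.toGood
    s2.thick s2.esc s2.bal sf
    (hb.bdy s1.toGood (c1.add (coc_Rm.zsmul _)) d2 e2 (b1.add_Rm s1.conv k)) x2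
  obtain ⟨g, eg⟩ : Coh t.A (pb (((f0 ∘ f1) ∘ f2) ∘ f) z) z' :=
    coh_trans (coh_desc d (coh_trans (coh_desc d2 (coh_trans (coh_trans (coh_desc d1 ⟨g0, e0⟩)
      (coh_of_eqv e1)) (coh_Rm w1 k))) (coh_of_eqv e2))) (coh_of_eqv e)
  exact ⟨t, _, z', g, c, pr, lev, ((d0.trans d1).trans d2).trans d, eg,
    (x1.desc d).of_eqv e (by rw [d.chi, ch]), nf, hc, st⟩

/-- the parameters of the hierarchy -/
def par (HB : St → ℕ → Prop) : Ind26.Par := ⟨Stt, fun s z => NF s.P s.A z, HB⟩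

theorem jStmt (HB : St → ℕ → Prop) : Ind26.JStmt (par HB) :=
  fun _ h => ⟨⟨h.toTaut, h.esc⟩, stt_sd h⟩

theorem ind_step (h : StepStmt) (HB : St → ℕ → Prop) : Ind26.StepStmt (par HB) := fun s hs ζ hζ =>
  let ⟨t, f, z, g, c, pr, _, d, e, m, nf, hc, st⟩ := h s ζ hs hζ
  ⟨c, t, f, z, pr, d, ⟨g, e⟩, m, nf.adm, nf, hc.cov, st⟩

end Crest.Agent.X212.Cut21
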