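import Crest.Agent.X212.Kh11.Leaf

/-!
# X212 / Cut21 (helper21): KH-COUNT, part (d), the statement
-/

set_option autoImplicit false

namespace Crest.Agent.X212.Cut21

open Crest.Agent.X212.Hp13
open _root_.Crest.Agent.X212.Hk

/-- the curve `α` of the triangle `σ` is parallel to `α'` across the strip `ρ ⊆ X` -/
structure Gd {P Q : Type} [PartialOrder P] [PartialOrder Q] (f : Q → Ch P) (F X : Set Q) (σ : Ch P)
    (α ρ α' : Set Q) : Prop where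
  reg : IsCmp ({x | f x ≤ σ} \ F) ρ
  sub : ρ ⊆ X
  crv' : IsCmp ({x | f x ≤ σ} ∩ F) α'
  ne : α' ≠ α
  adj : ∀ y ∈ ρ, ∀ x ∈ F, x ≤ y → x ∈ α ∨ x ∈ α'
  tch : ∃ y ∈ ρ, ∃ x ∈ α, x ≤ y
  tch' : ∃ y ∈ ρ, ∃ x ∈ α', x ≤ y
  nov : ∀ y ∈ ρ, 2 ≤ (f y).1.card

/-- every member has a bad curve -/
def GoodStmt : Prop := ∀ (P : Type) [PartialOrder P] [Fintype P] (Y : Set P) t f k U G V,
  KH Y t f k U G V → N1 f (⋃ j, G j) → N2 f (⋃ j, G j) → ∀ i, ∃ σ α, σ.1.card = 3 ∧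
    IsCmp ({x | f x ≤ σ} ∩ ⋃ j, G j) α ∧ α ⊆ G i ∧ ∀ ρ α', ¬ Gd f (⋃ j, G j) (U i) σ α ρ α'

end Crest.Agent.X212.Cut21
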