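import Crest.Agent.X212.Cut21.Tb
import Crest.Agent.X212.Ind26.Defs

/-!
# X212 / Cut21 (helper21): the cover poset exists; bridges to `Ind26`
-/

set_option autoImplicit false
set_option linter.unusedSectionVars false

open Finset Classical

noncomputable section

namespace Crest.Agent.X212.Cut21

open Crest.Agent.X212.Hp13 Crest.Agent.X212.Alg36 Crest.Agent.X212.Ind26

section basic

variable {P : Type} [PartialOrder P] {A : Set P} {z : P → P → ℤ}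

theorem lf_iff (hz : Coc A z) {a : P} (ha : a ∈ A) {p : P × ℤ} :
    Lf z a p ↔ Cm a p.1 ∧ p.2 = pot z a p.1 := by
  constructor
  · rintro (⟨h, e⟩ | ⟨h, e⟩)
    · exact ⟨Or.inl h, by rw [pot_ge z h, e]⟩
    · exact ⟨Or.inr h, by rw [pot_le hz ha h, e]⟩
  · rintro ⟨h | h, e⟩
    · exact Or.inl ⟨h, by rw [e, pot_ge z h]⟩
    · exact Or.inr ⟨h, by rw [e, pot_le hz ha h]⟩

theorem condP_iff : CondP A z ↔ CondU A z := by
  constructor
  · intro h a o ⟨ha, ho, hao⟩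
    have := h a ha o ho hao
    induction this with
    | sut hx hxa => exact ⟨_, .refl, _, hxa, Or.inl hx⟩
    | low _ hxa h0 => exact ⟨_, .refl, _, hxa, Or.inr h0⟩
    | up hb h1 h2 h3 _ ih =>
      obtain ⟨q, h4, h5⟩ := ih hb ho h2
      refine ⟨q, .head ?_ h4, h5⟩
      exact ⟨⟨ha, ho, hao⟩, ⟨hb, ho, h2⟩, Or.inl ⟨rfl, Or.inl ⟨h1, h3⟩⟩⟩
    | dn hb h1 h3 _ ih =>
      obtain ⟨q, h4, h5⟩ := ih hb ho (h1.trans hao)
      refine ⟨q, .head ?_ h4, h5⟩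
      exact ⟨⟨ha, ho, hao⟩, ⟨hb, ho, h1.trans hao⟩, Or.inl ⟨rfl, Or.inr ⟨h1, h3⟩⟩⟩
    | mv hp h1 h2 _ ih =>
      obtain ⟨q, h4, h5⟩ := ih ha hp h1
      refine ⟨q, .head ?_ h4, h5⟩
      exact ⟨⟨ha, ho, hao⟩, ⟨ha, hp, h1⟩, Or.inr ⟨rfl, h2⟩⟩
  · intro h a ha o ho hao
    obtain ⟨q, h1, x, hx, h2⟩ := h a o ⟨ha, ho, hao⟩
    have : ∀ p : P × P, Relation.ReflTransGen (Mv (PU A) z) p q → PP A z p.1 p.2 := by
      intro p hp
      induction hp using Relation.ReflTransGen.head_induction_on with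
      | refl =>
        by_cases hA : x ∈ A
        · exact PP.low hA hx (h2.resolve_left (not_not.2 hA))
        · exact PP.sut hA hx
      | head h3 _ ih =>
        obtain ⟨-, ⟨b1, b2, b3⟩, ⟨e, ⟨c1, c2⟩ | ⟨c1, c2⟩⟩ | ⟨e, c⟩⟩ := h3
        · exact PP.up b1 c1 (e ▸ b3) c2 (e ▸ ih)
        · exact PP.dn b1 c1 c2 (e ▸ ih)
        · exact PP.mv b2 (e ▸ b3) c (e ▸ ih)
    exact this _ h1

theorem condM_iff : CondM A z ↔ CondD A z := by
  constructor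
  · intro h a o ⟨ha, ho, hao⟩
    have := h a ha o ho hao
    induction this with
    | sut hx hxa => exact ⟨_, .refl, _, hxa, Or.inl hx⟩
    | hi _ hxa h0 => exact ⟨_, .refl, _, hxa, Or.inr h0⟩
    | dn hb h1 h2 h3 _ ih =>
      obtain ⟨q, h4, h5⟩ := ih hb ho h2
      refine ⟨q, .head ?_ h4, h5⟩
      exact ⟨⟨ha, ho, hao⟩, ⟨hb, ho, h2⟩, Or.inl ⟨rfl, Or.inr ⟨h1, h3⟩⟩⟩
    | up hb h1 h3 _ ih =>
      obtain ⟨q, h4, h5⟩ := ih hb ho (hao.trans h1)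
      refine ⟨q, .head ?_ h4, h5⟩
      exact ⟨⟨ha, ho, hao⟩, ⟨hb, ho, hao.trans h1⟩, Or.inl ⟨rfl, Or.inl ⟨h1, h3⟩⟩⟩
    | mv hp h1 h2 _ ih =>
      obtain ⟨q, h4, h5⟩ := ih ha hp h1
      refine ⟨q, .head ?_ h4, h5⟩
      exact ⟨⟨ha, ho, hao⟩, ⟨ha, hp, h1⟩, Or.inr ⟨rfl, h2⟩⟩
  · intro h a ha o ho hao
    obtain ⟨q, h1, x, hx, h2⟩ := h a o ⟨ha, ho, hao⟩
    have : ∀ p : P × P, Relation.ReflTransGen (Mv (PD A) z) p q → PM A z p.1 p.2 := by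
      intro p hp
      induction hp using Relation.ReflTransGen.head_induction_on with
      | refl =>
        by_cases hA : x ∈ A
        · exact PM.hi hA hx (h2.resolve_left (not_not.2 hA))
        · exact PM.sut hA hx
      | head h3 _ ih =>
        obtain ⟨-, ⟨b1, b2, b3⟩, ⟨e, ⟨c1, c2⟩ | ⟨c1, c2⟩⟩ | ⟨e, c⟩⟩ := h3
        · exact PM.up b1 c1 c2 (e ▸ ih)
        · exact PM.dn b1 c1 (e ▸ b3) c2 (e ▸ ih)
        · exact PM.mv b2 (e ▸ b3) c (e ▸ ih)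
    exact this _ h1

end basic

theorem NF.adm {s : St} {z : s.P → s.P → ℤ} (h : NF s.P s.A z) : Adm s z :=
  ⟨h.sf, h.jk.ja, condP_iff.1 h.cp, condM_iff.1 h.cm⟩

theorem IsCut.cov {s c : St} {z : s.P → s.P → ℤ} {pr : c.P → s.P} {lev : c.P → ℤ}
    (h : IsCut s.A z c.A pr lev) : Cov s c z pr where
  mono := h.smono
  bij := ⟨fun b hb => (h.mem b hb).1, fun b hb b' hb' e =>
    h.inj b b' (Dp.of_left hb le_rfl) (Dp.of_left hb' le_rfl) e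
      (by rw [(h.mem b hb).2, (h.mem b' hb').2]),
    fun a ha => let ⟨b, hb, e⟩ := h.surj a ha; ⟨b, hb, e⟩⟩
  star := fun b hb => ⟨fun q hq => Cm.map h.mono hq,
    fun q hq r hr e => le_antisymm (h.refl b hb q r hq hr e.le) (h.refl b hb r q hr hq e.ge),
    fun x hx => let ⟨q, hq, e⟩ := h.lift b hb x hx; ⟨q, hq, e⟩⟩
  refl := h.refl
  up := fun b hb q hq => by
    have := h.lv b q (Dp.of_left hb hq)
    rw [(h.mem b hb).2, sub_zero] at this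
    exact ⟨fun hq' => ⟨(h.mem q hq').1, this ▸ (h.mem q hq').2⟩,
      fun h' => h.mem' b hb q (Or.inl hq) h'.1 (this.trans h'.2)⟩
  dn := fun b hb q hq => by
    have := h.lv q b (Dp.of_right hb hq)
    rw [(h.mem b hb).2, zero_sub] at this
    exact ⟨fun hq' => ⟨(h.mem q hq').1, by rw [← this, (h.mem q hq').2, neg_zero]⟩,
      fun h' => h.mem' b hb q (Or.inr hq) h'.1 (by have := h'.2; omega)⟩

section cut

variable {s : St} {z : s.P → s.P → ℤ}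

/-- the order of the cover -/
def CutP.le (p q : CutP s z) : Prop := p.1.1 ≤ q.1.1 ∧ ∃ a ∈ s.A, Lf z a p.1 ∧ Lf z a q.1

theorem CutOK.lv (h : CutOK s z) {p q : CutP s z} (hpq : p.le q) :
    q.1.2 - p.1.2 = z p.1.1 q.1.1 := by
  obtain ⟨h1, a, ha, h2, h3⟩ := hpq
  rw [lf_iff h.coc ha] at h2 h3
  rw [h2.2, h3.2, pot_sub h.coc ha h2.1 h3.1 h1]

theorem CutOK.lf_up (h : CutOK s z) {p q : CutP s z} (hpq : p.le q) {a : s.P} (ha : a ∈ s.A)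
    (h1 : Lf z a p.1) (h2 : a ≤ p.1.1) : Lf z a q.1 := by
  have := h.lv hpq
  rw [lf_iff h.coc ha] at h1
  rw [pot_ge z h2] at h1
  exact Or.inl ⟨h2.trans hpq.1, by rw [(tri1 ha h2 hpq.1).add h.coc]; omega⟩

theorem CutOK.lf_dn (h : CutOK s z) {p q : CutP s z} (hpq : p.le q) {a : s.P} (ha : a ∈ s.A)
    (h1 : Lf z a q.1) (h2 : q.1.1 ≤ a) : Lf z a p.1 := by
  have := h.lv hpq
  rw [lf_iff h.coc ha] at h1
  rw [pot_le h.coc ha h2] at h1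
  exact Or.inr ⟨hpq.1.trans h2, by rw [(tri3 ha hpq.1 h2).add h.coc]; omega⟩

/-- the partial order of the cover -/
@[reducible] def CutOK.po (h : CutOK s z) : PartialOrder (CutP s z) where
  le := CutP.le
  le_refl p := ⟨le_rfl, let ⟨a, ha, h⟩ := p.2; ⟨a, ha, h, h⟩⟩
  le_antisymm p q h1 h2 := by
    have e := le_antisymm h1.1 h2.1
    have e2 := h.lv h1
    obtain ⟨-, a, ha, h3, -⟩ := h1
    rw [← e, h.coc.self ha ((lf_iff h.coc ha).1 h3).1] at e2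
    exact Subtype.ext (Prod.ext e (by omega))
  le_trans p q r h1 h2 := by
    refine ⟨h1.1.trans h2.1, ?_⟩
    obtain ⟨a, ha, a1, a2⟩ := h1.2
    obtain ⟨b, hb, b1, b2⟩ := h2.2
    by_cases k1 : a ≤ q.1.1
    · exact ⟨a, ha, a1, h.lf_up h2 ha a2 k1⟩
    by_cases k2 : q.1.1 ≤ b
    · exact ⟨b, hb, h.lf_dn h1 hb b1 k2, b2⟩
    obtain ⟨k3, k4⟩ := a2.resolve_left fun h => k1 h.1
    obtain ⟨k5, k6⟩ := b1.resolve_right fun h => k2 h.1
    have hq : q.1.1 ∈ s.A := h.conv.out hb ha ⟨k5, k3⟩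
    have := h.mono _ _ (Dp.of_left hq k3)
    have := h.mono _ _ (Dp.of_right hq k5)
    have l : Lf z q.1.1 q.1 := Or.inl ⟨le_rfl, by rw [self0 h.coc hq]; omega⟩
    exact ⟨_, hq, h.lf_dn h1 hq l le_rfl, h.lf_up h2 hq l le_rfl⟩

instance : Finite (CutP s z) := by
  refine Set.Finite.to_subtype (s := {p : s.P × ℤ | ∃ a ∈ s.A, Lf z a p}) ?_
  refine ((Set.finite_range fun q : s.P × s.P => (q.2, z q.1 q.2)).union
    (Set.finite_range fun q : s.P × s.P => (q.2, -z q.2 q.1))).subset ?_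
  rintro ⟨x, n⟩ ⟨a, -, ⟨-, e⟩ | ⟨-, e⟩⟩
  · exact Or.inl ⟨(a, x), Prod.ext rfl e.symm⟩
  · exact Or.inr ⟨(a, x), Prod.ext rfl e.symm⟩

/-- the cut state -/
def CutOK.st (h : CutOK s z) : St :=
  @St.mk (CutP s z) h.po (Fintype.ofFinite _) {p | p.1.1 ∈ s.A ∧ p.1.2 = 0}

theorem CutOK.isCut (h : CutOK s z) :
    IsCut s.A z h.st.A (fun p : CutP s z => p.1.1) (fun p : CutP s z => p.1.2) := by
  let _ := h.po
  have k : ∀ b : CutP s z, b.1.1 ∈ s.A → b.1.2 = 0 → ∀ q : CutP s z, Cm b q → Lf z b.1.1 q.1 := by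
    intro b hb e q hq
    have l : Lf z b.1.1 b.1 := Or.inl ⟨le_rfl, by rw [self0 h.coc hb, e]⟩
    exact hq.elim (fun hq => h.lf_up hq hb l le_rfl) fun hq => h.lf_dn hq hb l le_rfl
  refine ⟨fun p q hpq => hpq.1, fun p q hpq => lt_of_le_of_ne hpq.le.1 fun e => hpq.ne ?_,
    fun b hb => hb, fun b _ q _ h1 h2 => ⟨h1, h2⟩,
    fun a ha => ⟨⟨(a, 0), a, ha, Or.inl ⟨le_rfl, (self0 h.coc ha).symm⟩⟩, ⟨ha, rfl⟩, rfl⟩,
    fun b hb x hx => ?_, fun b hb q r hq hr hle => ⟨hle, _, hb.1, k b hb.1 hb.2 q hq,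
      k b hb.1 hb.2 r hr⟩, fun q r hp => h.lv hp.1,
    fun q r _ _ e1 e2 => Subtype.ext (Prod.ext e1 e2)⟩
  · have e2 := h.lv hpq.le
    obtain ⟨-, a, ha, h3, -⟩ := hpq.le
    have e : p.1.1 = q.1.1 := e
    rw [← e, h.coc.self ha ((lf_iff h.coc ha).1 h3).1] at e2
    exact Subtype.ext (Prod.ext e (by omega))
  · have l : Lf z b.1.1 b.1 := Or.inl ⟨le_rfl, by rw [self0 h.coc hb.1, hb.2]⟩
    have l' : Lf z b.1.1 (x, pot z b.1.1 x) := (lf_iff h.coc hb.1).2 ⟨hx, rfl⟩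
    refine ⟨⟨_, _, hb.1, l'⟩, ?_, rfl⟩
    exact hx.imp (fun hx => ⟨hx, _, hb.1, l, l'⟩) fun hx => ⟨hx, _, hb.1, l', l⟩

theorem exists_cut (hA : s.A.OrdConnected) (hz : Coc s.A z) (hm : Mono s.A z) :
    ∃ (c : St) (pr : c.P → s.P) (lev : c.P → ℤ), IsCut s.A z c.A pr lev :=
  ⟨_, _, _, CutOK.isCut ⟨hA, hz, hm⟩⟩

end cut

end Crest.Agent.X212.Cut21
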