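import Crest.Agent.X212.Cut21.Ref3
import Crest.Agent.X212.Sup43.Defs

/-!
# X212 / Cut21 (helper21): the remaining leaves of CUT and STEP
-/

set_option autoImplicit false
set_option linter.unusedSectionVars false

open Finset Classical

noncomputable section

namespace Crest.Agent.X212.Cut21

open Crest.Agent.X212.Hp13 Crest.Agent.X212.Alg36

/-- BDY: the conditions on the boundary data depend only on the class and survive subdivision -/
def BdyStmt : Prop := ∀ (s t : St) (f : t.P → s.P) (z : s.P → s.P → ℤ) (w : t.P → t.P → ℤ),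
  Good s → Coc s.A z → Desc s t f → Eqv t.A (pb f z) w →
    (JO s.A z → JO t.A w) ∧ (BR s.A z → BR t.A w) ∧ (CP s.A z → CP t.A w) ∧ (CM s.A z → CM t.A w)

/-- COND₊ -/
def CondPStmt : Prop := ∀ (s : St) (z : s.P → s.P → ℤ), Good s → Thick s.A → Coc s.A z →
  Mono s.A z → VertP s.A z → CP s.A z → CondP s.A z

/-- COND₋ -/
def CondMStmt : Prop := ∀ (s : St) (z : s.P → s.P → ℤ), Good s → Coc s.A z → Mono s.A z →
  (∀ a ∈ s.A, ∀ o, o ∉ s.A → o ≤ a →
    ∃ m, m ∉ s.A ∧ m ≤ a ∧ z m a = 0 ∧ ∀ o, o ∉ s.A → o ≤ a → o ≤ m) →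
  CM s.A z → CondM s.A z

/-- HALF, strong form -/
def Half2Stmt : Prop := ∀ (s : St) (z : s.P → s.P → ℤ), Good s → Coc s.A z → Mono s.A z →
  JO s.A z → ∃ t f w, Desc s t f ∧ Mono t.A w ∧ Eqv t.A (pb f z) w ∧ chi t.A w = chi s.A z ∧
    JK t.A w ∧ (NC s.A z → NC t.A w) ∧ (CondP s.A z → CondP t.A w)

/-- thickening keeps `JK` -/
def ThkStmt : Prop := ∀ (s : St) (z : s.P → s.P → ℤ), Good s → Coc s.A z → Mono s.A z →
  JK s.A z → JK s.sd.sd.A (thk s.A z)

/-- PREP: every class on `M` has a monotone representative with conditioned boundary -/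
def PrepStmt : Prop := ∀ (s : St) (z : s.P → s.P → ℤ), Good s → NC s.A (Rm s.A) →
  NC s.A (Rp s.A) → Coc s.A z →
    ∃ (t : St) (f : t.P → s.P) (g : t.P → ℤ) (w : t.P → t.P → ℤ), Desc s t f ∧
      EqD t.A w (pb f z + cb g) ∧ Mono t.A w ∧ Bdy t.A w

end Crest.Agent.X212.Cut21
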