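import Crest.Agent.X212.Cut21.Pos
import Crest.Agent.X212.Ind26.Hb
import Crest.Agent.X212.Sup43.Bound
import Crest.Agent.X212.Mcg32.Prep2

/-!
# X212 / Cut21 (helper21): CUT without maximality
-/

set_option autoImplicit false
set_option linter.unusedSectionVars false

open Finset Classical

noncomputable section

namespace Crest.Agent.X212.Cut21

open Crest.Agent.X212.Hp13 Crest.Agent.X212.Alg36

/-- what holds for the cut manifold without maximality -/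
structure Wc (s c : St) : Prop extends Good c where
  thick : Thick c.A
  esc : Esc c.A c.A
  sfm : Sf c.A (Rm c.A)
  sfp : Sf c.A (Rp c.A)
  ee : ee c.A = ee s.A

theorem cut_thk0 {s : St} {w : s.P → s.P → ℤ} (hs : Good s) (ht : Thick s.A) (he : Esc s.A s.A)
    (hw : Sf s.A w) (b : Bdy s.A w) (j : JK s.A w) (p : CondP s.A w) :
    NF s.sd.sd.P s.sd.sd.A (thk s.A w) ∧ ∃ (c : St) (pr : c.P → s.sd.sd.P) (lev : c.P → ℤ),
      IsCut s.sd.sd.A (thk s.A w) c.A pr lev ∧ Wc s c := by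
  have r := inR_dT hw.mono
  have d := desc2 s
  have g := Good.desc hs d
  have sf : Sf s.sd.sd.A (thk s.A w) := r.sf hs.conv hw
  have e : Eqv s.sd.sd.A (pb (Ch.top ∘ Ch.top) w) (thk s.A w) := r.eqv hw.coc hw.mono
  have nf : NF s.sd.sd.P s.sd.sd.A (thk s.A w) :=
    ⟨sf, Hlf24.thkStmt s w hs hw.coc hw.mono j, r.condP hs.conv hw.coc hw.mono p,
      condMStmt _ _ g sf.coc sf.mono
        (fun _ ha _ ho l => lowM_dT.max r hs.conv hw.coc hw.mono ha ho l)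
        (Hlf24.bdyStmt.bdy hs hw.coc d e b).cm⟩
  obtain ⟨c, pr, lev, hc⟩ := exists_cut (s := s.sd.sd) g.conv sf.coc sf.mono
  obtain ⟨c1, c2, c3, c4, c5, c6⟩ := cut1Stmt _ c _ pr lev g sf.coc sf.mono sf.nc hc
  obtain ⟨c7, c8⟩ := cut2Stmt s c w pr lev hs ht hw.coc hw.mono j b.br hc
  exact ⟨nf, c, pr, lev, hc, ⟨c1, c2, c7, c3, c4⟩, c8, c6 (Esc.desc' he d),
    sf_iff.2 ⟨mono_Rm, coc_Rm, nc_rm hc.cov g.conv sf.coc sf.mono sf.nc nf.cm⟩,
    sf_iff.2 ⟨mono_Rp c1, coc_Rp, nc_rp hc.cov g.conv sf.coc sf.mono sf.nc nf.cp⟩,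
    by rw [c5, d.ee_A]⟩

/-- CUT without maximality, full output -/
theorem cut0 {s : St} {z : s.P → s.P → ℤ} (hs : Good s) (ht : Thick s.A) (he : Esc s.A s.A)
    (hz : Sf s.A z) (b : Bdy s.A z) :
    ∃ (t : St) (f : t.P → s.P) (z' : t.P → t.P → ℤ) (c : St) (pr : c.P → t.P) (lev : c.P → ℤ),
      Desc s t f ∧ Eqv t.A (pb f z) z' ∧ chi t.A z' = chi s.A z ∧ NF t.P t.A z' ∧
      IsCut t.A z' c.A pr lev ∧ Wc s c := by
  have hb := Hlf24.bdyStmt
  obtain ⟨t1, f1, w1, d1, s1, e1, c1, v1⟩ := nfStmt s z hs ht hz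
  have g1 := Good.desc hs d1
  have b1 := hb.bdy hs hz.coc d1 e1 b
  obtain ⟨t2, f2, w2, d2, m2, e2, c2, j2, n2, p2⟩ := Hlf24.half2Stmt t1 w1 g1 s1.coc s1.mono b1.jo
  have d := d1.trans d2
  have s2 : Sf t2.A w2 := sf_iff.2 ⟨m2, e2.coc (d2.coc s1.coc), n2 s1.nc⟩
  have e : Eqv t2.A (pb (f1 ∘ f2) z) w2 := (d2.eqv e1).trans e2
  obtain ⟨nf, c, pr, lev, hc, st⟩ := cut_thk0 (Good.desc hs d) (thick_desc ht d)
    (Esc.desc' he d) s2 (hb.bdy hs hz.coc d e b) j2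
    (p2 (condPStmt _ _ g1 (thick_desc ht d1) s1.coc s1.mono v1 b1.cp))
  have r := inR_dT m2
  exact ⟨_, _, _, c, pr, lev, d.trans (desc2 t2), ((desc2 t2).eqv e).trans (r.eqv s2.coc m2),
    (r.chi (Mf.desc hs.mf (d.trans (desc2 t2))) s2.coc m2).trans (c2.trans c1), nf, hc,
    { st with ee := st.ee.trans d.ee_A }⟩

theorem cut0Stmt : Ind26.Cut0Stmt := fun _ _ hs ht he hz b =>
  let ⟨t, f, z', c, pr, lev, h1, h2, h3, h4, h5, h6⟩ := cut0 hs ht he hz b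
  ⟨t, f, z', c, pr, lev, h1, h2, h3, h4, h5, h6.toGood, h6.thick⟩

theorem ind_stepStmt : Ind26.StepStmt Ind26.par := ind_step (stepStmt Sup43.boundStmt) Ind26.HB

theorem ind_stepStmt' (HB : St → ℕ → Prop) : Ind26.StepStmt (par' HB) :=
  ind_step' Mcg32.prepB Sup43.boundStmt HB

theorem ind_jStmt' (HB : St → ℕ → Prop) : Ind26.JStmt (par' HB) := jStmtB _ HB

theorem ind_jStmt : Ind26.JStmt Ind26.par := jStmt Ind26.HB

end Crest.Agent.X212.Cut21
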