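import Crest.Agent.X212.Cut21.Brg
import Crest.Agent.X212.Kh11.Bas
import Crest.Agent.X212.Hp13.TraD

/-!
# X212 / Cut21 (helper21): the leaf MV-2 of P1
-/

set_option autoImplicit false
set_option linter.unusedSectionVars false

open Finset Classical

noncomputable section

namespace Crest.Agent.X212.Cut21

open Crest.Agent.X212.Hp13 hiding exOn_add exOn_neg exOn_congr exOn_pb sub_cl cl_low cl_mono om_low
open Alg36 (Om Esc mix Clo)
open _root_.Crest.Agent.X212.Hk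
open Kh11 (WS)

variable {P : Type} [PartialOrder P] [Fintype P] {A B X Y G N W : Set P}
  {Γ : Type} [AddCommGroup Γ] {a b ζ : P → P → Γ}

/-- both sets are lower in their union -/
def Lw (A B : Set P) : Prop :=
  (∀ x ∈ B, ∀ y ∈ A, x ≤ y → x ∈ A) ∧ ∀ x ∈ A, ∀ y ∈ B, x ≤ y → x ∈ B

theorem Lw.of (hA : IsLowerSet A) (hB : IsLowerSet B) : Lw A B :=
  ⟨fun _ _ _ k l => hA l k, fun _ _ _ k l => hB l k⟩

theorem Lw.l (h : Lw A B) {x y : P} (hx : x ∈ A ∪ B) (hy : y ∈ A) (l : x ≤ y) : x ∈ A :=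
  hx.elim id fun k => h.1 x k y hy l

theorem Lw.r (h : Lw A B) {x y : P} (hx : x ∈ A ∪ B) (hy : y ∈ B) (l : x ≤ y) : x ∈ B :=
  hx.elim (fun k => h.2 x k y hy l) id

theorem Lw.eqE (h : Lw A B) (h1 : EqE A a b) (h2 : EqE B a b) : EqE (A ∪ B) a b :=
  fun x hx y hy l => hy.elim (fun k => h1 x (h.l hx k l) y k l) fun k => h2 x (h.r hx k l) y k l

theorem Lw.coc (h : Lw A B) (ha : CocOn A a) (hb : CocOn B b) (e : EqE (A ∩ B) a b) :
    ∃ c, CocOn (A ∪ B) c ∧ EqE A c a ∧ EqE B c b := by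
  let c : P → P → Γ := fun x y => if y ∈ A then a x y else b x y
  have h1 : EqE A c a := fun _ _ _ k _ => if_pos k
  have h2 : EqE B c b := fun x hx y hy l => by
    by_cases k : y ∈ A
    · exact (if_pos k).trans (e x ⟨h.1 x hx y k l, hx⟩ y ⟨k, hy⟩ l)
    · exact if_neg k
  exact ⟨c, fun x hx y hy v hv l l' => hv.elim
    (fun k => cocOn_congr ha h1 x (h.l hx k (l.trans l')) y (h.l hy k l') v k l l')
    fun k => cocOn_congr hb h2 x (h.r hx k (l.trans l')) y (h.r hy k l') v k l l', h1, h2⟩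

theorem Lw.ex (h : Lw A B) (ha : ExOn A ζ) (hb : ExOn B ζ)
    (hc : ∀ x ∈ A ∩ B, ∀ y ∈ A ∩ B, Rch B x y → Rch (A ∩ B) x y) : ExOn (A ∪ B) ζ := by
  obtain ⟨g, hg⟩ := ha
  obtain ⟨g', hg'⟩ := hb
  have e : ∀ x ∈ A ∩ B, ∀ y ∈ A ∩ B, Rch B x y → g x - g' x = g y - g' y := fun x hx y hy r =>
    (hc x hx y hy r).eq (g := fun x => g x - g' x) fun s hs t ht l => by
      have := (hg s hs.1 t ht.1 l).symm.trans (hg' s hs.2 t ht.2 l)
      rw [sub_eq_sub_iff_sub_eq_sub, ← neg_sub, this, neg_sub]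
  let k : P → Γ := fun x =>
    if j : ∃ y ∈ A ∩ B, Rch B x y then g j.choose - g' j.choose else 0
  have k1 : ∀ x, ∀ y ∈ A ∩ B, Rch B x y → k x = g y - g' y := fun x y hy r =>
    have j : ∃ y ∈ A ∩ B, Rch B x y := ⟨y, hy, r⟩
    (dif_pos j).trans (e _ j.choose_spec.1 y hy (j.choose_spec.2.symm.trans r))
  have k2 : ∀ x ∈ B, ∀ y ∈ B, x ≤ y → k x = k y := fun x hx y hy l => by
    have r := Rch.of_cm hx hy (Or.inl l)
    by_cases j : ∃ t ∈ A ∩ B, Rch B x t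
    · obtain ⟨t, t1, t2⟩ := j
      rw [k1 x t t1 t2, k1 y t t1 (r.symm.trans t2)]
    · have j' : ¬ ∃ t ∈ A ∩ B, Rch B y t := fun ⟨t, t1, t2⟩ => j ⟨t, t1, r.trans t2⟩
      simp only [k, dif_neg j, dif_neg j']
  let u : P → Γ := fun x => if x ∈ A then g x else g' x + k x
  have u2 : ∀ x ∈ B, u x = g' x + k x := fun x hx => by
    by_cases j : x ∈ A
    · rw [k1 x x ⟨j, hx⟩ Rch.rfl]; simp [u, j]
    · exact if_neg j
  refine ⟨u, h.eqE (b := cb u) (fun x hx y hy l => ?_) fun x hx y hy l => ?_⟩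
  · simp only [cb, u, if_pos hx, if_pos hy, hg x hx y hy l]
  · rw [cb, u2 x hx, u2 y hy, k2 x hx y hy l, hg' x hx y hy l]; abel

theorem Lw.ex' (h : Lw A B) (ha : ExOn A ζ) (hb : ExOn B ζ) (hc : Conn (A ∩ B)) :
    ExOn (A ∪ B) ζ := h.ex ha hb fun x hx y hy _ => hc x hx y hy

theorem Lw.conn (h : Lw A B) (hu : Conn (A ∪ B)) (hc : Conn (A ∩ B)) (hn : (A ∩ B).Nonempty) :
    Conn A := by
  obtain ⟨m, hm⟩ := hn
  have k : ∀ x ∈ A, Rch A m x := fun x hx =>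
    (hu m (Or.inl hm.1) x (Or.inl hx)).ind (p := fun t => t ∈ A → Rch A m t) (fun _ => Rch.rfl)
      (fun s hs t ht l => ht.elim (fun j => by
        have i := h.l hs j l
        have r := Rch.of_cm i j (Or.inl l)
        exact ⟨fun a _ => (a i).trans r, fun a _ => (a j).trans r.symm⟩) fun j =>
        iff_of_true (fun i => (hc m hm s ⟨i, h.r hs j l⟩).mono Set.inter_subset_left)
          fun i => (hc m hm t ⟨i, j⟩).mono Set.inter_subset_left) hx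
  exact fun x hx y hy => (k x hx).symm.trans (k y hy)

theorem conn_union (hA : Conn A) (hB : Conn B) (hn : (A ∩ B).Nonempty) : Conn (A ∪ B) := by
  obtain ⟨m, hm⟩ := hn
  have k : ∀ x ∈ A ∪ B, Rch (A ∪ B) m x := fun x hx => hx.elim
    (fun j => (hA m hm.1 x j).mono Set.subset_union_left)
    fun j => (hB m hm.2 x j).mono Set.subset_union_right
  exact fun x hx y hy => (k x hx).symm.trans (k y hy)

/-- exact on every component -/
theorem exOn_cmp (h : ∀ C, IsCmp A C → ExOn C ζ) : ExOn A ζ := by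
  choose! g hg using h
  refine ⟨fun x => g (Hp13.cmp A x) x, fun x hx y hy l => ?_⟩
  have r := Rch.of_cm hx hy (Or.inl l)
  beta_reduce
  rw [← cmp_eq r]
  exact hg _ (isCmp_cmp hx) x (mem_cmp_self hx) y ⟨hy, r⟩ l

theorem ws_t2 (E : Set P) : WS (t2 ⁻¹' E) E t2 := (Kh11.ce_top.comp Kh11.ce_top).ws_pre E

theorem cl_t2 : cl (t2 ⁻¹' X) = t2 ⁻¹' cl X := by
  rw [Set.preimage_comp, cl_sd, cl_sd]; rfl

theorem om_t2 : Om (t2 ⁻¹' X) = t2 ⁻¹' Om X := by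
  rw [Set.preimage_comp, om_sd', om_sd']; rfl

theorem opn_t2 (h : Opn X G N) {c : Ch (Ch P)} (hc : c ∈ mvS X N) : t2 c ∈ N :=
  let ⟨k, x, a, b⟩ := hc; h.up x b _ k (le_t2 a)

theorem opn_lw (h : Opn X G N) (hX : IsUpperSet X) (hW : G ⊆ W) (hd : Disjoint W X) :
    Lw (t2 ⁻¹' W) (mvS X N) :=
  ⟨fun _ k _ j l => hW ((h.sub (opn_t2 h k)).resolve_left fun i =>
    Set.disjoint_left.1 hd j (hX (t2_mono l) i)), fun _ _ _ k l => mvS_low l k⟩

theorem opn_inter (h : Opn X G N) (hG : Bd X G) (hW : G ⊆ W) (hd : Disjoint W X) :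
    t2 ⁻¹' W ∩ mvS X N = mvH G N :=
  Set.ext fun _ => ⟨fun k => ⟨(h.sub (opn_t2 h k.2)).resolve_left (Set.disjoint_left.1 hd k.1),
    k.2.2⟩, fun k => ⟨hW k.1, hG.sub_cl k.1, k.2⟩⟩

theorem opn_on (h : Opn X G N) : On X G (cb (ind N)) := flat_of_disj (Set.disjoint_left.2
  fun _ k j => (h.sub j).elim k.1.1 k.2)

theorem mvK_inter (hG : Bd X G) : mvK G N ∩ mvD X N = mvK G N ∩ mvH G N :=
  Set.ext fun _ => and_congr_right fun k =>
    ⟨fun j => ⟨k.1, j.1.2⟩, fun j => ⟨⟨hG.sub_cl k.1, j.2⟩, k.2⟩⟩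

theorem bl_esc (h : Rg X) (hG : Bd X G) (hb : Bl X G N) (he : Esc X X) {n : P} (hn : n ∈ N) :
    ∃ m ∈ G, Rch N n m := by
  obtain ⟨q, hq⟩ := hb.td.ne
  rw [(opn_on hb.toOpn).cv hG] at hq
  have q1 := hq.1 _ q.top_mem
  obtain ⟨c, c1, c2⟩ := ex_ca h.up (hb.td.toS1.z1 h.up) (q := q)
    ⟨(dom_iff' h.up).2 (hG.sub_cl q1), hq.2⟩
  have k : ∀ x, x ∉ N → ∀ y ∈ N, y ∈ X → x ≤ y → ∃ m ∈ G, Rch N y m := fun x hx y hy a l => by
    have := (hb.td.conn (Ch.pr x y l) ⟨by simpa using a, by simpa using cb_ind_pos.2 ⟨hx, hy⟩⟩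
      c c1).map (f := Ch.top) (F := N) fun s hs t ht j =>
        Rch.of_cm (cb_ind_pos.1 hs.2).2 (cb_ind_pos.1 ht.2).2 (Or.inl (Ch.top_mono j))
    rw [Ch.top_pr] at this
    exact ⟨_, q1, this.trans (Rch.of_cm (cb_ind_pos.1 c1.2).2 (cb_ind_pos.1 hq.2).2
      (Or.inr (Ch.top_mono c2)))⟩
  rcases hb.sub hn with a | a
  swap
  · exact ⟨n, a, Rch.rfl⟩
  obtain ⟨b, b1, r, x, x1, x2⟩ := he n a
  have s : X \ Nᶜ ⊆ N := fun _ j => not_not.1 j.2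
  rcases r.exit (X := Nᶜ) (not_not.2 hn) with ⟨b2, r⟩ | ⟨t, t1, r, y, y1, y2, l⟩
  · have l := x2.resolve_left fun j => x1 (h.up j b1)
    by_cases j : x ∈ N
    · exact ⟨x, (hb.sub j).resolve_left x1,
        (r.mono s).trans (Rch.of_cm (not_not.1 b2) j (Or.inr l))⟩
    · obtain ⟨m, m1, m2⟩ := k x j b (not_not.1 b2) b1 l
      exact ⟨m, m1, (r.mono s).trans m2⟩
  · obtain ⟨m, m1, m2⟩ := k y y2 t (s t1) t1.1
      (l.resolve_left fun j => y2 (hb.up t (s t1) y (sub_cl y1) j))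
    exact ⟨m, m1, (r.mono s).trans m2⟩

theorem qq_mv (h : Rg X) (hY : X ⊆ Y) (ho : Opn X (Om X) N) (hs : Scr X N) (hq : QQ Y X)
    (e : Om (mvX X N) = mvK (Om X) N ∪ mvD X N) : QQ (t2 ⁻¹' Y) (mvX X N) := by
  have hG := bd_om h.up
  have hW : Om X ⊆ cl Y \ X := fun _ k => ⟨cl_mono hY k.2, k.1⟩
  have hd : Disjoint (cl Y \ X) X := Set.disjoint_sdiff_left
  have e1 : cl (t2 ⁻¹' Y) \ mvX X N = t2 ⁻¹' (cl Y \ X) ∪ mvS X N := by
    rw [cl_t2]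
    refine Set.ext fun c => ⟨fun k => ?_, fun k => k.elim (fun j => ⟨j.1, fun i => j.2 i.1⟩)
      fun j => ⟨cl_mono hY j.1, fun i => let ⟨_, x, a, b⟩ := j; i.2 x a b⟩⟩
    by_cases j : t2 c ∈ X
    · refine Or.inr ⟨sub_cl j, by_contra fun i => k.2 ⟨j, fun x a b => i ⟨x, a, b⟩⟩⟩
    · exact Or.inl ⟨k.1, j⟩
  have l1 := opn_lw ho h.up hW hd
  have i1 := opn_inter ho hG hW hd
  have l2 : Lw (mvK (Om X) N) (mvH (Om X) N) := .of (mvK_low hG.low) (mvH_low hG.low)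
  have l3 : Lw (mvK (Om X) N) (mvD X N) := .of (mvK_low hG.low) mvD_low
  have sK : mvK (Om X) N ⊆ t2 ⁻¹' Om X := fun _ k => k.1
  have sH : mvH (Om X) N ⊆ t2 ⁻¹' Om X := fun _ k => k.1
  have sD : mvD X N ⊆ mvS X N := fun _ k => k.1
  have sW : t2 ⁻¹' Om X ⊆ t2 ⁻¹' (cl Y \ X) := Set.preimage_mono hW
  have xD : ∀ a : Ch (Ch P) → Ch (Ch P) → ZMod 2, CocOn (mvD X N) a → ExOn (mvD X N) a :=
    fun a ha => exOn_cmp fun C k => (hs C k).1.ex _ _ (cocOn_mono ha k.sub)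
  refine ⟨fun a ha => ?_, fun b hb hx => ?_⟩
  · rw [e] at ha ⊢
    rw [e1]
    obtain ⟨g, hg⟩ := xD a (cocOn_mono ha Set.subset_union_right)
    have f1 : EqE (mvD X N) (a - cb g) 0 := fun x hx y hy l => sub_eq_zero.2 (hg x hx y hy l)
    obtain ⟨a2, c2, k1, k2⟩ := l2.coc (cocOn_sub (cocOn_mono ha Set.subset_union_left) (cocOn_cb g))
      cocOn_zero (f1.mono (mvK_inter hG ▸ Set.inter_subset_right))
    rw [mvK_union_mvH] at c2
    obtain ⟨a3, c3, k3⟩ := (ws_t2 _).onto c2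
    obtain ⟨b3, c4, k4⟩ := hq.q1 a3 c3
    obtain ⟨u, hu⟩ := exOn_sub (exOn_pb k4 t2_mono) k3
    have f2 : EqE (t2 ⁻¹' Om X) (pb t2 b3 - cb u) a2 := fun x hx y hy l => by
      have := hu x hx y hy l
      simp only [pb, cb, Pi.sub_apply] at this ⊢
      rw [← this]; ring
    obtain ⟨b, c5, k5, k6⟩ := l1.coc (cocOn_sub (cocOn_pb c4 t2_mono) (cocOn_cb u)) cocOn_zero
      (i1 ▸ (f2.mono sH).trans k2)
    refine ⟨b, c5, exOn_congr (exOn_neg (exOn_cb g)) (l3.eqE (fun x hx y hy l => ?_)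
      fun x hx y hy l => ?_)⟩
    · have := ((k5.mono (sK.trans sW)).trans ((f2.mono sK).trans k1)) x hx y hy l
      simp only [Pi.sub_apply, Pi.neg_apply] at this ⊢
      rw [this]; ring
    · have := k6 x (sD hx) y (sD hy) l
      have := hg x hx y hy l
      simp_all [cb]
  · rw [e1] at hb
    rw [om_t2] at hx
    rw [e]
    obtain ⟨b3, c3, k3⟩ := (ws_t2 _).onto (cocOn_mono hb Set.subset_union_left)
    have hO : Om Y ⊆ cl Y \ X := fun _ k => ⟨k.2, fun j => k.1 (hY j)⟩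
    have x1 := hq.q2 b3 c3 ((ws_t2 _).ex (cocOn_mono c3 hO)
      ((exOn_iff_of_sub (exOn_mono k3 (Set.preimage_mono hO))).1 hx))
    refine l3.ex (exOn_mono ((exOn_iff_of_sub (exOn_mono k3 sW)).2 (exOn_pb x1 t2_mono)) sK)
      (xD b (cocOn_mono hb (sD.trans Set.subset_union_right))) fun x hx y hy r => ?_
    exact ((hs _ (isCmp_cmp hx.2)).2 x ⟨mem_cmp_self hx.2, hx.1.1⟩ y ⟨⟨hy.2, r⟩, hy.1.1⟩).mono
      fun c k => ⟨⟨k.2, k.1.1.2⟩, k.1.1⟩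

theorem mv2Stmt (hw : MvWStmt) (h1 : Mv1Stmt) : Mv2Stmt := fun P _ _ X G N h hG => by
  refine ⟨fun hb => ?_, fun Y hY ho hs hq => qq_mv h hY ho hs hq ?_⟩
  swap
  · rw [(h1 P X _ N h (bd_om h.up) ho).2.2.2.1]; simp [mvG]
  have w1 := hw P (cl X) N cl_low hb.up
  have w2 := hw P G N hG.low fun x a y b => hb.up x a y (hG.sub_cl b)
  have cD : Ctr (mvD X N) := by
    rw [mvD_eq, w1.2.2.ctr_iff, ← (ws_ca h hb.td.toS1).ctr_iff]; exact td_ctr h hb.td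
  have cH : Ctr (mvH G N) := w2.2.1.ctr_iff.2 (Set.inter_comm N G ▸ hb.ctr)
  have o := (opn_on hb.toOpn).cv hG
  have cc : Conn (mvK G N ∩ mvH G N) :=
    w2.2.2.conn_iff.2 (o ▸ conn_cv h hb.td.toS1 hb.td.conn hb.td.chi.ge)
  have cn : (mvK G N ∩ mvH G N).Nonempty := w2.2.2.ne_iff.2 (o ▸ hb.td.ne)
  have l2 : Lw (mvK G N) (mvH G N) := .of (mvK_low hG.low) (mvH_low hG.low)
  have l3 : Lw (mvK G N) (mvD X N) := .of (mvK_low hG.low) mvD_low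
  have e := mvK_inter (N := N) hG
  refine ⟨cD, cH, e, cc, cn, fun D k => ?_, fun k => ?_, fun k n => bl_esc h hG hb k,
    fun A _ => ⟨fun ζ ζ' a b c => ⟨fun k => ?_, fun k => ?_⟩, fun W ζ a b c => ?_⟩⟩
  · obtain ⟨x, hx, rfl⟩ := k
    rw [cD.conn.cmp_eq hx]
    refine ⟨cD, ?_⟩
    convert cc using 1
    rw [← e]
    exact Set.ext fun c => ⟨fun j => ⟨⟨(hb.sub (opn_t2 hb.toOpn j.1.1)).resolve_left j.2.1,
      j.1.2⟩, j.1⟩, fun j => ⟨j.2, hG.sub j.1.1⟩⟩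
  · exact conn_union (l2.conn (by rw [mvK_union_mvH]; exact (ws_t2 G).conn_iff.2 k) cc cn) cD.conn (e ▸ cn)
  · exact l3.ex' ((exOn_iff_of_sub c).2 (exOn_mono (exOn_pb k t2_mono) fun _ j => j.1))
      (cD.ex _ _ (cocOn_mono b Set.subset_union_right)) (e ▸ cc)
  · exact (ws_t2 G).ex a (mvK_union_mvH (G := G) (N := N) ▸ l2.ex'
      ((exOn_iff_of_sub c).1 (exOn_mono k Set.subset_union_left))
      (cH.ex _ _ (cocOn_mono (cocOn_pb a t2_mono) fun _ j => j.1)) cc)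
  · obtain ⟨g, hg⟩ := cH.ex _ _ (cocOn_mono (cocOn_pb c t2_mono) fun _ j => a j.1)
    obtain ⟨z, z1, z2, -⟩ := (opn_lw hb.toOpn h.up a b).coc (cocOn_pb c t2_mono) (cocOn_cb g)
      (opn_inter hb.toOpn hG a b ▸ hg)
    exact ⟨z, z1, Flat.exOn fun x hx y hy l => sub_eq_zero.2 (z2 x hx y hy l)⟩

end Crest.Agent.X212.Cut21
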