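import Crest.Agent.X212.Cut21.Leaf
import Crest.Agent.X212.Alg36.Cut2a

/-!
# X212 / Cut21 (helper21): the push off the frontier layer, normal form near `R₊`
-/

set_option autoImplicit false
set_option linter.unusedSectionVars false

open Finset Classical

noncomputable section

namespace Crest.Agent.X212.Cut21

open Crest.Agent.X212.Hp13 Crest.Agent.X212.Alg36
open Crest.Agent.X212.Ind26 (tri tri_val top_tri bot_tri)

variable {P : Type} [PartialOrder P] [Fintype P] {A : Set P} {z : P → P → ℤ}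

/-- the level `k` over `a` lies under all of `O₊` -/
def Hi (A : Set P) (z : P → P → ℤ) (a : P) (k : ℤ) : Prop :=
  a ∈ Fr A ∧ ∀ o, o ∉ A → a ≤ o → k < z a o

theorem Hi.anti {a : P} {k k' : ℤ} (h : Hi A z a k) (e : k' ≤ k) : Hi A z a k' :=
  ⟨h.1, fun o h1 h2 => e.trans_lt (h.2 o h1 h2)⟩

theorem Hi.up (hz : Coc A z) {a b : P} {k : ℤ} (h : Hi A z a (k + z a b)) (e : a ≤ b)
    (hb : b ∈ Fr A) : Hi A z b k := ⟨hb, fun o h1 h2 => by
  have := h.2 o h1 (e.trans h2)
  have := (tri1 h.1.1 e h2).add hz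
  omega⟩

theorem lt_card {p : ℕ → Prop} [DecidablePred p] (hp : ∀ i j, i ≤ j → p j → p i) (N j : ℕ) :
    j < ((range N).filter p).card ↔ j < N ∧ p j := by
  constructor
  · intro h
    by_contra k
    have : (range N).filter p ⊆ range j := fun i hi => mem_range.2 <| not_le.1 fun l =>
      k ⟨l.trans_lt (mem_range.1 (mem_filter.1 hi).1), hp _ _ l (mem_filter.1 hi).2⟩
    have := card_le_card this
    rw [card_range] at this; omega
  · intro h
    have : range (j + 1) ⊆ (range N).filter p := fun i hi => by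
      have := mem_range.1 hi
      exact mem_filter.2 ⟨mem_range.2 (by omega), hp _ _ (by omega) h.2⟩
    have := card_le_card this
    rw [card_range] at this; omega

theorem pg_nn (c : Ch P) : 0 ≤ pg A z c := by unfold pg; split_ifs <;> positivity

theorem pg_off {c : Ch P} (h : c.top ∉ A) : pg A z c = 0 := if_neg h

theorem le_sum (z : P → P → ℤ) (x y : P) : z x y ≤ (∑ x, ∑ y, (z x y).toNat : ℕ) := by
  have h1 : (z x y).toNat ≤ ∑ y, (z x y).toNat :=
    single_le_sum (f := fun y => (z x y).toNat) (fun _ _ => Nat.zero_le _) (mem_univ y)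
  have h2 : ∑ y, (z x y).toNat ≤ ∑ x, ∑ y, (z x y).toNat :=
    single_le_sum (f := fun x => ∑ y, (z x y).toNat) (fun _ _ => Nat.zero_le _) (mem_univ x)
  have := Int.self_le_toNat (z x y)
  omega

theorem lt_pg (hm : Mono A z) {c : Ch P} {j : ℤ} (hj : 0 ≤ j) :
    j < pg A z c ↔ c.top ∈ A ∧ ∃ a ∈ c.1, Hi A z a (j + z a c.top) := by
  by_cases h : c.top ∈ A
  swap
  · rw [pg_off h]; exact ⟨fun k => by omega, fun k => absurd k.1 h⟩
  lift j to ℕ using hj
  rw [pg, if_pos h, Nat.cast_lt, lt_card]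
  · constructor
    · rintro ⟨-, a, h1, h2, h3⟩
      exact ⟨h, a, h1, h2, fun o k1 k2 => by have := h3 o k1 k2; omega⟩
    · rintro ⟨-, a, h1, h2, h3⟩
      refine ⟨?_, a, h1, h2, fun o k1 k2 => by have := h3 o k1 k2; omega⟩
      obtain ⟨ha, o, k1, k2⟩ := h2
      have := h3 o k1 k2
      have := hm _ _ (Dp.of_left ha (Ch.le_top h1))
      have := le_sum z a o
      omega
  · rintro i j l ⟨a, h1, h2, h3⟩
    exact ⟨a, h1, h2, fun o k1 k2 => by have := h3 o k1 k2; omega⟩

theorem psh_val (c d : Ch P) : psh A z c d = z c.top d.top + (pg A z d - pg A z c) := rfl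

theorem coc_psh (hz : Coc A z) : Coc (Ch.top ⁻¹' A) (psh A z) :=
  (hz.pb Ch.top_mono).add (coc_cb _)

theorem eqv_psh : Eqv (Ch.top ⁻¹' A) (pb Ch.top z) (psh A z) := eqv_add_cb fun _ => pg_off

theorem pg_le (hz : Coc A z) (hm : Mono A z) {c d : Ch P} (h : c ≤ d) (hp : Dp A c.top d.top) :
    pg A z c ≤ z c.top d.top + pg A z d := by
  have h0 := hm _ _ hp
  have h1 := pg_nn (A := A) (z := z) d
  by_contra k
  obtain ⟨hc, a, ha, hi⟩ := (lt_pg hm (c := c) (j := pg A z c - 1) (by omega)).1 (by omega)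
  have e := (tri1 hi.1.1 (Ch.le_top ha) hp.1).add hz
  by_cases hd : d.top ∈ A
  · have := (lt_pg hm (c := d) (j := pg A z c - 1 - z c.top d.top) (by omega)).2
      ⟨hd, a, h ha, hi.anti (by omega)⟩
    omega
  · have := hi.2 _ hd ((Ch.le_top ha).trans hp.1)
    omega

theorem mono_psh (hz : Coc A z) (hm : Mono A z) : Mono (Ch.top ⁻¹' A) (psh A z) :=
  fun c d hp => by
    have := pg_le hz hm hp.1 (hp.map Ch.top_mono)
    rw [psh_val]; omega

theorem vert_psh (hz : Coc A z) (hm : Mono A z) : VertP (Ch.top ⁻¹' A) (psh A z) := by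
  intro c hc
  rw [fr_sd] at hc
  obtain ⟨o, ⟨h1, h2⟩, h3⟩ := Set.exists_min_image {o | o ∉ A ∧ c.top ≤ o} (z c.top)
    (Set.toFinite _) hc.2
  refine ⟨tp c o h2, by simpa using h1, le_tp _ _ _, ?_⟩
  have e := pg_off (A := A) (z := z) (c := tp c o h2) (by simpa using h1)
  have l := pg_le hz hm (le_tp c o h2) (by simpa using Dp.of_left hc.1 h2)
  have l0 := pg_nn (A := A) (z := z) c
  rw [psh_val]
  rw [e, top_tp] at *
  by_contra k
  have := (lt_pg hm (c := c) (j := z c.top o - 1) (by omega)).2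
    ⟨hc.1, _, c.top_mem, hc, fun p k1 k2 => by
      have := h3 p ⟨k1, k2⟩; have := self0 hz hc.1; omega⟩
  omega

/-- the interior points over `a` under the level `k` -/
def Iv (A : Set P) (z : P → P → ℤ) (a : P) (k : ℤ) : Set P :=
  {b | b ∈ A ∧ a ≤ b ∧ b ∉ Fr A ∧ z a b < k + 1}

theorem TK.iv (h : TK A z) {a : P} (ha : a ∈ Fr A) {k : ℤ} (hk : 0 ≤ k) : Ctr (Iv A z a k) :=
  h a ha (k + 1) (by omega)

theorem sum_pg (hz : Coc A z) (hm : Mono A z) (ht : TK A z) : ∑ c, eps c * pg A z c = 0 := by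
  obtain ⟨N, hN⟩ : ∃ N : ℕ, ∀ a (c : Ch P), z a c.top + pg A z c ≤ N :=
    let ⟨N, hN⟩ := (Set.finite_range fun p : P × Ch P => z p.1 p.2.top + pg A z p.2).bddAbove
    ⟨N.toNat, fun a c => (hN ⟨(a, c), rfl⟩).trans (Int.self_le_toNat N)⟩
  let H : ℕ → P → Ch P → ℤ := fun i a c =>
    if Hi A z a i ∧ ∀ x ∈ c.1, a < x → x ∈ Iv A z a i then 1 else 0
  have k : ∀ c : Ch P, eps c * pg A z c =
      -∑ a, ∑ i ∈ range N, if a ∈ c.1 then c.sg * H i a c else 0 := by
    intro c
    have tA : ∀ i a, a ∈ c.1 → (Hi A z a i ∧ ∀ x ∈ c.1, a < x → x ∈ Iv A z a i) → c.top ∈ A :=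
      fun i a ha h => (Ch.le_top ha).eq_or_lt.elim (fun e => e ▸ h.1.1.1)
        fun l => (h.2 _ c.top_mem l).1
    by_cases h1 : c.top ∈ A ∧ ∃ a ∈ c.1, a ∈ Fr A
    · obtain ⟨h1, a0, h2, h3⟩ := h1
      let d := c.sub (c.1.filter (· ∈ Fr A)) ⟨a0, mem_filter.2 ⟨h2, h3⟩⟩ (filter_subset _ _)
      obtain ⟨ha, hf⟩ := mem_filter.1 d.top_mem
      have hl : ∀ x ∈ c.1, x ∈ Fr A → x ≤ d.top := fun x k1 k2 =>
        Ch.le_top (c := d) (mem_filter.2 ⟨k1, k2⟩)
      generalize d.top = a at ha hf hl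
      rw [sum_eq_single a _ (fun h => absurd (mem_univ _) h), eps_ch, neg_mul, neg_inj]
      · have z0 := hm _ _ (Dp.of_left hf.1 (Ch.le_top ha))
        have z1 := pg_nn (A := A) (z := z) c
        have := hN a c
        have e : pg A z c = ∑ i ∈ range N, ((if (i : ℤ) < z a c.top + pg A z c then 1 else 0) -
            (if (i : ℤ) < z a c.top then 1 else 0)) := by
          rw [sum_sub_distrib, sum_range_lt (by omega) this, sum_range_lt z0 (by omega)]; ring
        rw [congrArg (c.sg * ·) e, mul_sum]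
        refine sum_congr rfl fun i _ => ?_
        rw [if_pos ha]
        congr 1
        by_cases l : (i : ℤ) < z a c.top
        · rw [if_pos l, if_pos (by omega), sub_self]
          refine (if_neg fun h => ?_).symm
          rcases (Ch.le_top ha).eq_or_lt with e | e
          · rw [← e, self0 hz hf.1] at l; omega
          · have := (h.2 _ c.top_mem e).2.2.2; omega
        rw [if_neg l, sub_zero]
        have q := lt_pg hm (c := c) (j := i - z a c.top) (by omega)
        refine if_congr ⟨fun h => ?_, fun h => ?_⟩ rfl rfl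
        · obtain ⟨-, b, hb, hi⟩ := q.1 (by omega)
          have := (tri1 hi.1.1 (hl b hb hi.1) (Ch.le_top ha)).add hz
          refine ⟨Hi.up hz (hi.anti (by omega)) (hl b hb hi.1) hf, fun x hx lt => ?_⟩
          have hx' : x ∈ A := by_contra fun n => n (by
            by_contra n'
            exact absurd (hi.2 x n (hl b hb hi.1 |>.trans lt.le)) (by
              have := (tri1 hi.1.1 ((hl b hb hi.1).trans lt.le) (Ch.le_top hx)).add hz
              have := hm _ _ (Dp.of_right h1 (Ch.le_top hx))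
              omega))
          have := (tri1 hf.1 lt.le (Ch.le_top hx)).add hz
          have := hm _ _ (Dp.of_right h1 (Ch.le_top hx))
          exact ⟨hx', lt.le, fun f => (hl x hx f).not_gt lt, by omega⟩
        · have := q.2 ⟨h1, a, ha, h.1.anti (by omega)⟩
          omega
      · refine fun b _ hb => sum_eq_zero fun i _ => ?_
        split_ifs with k
        · rw [show H i b c = 0 from if_neg fun h =>
            (h.2 a ha (lt_of_le_of_ne (hl b k h.1.1) hb)).2.2.1 hf, mul_zero]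
        · rfl
    · have : pg A z c = 0 := le_antisymm (not_lt.1 fun h =>
        let ⟨k1, a, k2, k3⟩ := (lt_pg hm le_rfl).1 h; h1 ⟨k1, a, k2, k3.1⟩) (pg_nn c)
      rw [this, mul_zero, eq_comm, neg_eq_zero]
      refine sum_eq_zero fun a _ => sum_eq_zero fun i _ => ?_
      split_ifs with k
      · rw [show H i a c = 0 from if_neg fun h => h1 ⟨tA i a k h, a, k, h.1.1⟩, mul_zero]
      · rfl
  rw [sum_congr rfl fun c _ => k c, sum_neg_distrib, neg_eq_zero, sum_comm]
  refine sum_eq_zero fun a _ => ?_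
  rw [sum_comm]
  refine sum_eq_zero fun i _ => ?_
  rw [← sum_filter, sum_through a (fun _ => 1) (H i a) (H i a)]
  · by_cases hi : Hi A z a i
    swap
    · rw [sum_eq_zero (s := univ.filter fun c : Ch P => c.bot = a) fun c _ => by
        rw [show H i a c = 0 from if_neg fun h => hi h.1, mul_zero], mul_zero, neg_zero]
    have e : ∑ c ∈ univ.filter (fun c : Ch P => c.bot = a), c.sg * H i a c =
        ∑ c ∈ univ.filter (fun c : Ch P => c.bot = a ∧ ∀ x ∈ c.1, a < x → x ∈ Iv A z a i),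
          c.sg := by
      simp only [sum_filter, H]
      refine sum_congr rfl fun c _ => ?_
      by_cases k1 : c.bot = a <;> by_cases k2 : ∀ x ∈ c.1, a < x → x ∈ Iv A z a i <;>
        simp [k1, k2, hi]
    rw [e, eu_split (X := insert a (Iv A z a i)) (Y := Iv A z a i) (Set.subset_insert _ _),
      (ht.iv hi.1 (by omega)).eu, eu_cone (Set.mem_insert _ _), sub_self, mul_zero, neg_zero]
    · rintro x (rfl | h)
      exacts [Cm.rfl, Or.inl h.2.1]
    · intro c
      refine ⟨fun h => ⟨fun x hx => ?_, fun k => (k _ c.bot_mem).2.2.1 (h.1 ▸ hi.1)⟩, fun h => ?_⟩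
      · exact (h.1 ▸ Ch.bot_le hx : a ≤ x).eq_or_lt.elim (fun e => Or.inl e.symm)
          fun l => Or.inr (h.2 x hx l)
      · refine ⟨?_, fun x hx l => (h.1 x hx).resolve_left l.ne'⟩
        have : a ∈ c.1 := by_contra fun n => h.2 fun x hx =>
          (h.1 x hx).resolve_left fun e => n (e ▸ hx)
        exact Ch.bot_eq this fun x hx => (h.1 x hx).elim (fun e => e.ge) fun k => k.2.1
  · intro c c₁ c₂ e1 e2 e
    rw [one_mul]
    refine if_congr (and_congr_right fun _ => ⟨fun h x hx => h x (e ▸ mem_union_right _ hx),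
      fun h x hx l => h x ((mem_union.1 (e ▸ hx)).resolve_left fun k => ?_) l⟩) rfl rfl
    exact (e1 ▸ Ch.le_top k : x ≤ a).not_gt l

theorem chi_psh (hM : Mf 3 (Ch.top ⁻¹' A : Set (Ch P))) (hz : Coc A z) (hm : Mono A z)
    (ht : TK A z) : chi (Ch.top ⁻¹' A) (psh A z) = chi A z := by
  rw [psh, chi_add, chi_top, chi_cb hM (g := pg A z) fun _ => pg_off, sum_pg hz hm ht, mul_zero, add_zero]

end Crest.Agent.X212.Cut21
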