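import Crest.Agent.X212.Cut21.Psh

/-!
# X212 / Cut21 (helper21): the push keeps `NC`; `TK` after thickening; `NfStmt`
-/

set_option autoImplicit false
set_option linter.unusedSectionVars false

open Finset Classical

noncomputable section

namespace Crest.Agent.X212.Cut21

open Crest.Agent.X212.Hp13 Crest.Agent.X212.Alg36
open Crest.Agent.X212.Ind26 (tri tri_val top_tri bot_tri)

variable {P : Type} [PartialOrder P] [Fintype P] {A : Set P} {z : P → P → ℤ}

theorem Tb.R' {P : Type} [PartialOrder P] {A : Set P} {z : P → P → ℤ} {x y w : P} {k : ℤ}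
    (h1 : x ≤ y) (h2 : y ≤ w) (h0 : 0 ≤ k) (h3 : k < z x y) : Tb A z x y k ↔ Tb A z x w k := by
  by_cases hx : x ∈ A
  · exact Tb.R (tri1 hx h1 h2) h0 h3
  by_cases hy : y ∈ A
  · exact Tb.R (tri2 hy h1 h2) h0 h3
  by_cases hw : w ∈ A
  · exact Tb.R (tri3 hw h1 h2) h0 h3
  exact ⟨fun _ => Tb.base hx hw, fun _ => Tb.base hx hy⟩

theorem Tb.L' {P : Type} [PartialOrder P] {A : Set P} {z : P → P → ℤ} {x y w : P} {k k' : ℤ}
    (h1 : x ≤ y) (h2 : y ≤ w) (h0 : 0 ≤ k) (h3 : k < z y w) (e : k' = k + z x y) :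
    Tb A z y w k ↔ Tb A z x w k' := by
  by_cases hx : x ∈ A
  · exact Tb.L (tri1 hx h1 h2) h0 h3 e
  by_cases hy : y ∈ A
  · exact Tb.L (tri2 hy h1 h2) h0 h3 e
  by_cases hw : w ∈ A
  · exact Tb.L (tri3 hw h1 h2) h0 h3 e
  exact ⟨fun _ => Tb.base hx hw, fun _ => Tb.base hy hw⟩

/-- `Tb` for the push, the level is read over `top c` -/
def TP (A : Set P) (z : P → P → ℤ) (c d : Ch P) (j : ℤ) : Prop :=
  Tb (Ch.top ⁻¹' A) (psh A z) c d (j - pg A z c)

theorem TP.R {c d e : Ch P} {j : ℤ} (h1 : c ≤ d) (h2 : d ≤ e) (h0 : pg A z c ≤ j)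
    (h3 : j < z c.top d.top + pg A z d) : TP A z c d j ↔ TP A z c e j :=
  Tb.R' h1 h2 (by omega) (by rw [psh_val]; omega)

theorem TP.L {c d e : Ch P} {j j' : ℤ} (h1 : c ≤ d) (h2 : d ≤ e) (h0 : pg A z d ≤ j)
    (h3 : j < z d.top e.top + pg A z e) (k : j' = j + z c.top d.top) :
    TP A z d e j ↔ TP A z c e j' :=
  Tb.L' h1 h2 (by omega) (by rw [psh_val]; omega) (by rw [psh_val]; omega)

/-- the pushed sheet over a frontier point -/
def HP (A : Set P) (z : P → P → ℤ) (a : P) (k : ℤ) : Prop :=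
  ∀ b, ∀ h : b ∈ Iv A z a k, TP A z (Ch.pt b) (Ch.pr a b h.2.1) (k - z a b)

section
variable (hz : Coc A z) (hm : Mono A z)
include hz hm

theorem pg_le_of {c : Ch P} {j : ℤ} (hj : 0 ≤ j)
    (h : ∀ a ∈ c.1, ¬ Hi A z a (j + z a c.top)) : pg A z c ≤ j :=
  not_lt.1 fun k => let ⟨_, a, h1, h2⟩ := (lt_pg hm hj).1 k; h a h1 h2

theorem pg_pt {x : P} {j : ℤ} (hj : 0 ≤ j) (h : ¬ Hi A z x j) : pg A z (Ch.pt x) ≤ j :=
  pg_le_of hz hm hj fun a ha k => by
    obtain rfl := mem_singleton.1 ha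
    rw [Ch.top_pt, self0 hz k.1.1, add_zero] at k
    exact h k

theorem lt_hi {c : Ch P} {a x : P} {j : ℤ} (ha : a ∈ c.1)
    (h : Hi A z a (j - z x c.top + z a c.top)) : j < z x c.top + pg A z c := by
  have h1 := pg_nn (A := A) (z := z) c
  by_contra k
  by_cases hc : c.top ∈ A
  · have := (lt_pg hm (c := c) (j := j - z x c.top) (by omega)).2 ⟨hc, a, ha, h⟩
    omega
  · have := h.2 _ hc (Ch.le_top ha)
    omega

theorem hp_iff (ht : TK A z) {a b : P} {k : ℤ} (h : Hi A z a k) (hk : 0 ≤ k)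
    (hb : b ∈ Iv A z a k) :
    HP A z a k ↔ TP A z (Ch.pt b) (Ch.pr a b hb.2.1) (k - z a b) := by
  refine ⟨fun r => r b hb, fun r b' hb' => ?_⟩
  refine ((ht.iv h.1 hk).conn b hb b' hb').ind
    (p := fun b => ∀ h : b ∈ Iv A z a k, TP A z (Ch.pt b) (Ch.pr a b h.2.1) (k - z a b))
    (fun _ => r) (fun x hx y hy l => ?_) hb'
  have e := (tri1 h.1.1 hx.2.1 l).add hz
  have e0 := self0 hz hx.1
  have e1 := self0 hz hy.1
  have l1 := hx.2.2.2
  have l2 := hy.2.2.2
  have z1 := hm _ _ (Dp.of_left hx.1 l)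
  have k1 : TP A z (Ch.pt x) (Ch.pr a x hx.2.1) (k - z a x) ↔
      TP A z (Ch.pt x) (tri a x y hx.2.1 l) (k - z a x) :=
    TP.R (by simp [Ch.pt_le]) (pr_le (by simp) (by simp))
      (pg_pt hz hm (by omega) fun h => hx.2.2.1 h.1)
      (lt_hi hz hm (a := a) (by simp) (h.anti (by simp; omega)))
  have q : k - z a y < z y y + pg A z (tri a x y hx.2.1 l) := by
    simpa using lt_hi hz hm (c := tri a x y hx.2.1 l) (a := a) (x := y) (j := k - z a y) (by simp)
      (h.anti (by simp; omega))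
  have p : pg A z (Ch.pr x y l) ≤ k - z a y := pg_le_of hz hm (by omega) fun t ht h =>
    (mem_pr.1 ht).elim (fun e => hx.2.2.1 (e ▸ h.1)) fun e => hy.2.2.1 (e ▸ h.1)
  have k2 : TP A z (Ch.pr x y l) (tri a x y hx.2.1 l) (k - z a y) ↔
      TP A z (Ch.pt x) (tri a x y hx.2.1 l) (k - z a x) :=
    TP.L (by simp [Ch.pt_le]) (pr_le (by simp) (by simp)) p (by simpa using q) (by simp; omega)
  have k3 : TP A z (Ch.pr x y l) (tri a x y hx.2.1 l) (k - z a y) ↔
      TP A z (Ch.pt y) (tri a x y hx.2.1 l) (k - z a y) :=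
    TP.L (by simp [Ch.pt_le]) (pr_le (by simp) (by simp)) p (by simpa using q) (by simp; omega)
  have k4 : TP A z (Ch.pt y) (Ch.pr a y hy.2.1) (k - z a y) ↔
      TP A z (Ch.pt y) (tri a x y hx.2.1 l) (k - z a y) :=
    TP.R (by simp [Ch.pt_le]) (pr_le (by simp) (by simp))
      (pg_pt hz hm (by omega) fun h => hy.2.2.1 h.1)
      (lt_hi hz hm (a := a) (by simp) (h.anti (by simp; omega)))
  exact ⟨fun r _ => k4.2 (k3.1 (k2.2 (k1.1 (r hx)))), fun r _ => k1.2 (k2.1 (k3.2 (k4.1 (r hy))))⟩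

/-- a point `b` over `a`, a bottom `x` -/
theorem tp_bot {x a b : P} {k : ℤ} (l : x ≤ a) (h : Hi A z a k) (hb : b ∈ Iv A z a k) :
    TP A z (Ch.pt b) (Ch.pr a b hb.2.1) (k - z a b) ↔
      TP A z (Ch.pt b) (tri x a b l hb.2.1) (k - z a b) := by
  have e0 := self0 hz hb.1
  have l1 := hb.2.2.2
  exact TP.R (by simp [Ch.pt_le]) (pr_le (by simp) (by simp))
    (pg_pt hz hm (by omega) fun h => hb.2.2.1 h.1)
    (lt_hi hz hm (a := a) (by simp) (h.anti (by simp; omega)))

theorem hp_hi (ht : TK A z) {x a : P} {k : ℤ} (l : x ≤ a) (h : Hi A z a k) (hk : 0 ≤ k)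
    (h' : Hi A z x (k + z x a)) : HP A z a k ↔ HP A z x (k + z x a) := by
  obtain ⟨b, hb⟩ := (ht.iv h.1 hk).ne
  have e := (tri1 h'.1.1 l hb.2.1).add hz
  have z1 := hm _ _ (Dp.of_left h'.1.1 l)
  have l1 := hb.2.2.2
  have e0 := self0 hz hb.1
  have hb' : b ∈ Iv A z x (k + z x a) := ⟨hb.1, l.trans hb.2.1, hb.2.2.1, by omega⟩
  rw [hp_iff hz hm ht h hk hb, hp_iff hz hm ht h' (by omega) hb', tp_bot hz hm l h hb,
    show k + z x a - z x b = k - z a b by omega]
  exact (TP.R (by simp [Ch.pt_le]) (pr_le (by simp) (by simp))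
    (pg_pt hz hm (by omega) fun h => hb.2.2.1 h.1)
    (lt_hi hz hm (a := x) (by simp) (h'.anti (by simp; omega)))).symm

theorem hp_lo (ht : TK A z) {x a : P} {k : ℤ} (l : x ≤ a) (h : Hi A z a k) (hk : 0 ≤ k)
    (h' : ¬ Hi A z x (k + z x a)) :
    HP A z a k ↔ TP A z (Ch.pt x) (Ch.pr x a l) (k + z x a) := by
  obtain ⟨b, hb⟩ := (ht.iv h.1 hk).ne
  have e := (tri2 h.1.1 l hb.2.1).add hz
  have z1 := hm _ _ (Dp.of_right h.1.1 l)
  have l1 := hb.2.2.2
  have e0 := self0 hz hb.1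
  have e1 := self0 hz h.1.1
  have lb := l.trans hb.2.1
  have q : k - z a b < z b b + pg A z (tri x a b l hb.2.1) := by
    simpa using lt_hi hz hm (c := tri x a b l hb.2.1) (a := a) (x := b) (j := k - z a b) (by simp)
      (h.anti (by simp; omega))
  have p : pg A z (Ch.pr x b lb) ≤ k - z a b := pg_le_of hz hm (by omega) fun t ht h =>
    (mem_pr.1 ht).elim (fun e => h' (e ▸ h.anti (by simp [e]; omega)))
      fun e => hb.2.2.1 (e ▸ h.1)
  rw [hp_iff hz hm ht h hk hb, tp_bot hz hm l h hb,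
    ← TP.L (d := Ch.pr x b lb) (j := k - z a b) (by simp [Ch.pt_le]) (pr_le (by simp) (by simp)) p
      (by simpa using q) (by simp; omega),
    TP.L (c := Ch.pt x) (j' := k + z x a) (by simp [Ch.pt_le]) (pr_le (by simp) (by simp)) p
      (by simpa using q) (by simp; omega)]
  exact (TP.R (by simp [Ch.pt_le]) (pr_le (by simp) (by simp)) (pg_pt hz hm (by omega) h')
    (lt_hi hz hm (a := a) (by simp) (h.anti (by simp; omega)))).symm

theorem nc_psh (hA : A.OrdConnected) (ht : TK A z) (hn : NC A z) :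
    NC (Ch.top ⁻¹' A) (psh A z) := by
  have nn := pg_nn (A := A) (z := z)
  have key : ∀ x y k, Dp A x y → 0 ≤ k → k < z x y → (Hi A z x k → HP A z x k) ∧
      (¬ Hi A z x k → ∀ l : x ≤ y, TP A z (Ch.pt x) (Ch.pr x y l) k) := by
    intro x y k hp h0 h1
    refine hn.ind hz hm (G := fun x y k => (Hi A z x k → HP A z x k) ∧
      (¬ Hi A z x k → ∀ l : x ≤ y, TP A z (Ch.pt x) (Ch.pr x y l) k)) ?_ ?_ ?_ hp h0 h1
    · exact fun x y k _ hx hy _ _ => ⟨fun h => absurd h.1.1 hx,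
        fun _ _ => Tb.base (by simpa using hx) (by simpa using hy)⟩
    · intro x y w k t h0 h1
      refine and_congr_right fun _ => forall_congr' fun h => ?_
      have e := t.add hz
      have := hm _ _ t.d23
      rw [forall_prop_of_true t.1, forall_prop_of_true (t.1.trans t.2.1),
        TP.R (e := tri x y w t.1 t.2.1) (by simp [Ch.pt_le]) (pr_le (by simp) (by simp))
          (pg_pt hz hm h0 h) (by have := nn (Ch.pr x y t.1); simp; omega)]
      exact (TP.R (by simp [Ch.pt_le]) (pr_le (by simp) (by simp)) (pg_pt hz hm h0 h)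
        (by have := nn (Ch.pr x w (t.1.trans t.2.1)); simp; omega)).symm
    · intro x y w k t h0 h1
      have e := t.add hz
      have z1 := hm _ _ t.d12
      have z2 := hm _ _ t.d23
      have yy : z y y = 0 := by
        have := (show Tri A y y w from ⟨le_rfl, t.2.1, let ⟨a, h, _, c2, c3⟩ := t.2.2
          ⟨a, h, c2, c2, c3⟩⟩).add hz
        omega
      have lw := t.1.trans t.2.1
      have R1 : ¬ Hi A z x (k + z x y) → (TP A z (Ch.pt x) (Ch.pr x w lw) (k + z x y) ↔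
          TP A z (Ch.pt x) (tri x y w t.1 t.2.1) (k + z x y)) := fun h =>
        TP.R (by simp [Ch.pt_le]) (pr_le (by simp) (by simp)) (pg_pt hz hm (by omega) h)
          (by have := nn (Ch.pr x w lw); simp; omega)
      have R2 : ¬ Hi A z y k → (TP A z (Ch.pt y) (Ch.pr y w t.2.1) k ↔
          TP A z (Ch.pt y) (tri x y w t.1 t.2.1) k) := fun h =>
        TP.R (by simp [Ch.pt_le]) (pr_le (by simp) (by simp)) (pg_pt hz hm h0 h)
          (by have := nn (Ch.pr y w t.2.1); simp; omega)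
      by_cases a1 : Hi A z y k <;> by_cases a2 : Hi A z x (k + z x y) <;>
        simp only [a1, a2, not_true, not_false_iff, true_imp_iff, false_imp_iff, and_true, true_and,
          forall_prop_of_true lw, forall_prop_of_true t.2.1]
      · exact hp_hi hz hm ht t.1 a1 h0 a2
      · rw [hp_lo hz hm ht t.1 a1 h0 a2, R1 a2]
        exact TP.R (by simp [Ch.pt_le]) (pr_le (by simp) (by simp)) (pg_pt hz hm (by omega) a2)
          (lt_hi hz hm (a := y) (by simp) (a1.anti (by simp; omega)))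
      · have hy : y ∈ A := by_contra fun n => by have := a2.2 y n t.1; omega
        have hb : y ∈ Iv A z x (k + z x y) :=
          ⟨hy, t.1, fun f => a1 (Hi.up hz a2 t.1 f), by omega⟩
        rw [hp_iff hz hm ht a2 (by omega) hb, R2 a1, add_sub_cancel_right]
        exact (TP.R (by simp [Ch.pt_le]) (pr_le (by simp) (by simp)) (pg_pt hz hm h0 a1)
          (lt_hi hz hm (a := x) (by simp) (a2.anti (by simp; omega)))).symm
      · have p : pg A z (Ch.pr x y t.1) ≤ k := pg_le_of hz hm h0 fun s hs h =>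
          (mem_pr.1 hs).elim (fun e => a2 (e ▸ h.anti (by simp [e])))
            fun e => a1 (e ▸ h.anti (by simp [e, yy]))
        have q : k < z y w + pg A z (tri x y w t.1 t.2.1) := by
          have := nn (tri x y w t.1 t.2.1); omega
        rw [R1 a2, R2 a1, ← TP.L (d := Ch.pr x y t.1) (j := k) (by simp [Ch.pt_le])
          (pr_le (by simp) (by simp)) p (by simpa using q) (by simp; omega)]
        exact TP.L (by simp [Ch.pt_le]) (pr_le (by simp) (by simp)) p (by simpa using q) (by simp)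
  intro c d k hp h0 h1
  have dp : Dp A c.top d.top := hp.map Ch.top_mono
  have xx : z c.top c.top = 0 := let ⟨_, a, h, c1, _⟩ := dp; hz.self h c1
  rw [psh_val] at h1
  have n1 := nn c
  have n2 := nn d
  suffices TP A z c d (k + pg A z c) by simpa [TP] using this
  have px : Ch.pt c.top ≤ c := Ch.pt_le.2 c.top_mem
  rw [TP.L (j' := k + pg A z c) px hp.1 (by omega) (by omega) (by simp; omega)]
  have nh : ¬ Hi A z c.top (k + pg A z c) := fun h => by
    have := (lt_pg hm (c := c) (j := k + pg A z c) (by omega)).2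
      ⟨h.1.1, _, c.top_mem, h.anti (by omega)⟩
    omega
  generalize hj : k + pg A z c = j at nh
  have xm : c.top ∈ d.1 := hp.1 c.top_mem
  generalize c.top = x at *
  have pp := pg_pt hz hm (by omega) nh
  by_cases l : j < z x d.top
  · refine (TP.R (by simp [Ch.pt_le]) (pr_le xm d.top_mem) pp ?_).1
      ((key x d.top j dp (by omega) l).2 nh dp.1)
    have := nn (Ch.pr x d.top dp.1); simp; omega
  obtain ⟨hd, a, ha, hi⟩ := (lt_pg hm (c := d) (j := j - z x d.top) (by omega)).1 (by omega)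
  have z1 := hm _ _ (Dp.of_right hd (Ch.le_top ha))
  have H : HP A z a (j - z x d.top + z a d.top) :=
    let ⟨o, k1, k2⟩ := hi.1.2
    (key a o _ (Dp.of_left hi.1.1 k2) (by omega) (hi.2 o k1 k2)).1 hi
  have aa := self0 hz hi.1.1
  rcases d.total xm ha with m | m
  · have e := (tri3 hd m (Ch.le_top ha)).add hz
    have e' : j - z x d.top + z a d.top + z x a = j := by omega
    rw [hp_lo hz hm ht m hi (by omega) (by rwa [e']), e'] at H
    exact (TP.R (by simp [Ch.pt_le]) (pr_le xm ha) pp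
      (lt_hi hz hm (a := a) (by simp) (hi.anti (by simp; omega)))).1 H
  · have e := (tri3 hd m dp.1).add hz
    have hx : x ∈ A := hA.out hi.1.1 hd ⟨m, dp.1⟩
    have hb : x ∈ Iv A z a (j - z x d.top + z a d.top) :=
      ⟨hx, m, fun f => nh (Hi.up hz (hi.anti (by omega)) m f), by omega⟩
    have := H x hb
    rw [show j - z x d.top + z a d.top - z a x = j by omega] at this
    exact (TP.R (by simp [Ch.pt_le]) (pr_le ha xm) pp
      (lt_hi hz hm (a := a) (by simp) (hi.anti (by simp; omega)))).1 this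

end

theorem inn_up {b y : P} (hb : b ∈ A ∧ b ∉ Fr A) (h : b ≤ y) : y ∈ A ∧ y ∉ Fr A :=
  ⟨by_contra fun n => hb.2 ⟨hb.1, y, n, h⟩, fun f => hb.2 (fr_dn f hb.1 h)⟩

theorem tk_thk (hz : Coc A z) (hm : Mono A z) (ht : Thick A) : TK (A2 A) (thk A z) := by
  intro X hX n hn
  rw [fr_sd, fr_sd] at hX ⊢
  have hX : X.top.top ∈ Fr A := hX
  let u : P → ℤ := fun x => pot z X.top.top x + 0
  have ch : ∀ e, X.top ≤ e → Chart z e u := fun e h =>
    chart_pot hz hX.1 (fun x hx => e.cm (h X.top.top_mem) hx) 0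
  let S : Set (Ch P) := {d | d.top ∈ {b | b ∈ A ∧ b ∉ Fr A}}
  let Z : Set (Ch P) := {d | mu (dT A z) u d ≤ vv (dT A z) z u X + n - 1}
  have nS : ∀ d, d ≤ X.top → d ∉ S := fun d h k => (inn_up k (Ch.top_mono h)).2 hX
  have k := (meet X Z S fun x hx => ⟨by
    have := (ch _ le_rfl).le_vv (δ := dT A z) le_rfl hx
    simp only [Z, Set.mem_ofPred_eq]; omega, nS x (Ch.le_top hx)⟩).2 (by
    convert (ws_up X.top {b | b ∈ A ∧ b ∉ Fr A}).ctr_iff.2 (by
      convert ht.inn _ hX using 2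
      ext b; simp only [Set.mem_ofPred_eq]; tauto) using 2
    ext d
    refine ⟨fun h => ⟨(h.2.2 _ X.top_mem).resolve_left fun l => nS d l h.1, h.1⟩,
      fun h => ⟨h.2, ?_, fun x hx => Or.inr ((Ch.le_top hx).trans h.1)⟩⟩
    have e1 := mu_dT (ch d h.1) le_rfl h.2.1
    have e2 := mu_dT (ch d h.1) h.1 hX.1
    have e3 := (ch _ le_rfl).le_vv (δ := dT A z) le_rfl X.top_mem
    have e4 := (ch d h.1).le hm (Mt.dom ⟨_, d.top_mem, h.2.1⟩) d.bot_mem (h.1 X.top.bot_mem)
      (Ch.bot_anti h.1)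
    simp only [Z, Set.mem_ofPred_eq]; omega)
  convert k using 2
  ext C
  have v : X ≤ C → (thk A z X C < n ↔ ∀ d ∈ C.1, d ∈ Z) := fun h => by
    have c := ch _ (Ch.top_mono h)
    rw [thk, c.rf le_rfl h]
    exact Iff.trans (by omega) (c.vv_le (t := vv (dT A z) z u X + n - 1) le_rfl)
  exact ⟨fun h => ⟨h.2.1, (v h.2.1).1 h.2.2.2, _, C.top_mem, h.1, h.2.2.1⟩,
    fun ⟨h1, h2, d, h3, h4⟩ => have := inn_up h4 (Ch.top_mono (Ch.le_top h3))
      ⟨this.1, h1, this.2, (v h1).2 h2⟩⟩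

theorem desc2 (s : St) : Desc s s.sd.sd (Ch.top ∘ Ch.top) := (Desc.sd s).step

theorem nfStmt : Sup43.NfStmt := fun s z hs ht hz => by
  have r := inR_dT hz.mono
  have h2 : Sf s.sd.sd.A (thk s.A z) := r.sf hs.conv hz
  have d2 := desc2 s
  have tk : TK s.sd.sd.A (thk s.A z) := tk_thk hz.coc hz.mono ht
  refine ⟨s.sd.sd.sd, _, psh s.sd.sd.A (thk s.A z), d2.step, sf_iff.2 ⟨mono_psh h2.coc h2.mono,
    coc_psh h2.coc, nc_psh h2.coc h2.mono (d2.conv hs.conv) tk h2.nc⟩,
    ((Desc.sd s.sd.sd).eqv (r.eqv hz.coc hz.mono)).trans eqv_psh,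
    (chi_psh (Mf.desc hs.mf d2.step) h2.coc h2.mono tk).trans
      (r.chi (Mf.desc hs.mf d2) hz.coc hz.mono), vert_psh h2.coc h2.mono⟩

end Crest.Agent.X212.Cut21
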