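import Crest.Agent.X212.Cut21.Tb
import Crest.Agent.X212.Alg36.Sd3

/-!
# X212 / Cut21 (helper21): refinement in the range of the carrier, values and Euler characteristic
-/

set_option autoImplicit false
set_option linter.unusedSectionVars false

open Finset Classical

noncomputable section

namespace Crest.Agent.X212.Cut21

open Crest.Agent.X212.Hp13 Crest.Agent.X212.Alg36
open Crest.Agent.X212.Kh11 (WS sctr_min sctr_max sctr_cone Ch.dn)

variable {P : Type} [PartialOrder P] [Fintype P] {A : Set P} {z : P → P → ℤ} {δ : Ch P → ℤ}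

/-- put a new top on a chain -/
def tp (c : Ch P) (x : P) (h : c.top ≤ x) : Ch P :=
  c.ins x fun _ hy => Or.inr ((Ch.le_top hy).trans h)
/-- put a new bottom under a chain -/
def bt (c : Ch P) (x : P) (h : x ≤ c.bot) : Ch P :=
  c.ins x fun _ hy => Or.inl (h.trans (Ch.bot_le hy))

@[simp] theorem top_tp (c : Ch P) (x : P) (h : c.top ≤ x) : (tp c x h).top = x := top_ins' _ h
theorem le_tp (c : Ch P) (x : P) (h : c.top ≤ x) : c ≤ tp c x h := c.le_ins _ _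
@[simp] theorem mem_tp {c : Ch P} {x y : P} {h : c.top ≤ x} : y ∈ (tp c x h).1 ↔ y = x ∨ y ∈ c.1 :=
  mem_insert
theorem tp_mono {c d : Ch P} {x : P} {h : c.top ≤ x} {h' : d.top ≤ x} (k : c ≤ d) :
    tp c x h ≤ tp d x h' := insert_subset_insert _ k
theorem tp_le {c d : Ch P} {x : P} {h : c.top ≤ x} (k : c ≤ d) (hx : x ∈ d.1) : tp c x h ≤ d :=
  insert_subset hx k
theorem pt_le_tp (c : Ch P) (x : P) (h : c.top ≤ x) : Ch.pt x ≤ tp c x h := Ch.pt_le.2 (by simp)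
@[simp] theorem top_bt (c : Ch P) (x : P) (h : x ≤ c.bot) : (bt c x h).top = c.top :=
  top_ins _ (h.trans c.bot_le_top)
theorem le_bt (c : Ch P) (x : P) (h : x ≤ c.bot) : c ≤ bt c x h := c.le_ins _ _
@[simp] theorem mem_bt {c : Ch P} {x y : P} {h : x ≤ c.bot} : y ∈ (bt c x h).1 ↔ y = x ∨ y ∈ c.1 :=
  mem_insert
@[simp] theorem bot_bt (c : Ch P) (x : P) (h : x ≤ c.bot) : (bt c x h).bot = x :=
  Ch.bot_eq (by simp) fun _ hy => (mem_bt.1 hy).elim (fun e => e.ge) fun hy => h.trans (Ch.bot_le hy)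
@[simp] theorem bot_tp (c : Ch P) (x : P) (h : c.top ≤ x) : (tp c x h).bot = c.bot :=
  Ch.bot_eq (le_tp c x h c.bot_mem) fun _ hy =>
    (mem_tp.1 hy).elim (fun e => e ▸ c.bot_le_top.trans h) fun hy => Ch.bot_le hy
@[simp] theorem mem_pr {x y w : P} {h : x ≤ y} : w ∈ (Ch.pr x y h).1 ↔ w = x ∨ w = y := by simp
theorem pr_le {x y : P} {h : x ≤ y} {c : Ch P} (hx : x ∈ c.1) (hy : y ∈ c.1) : Ch.pr x y h ≤ c :=
  fun _ hw => (mem_pr.1 hw).elim (fun e => e ▸ hx) fun e => e ▸ hy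
theorem le_top' {C : Ch (Ch P)} {d e : Ch P} (hd : d ∈ C.1) (h : C.top ≤ e) : d ≤ e :=
  (Ch.le_top hd).trans h

/-- `u` is a potential of `z` on the chain `e` -/
def Chart (z : P → P → ℤ) (e : Ch P) (u : P → ℤ) : Prop :=
  ∀ x ∈ e.1, ∀ y ∈ e.1, x ≤ y → z x y = u y - u x

theorem Chart.mono {e e' : Ch P} {u : P → ℤ} (h : Chart z e u) (k : e' ≤ e) : Chart z e' u :=
  fun x hx y hy => h x (k hx) y (k hy)

theorem chart_pot (hz : Coc A z) {e : Ch P} {a : P} (ha : a ∈ A) (h : ∀ x ∈ e.1, Cm a x) (n : ℤ) :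
    Chart z e fun x => pot z a x + n := fun x hx y hy hxy => by
  rw [pot_sub hz ha (h x hx) (h y hy) hxy]; ring

theorem exists_chart (hz : Coc A z) {e : Ch P} (he : Dom A e) : ∃ u, Chart z e u :=
  let ⟨_, ha, h⟩ := he; ⟨_, chart_pot hz ha h 0⟩

theorem Chart.le (hm : Mono A z) {e : Ch P} (he : Dom A e) {u : P → ℤ} (h : Chart z e u) {x y : P}
    (hx : x ∈ e.1) (hy : y ∈ e.1) (hxy : x ≤ y) : u x ≤ u y := by
  have := hm _ _ (he.dp hx hy hxy); rw [h x hx y hy hxy] at this; omega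

/-- the value at a vertex -/
def mu (δ : Ch P → ℤ) (u : P → ℤ) (d : Ch P) : ℤ := u d.top - δ d
/-- the refined value -/
def vv (δ : Ch P → ℤ) (z : P → P → ℤ) (u : P → ℤ) (C : Ch (Ch P)) : ℤ := u C.top.top - dep δ z C

theorem dep_le {C : Ch (Ch P)} {d : Ch P} (hd : d ∈ C.1) : dep δ z C ≤ δ d + z d.top C.top.top :=
  inf'_le _ hd
theorem dep_ex (δ : Ch P → ℤ) (z : P → P → ℤ) (C : Ch (Ch P)) :
    ∃ d ∈ C.1, dep δ z C = δ d + z d.top C.top.top := exists_mem_eq_inf' _ _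

section chart

variable {e : Ch P} {u : P → ℤ} {C D : Ch (Ch P)} {d : Ch P} {t : ℤ}

theorem Chart.tt (h : Chart z e u) (hC : C.top ≤ e) (hd : d ∈ C.1) :
    z d.top C.top.top = u C.top.top - u d.top :=
  h _ (le_top' hd hC d.top_mem) _ (hC C.top.top_mem) (Ch.top_mono (Ch.le_top hd))

theorem Chart.le_vv (h : Chart z e u) (hC : C.top ≤ e) (hd : d ∈ C.1) : mu δ u d ≤ vv δ z u C := by
  have := dep_le (δ := δ) (z := z) hd
  rw [h.tt hC hd] at this
  unfold mu vv; omega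

theorem Chart.ex_vv (h : Chart z e u) (δ : Ch P → ℤ) (hC : C.top ≤ e) :
    ∃ d ∈ C.1, vv δ z u C = mu δ u d := by
  obtain ⟨d, hd, k⟩ := dep_ex δ z C
  refine ⟨d, hd, ?_⟩
  rw [h.tt hC hd] at k
  unfold mu vv; omega

theorem Chart.vv_le (h : Chart z e u) (hC : C.top ≤ e) :
    vv δ z u C ≤ t ↔ ∀ d ∈ C.1, mu δ u d ≤ t :=
  ⟨fun k _ hd => (h.le_vv hC hd).trans k, fun k => let ⟨d, hd, e⟩ := h.ex_vv δ hC; e ▸ k d hd⟩

theorem Chart.vv_mono (h : Chart z e u) (hD : D.top ≤ e) (k : C ≤ D) : vv δ z u C ≤ vv δ z u D :=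
  (h.vv_le ((Ch.top_mono k).trans hD)).2 fun _ hd => h.le_vv hD (k hd)

theorem Chart.vv_pt (h : Chart z e u) (hd : d ≤ e) : vv δ z u (Ch.pt d) = mu δ u d := by
  obtain ⟨d', h1, h2⟩ := h.ex_vv δ (C := Ch.pt d) (by simpa using hd)
  rw [h2, mem_singleton.1 h1]

theorem Chart.rf (h : Chart z e u) (hD : D.top ≤ e) (k : C ≤ D) :
    rf δ z C D = vv δ z u D - vv δ z u C := by
  have := h _ (hD (Ch.top_mono k C.top.top_mem)) _ (hD D.top.top_mem) (Ch.top_mono (Ch.top_mono k))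
  simp only [Cut21.rf, pb, cb, vv, Pi.sub_apply, Function.comp, this]; ring

theorem InR.mu_le (h : InR A z δ) (he : Dom A e) (hd : d ≤ e) : mu δ u d ≤ u d.top := by
  have := h.nn d (he.mono hd); unfold mu; omega

theorem InR.le_mu (h : InR A z δ) (he : Dom A e) (hu : Chart z e u) (hd : d ≤ e) :
    u d.bot ≤ mu δ u d := by
  have := h.le d (he.mono hd)
  rw [hu _ (hd d.bot_mem) _ (hd d.top_mem) d.bot_le_top] at this
  unfold mu; omega

theorem InR.mu_off (h : InR A z δ) (hd : d.top ∉ A) : mu δ u d = u d.top := by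
  rw [mu, h.off d hd, sub_zero]

theorem InR.mu_pt (h : InR A z δ) (he : Dom A e) (hu : Chart z e u) {x : P} (hx : x ∈ e.1) :
    mu δ u (Ch.pt x) = u x := by
  have h1 := h.mu_le (u := u) he (Ch.pt_le.2 hx)
  have h2 := h.le_mu he hu (Ch.pt_le.2 hx)
  simp only [Ch.top_pt, Ch.bot_pt] at h1 h2; omega

theorem InR.vv_le (h : InR A z δ) (hm : Mono A z) (he : Dom A e) (hu : Chart z e u)
    (hC : C.top ≤ e) : vv δ z u C ≤ u C.top.top :=
  (hu.vv_le hC).2 fun d hd => (h.mu_le he (le_top' hd hC)).trans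
    (hu.le hm he (le_top' hd hC d.top_mem) (hC C.top.top_mem) (Ch.top_mono (Ch.le_top hd)))

theorem InR.vv_off (h : InR A z δ) (hm : Mono A z) (he : Dom A e) (hu : Chart z e u)
    (hC : C.top ≤ e) (k : C.top.top ∉ A) : vv δ z u C = u C.top.top :=
  le_antisymm (h.vv_le hm he hu hC) (h.mu_off (u := u) k ▸ hu.le_vv hC C.top_mem)

end chart

/-- the second subdivision of the region -/
abbrev A2 (A : Set P) : Set (Ch (Ch P)) := Ch.top ⁻¹' (Ch.top ⁻¹' A)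

theorem dp_dom2 {C D : Ch (Ch P)} (h : Dp (A2 A) C D) : Dom A D.top := by
  obtain ⟨-, E, hE, -, h2⟩ := h
  exact ⟨E.top.top, hE, fun x hx => h2.elim (fun h => D.top.cm (Ch.top_mono h E.top.top_mem) hx)
    fun h => E.top.cm E.top.top_mem (Ch.top_mono h hx)⟩

theorem mono_rf (hz : Coc A z) (δ : Ch P → ℤ) : Mono (A2 A) (rf δ z) := fun C D hp => by
  obtain ⟨u, hu⟩ := exists_chart hz (dp_dom2 hp)
  have := hu.vv_mono (δ := δ) le_rfl hp.1
  rw [hu.rf le_rfl hp.1]; omega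

theorem InR.dep_nn (h : InR A z δ) (hz : Coc A z) (hm : Mono A z) {C : Ch (Ch P)}
    (hC : Dom A C.top) : 0 ≤ dep δ z C := by
  obtain ⟨u, hu⟩ := exists_chart hz hC
  have := h.vv_le hm hC hu le_rfl
  unfold vv at this; omega

/-- the correction, supported on the region -/
def gd (A : Set P) (δ : Ch P → ℤ) (z : P → P → ℤ) (C : Ch (Ch P)) : ℤ :=
  if C.top.top ∈ A then -dep δ z C else 0

theorem InR.eqD (h : InR A z δ) (hz : Coc A z) (hm : Mono A z) :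
    EqD (A2 A) (rf δ z) (pb (Ch.top ∘ Ch.top) z + cb (gd A δ z)) := by
  have k : ∀ C : Ch (Ch P), Dom A C.top → gd A δ z C = -dep δ z C := fun C hC => by
    unfold gd
    split_ifs with h1
    · rfl
    obtain ⟨u, hu⟩ := exists_chart hz hC
    have := h.vv_off hm hC hu le_rfl h1
    unfold vv at this; omega
  intro C D hp
  have := dp_dom2 hp
  simp only [rf, cb, Pi.sub_apply, Pi.add_apply, k D this, k C (this.mono (Ch.top_mono hp.1))]
  ring

theorem InR.eqv (h : InR A z δ) (hz : Coc A z) (hm : Mono A z) :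
    Eqv (A2 A) (pb (Ch.top ∘ Ch.top) z) (rf δ z) :=
  ⟨gd A δ z, fun _ hC => if_neg hC, h.eqD hz hm⟩

theorem coc_rf (hz : Coc A z) (δ : Ch P → ℤ) : Coc (A2 A) (rf δ z) :=
  (hz.pb (Ch.top_mono.comp Ch.top_mono)).sub (coc_cb _)

/-! ### the low faces of a simplex -/

theorem bot_ers {c : Ch P} {t : P} (h : c.bot ≠ t) (k : ∃ y ∈ c.1, y ≠ t) : (ers c t k).bot = c.bot :=
  Ch.bot_eq (mem_erase.2 ⟨h, c.bot_mem⟩) fun _ hx => Ch.bot_le (mem_of_mem_erase hx)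

theorem ws_drop {X : Set (Ch P)} {t : P}
    (h : ∀ y ∈ X, t ∈ y.1 → Ctr {d | (d ∈ X ∧ t ∉ d.1) ∧ d ≤ y}) :
    WS {d | d ∈ X ∧ t ∉ d.1} X id :=
  WS.of_le (fun _ h => h.1) (fun _ _ _ _ h => h) fun y hy => by
    by_cases ht : t ∈ y.1
    · exact h y hy ht
    · exact sctr_max (m := y) ⟨⟨hy, ht⟩, le_rfl⟩ fun _ h => h.2

theorem ctr_low {lo : P → Prop} {Lo : Ch P → Prop} (σ : Ch P) (h1 : ∀ d ≤ σ, Lo d → lo d.bot)
    (h2 : ∀ d ≤ σ, lo d.top → Lo d) (h0 : lo σ.bot) : Ctr {d | d ≤ σ ∧ Lo d} := by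
  induction hn : σ.1.card using Nat.strong_induction_on generalizing σ with
  | _ n ih =>
  by_cases hσ : Lo σ
  · exact sctr_max (m := σ) ⟨le_rfl, hσ⟩ fun _ h => h.1
  have ht : ¬ lo σ.top := fun h => hσ (h2 σ le_rfl h)
  have key : ∀ y ≤ σ, σ.top ∈ y.1 → lo y.bot → Ctr {d | (d ≤ y ∧ Lo d) ∧ σ.top ∉ d.1} := by
    intro y hy hty hb
    have hne : y.bot ≠ σ.top := fun e => ht (e ▸ hb)
    have k : ∃ x ∈ y.1, x ≠ σ.top := ⟨_, y.bot_mem, hne⟩
    have l : ers y σ.top k ≤ y := erase_subset _ _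
    have := ih _ (by
      rw [← hn, ers_val, card_erase_of_mem hty]
      have := card_le_card (show y.1 ⊆ σ.1 from hy); have := y.card_pos; omega)
      (ers y σ.top k) (fun d hd => h1 d ((hd.trans l).trans hy))
      (fun d hd => h2 d ((hd.trans l).trans hy)) (by rwa [bot_ers hne]) rfl
    convert this using 2
    ext d
    exact ⟨fun h => ⟨le_ers h.1.1 h.2, h.1.2⟩,
      fun h => ⟨⟨h.1.trans l, h.2⟩, fun h' => (mem_erase.1 (h.1 h')).1 rfl⟩⟩
  refine (ws_drop (X := {d | d ≤ σ ∧ Lo d}) (t := σ.top) fun y hy hty => ?_).ctr_iff.1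
    (key σ le_rfl σ.top_mem h0)
  convert key y hy.1 hty (h1 y hy.1 hy.2) using 2
  ext d
  exact ⟨fun h => ⟨⟨h.2, h.1.1.2⟩, h.1.2⟩, fun h => ⟨⟨⟨h.1.1.trans hy.1, h.1.2⟩, h.2⟩, h.1.1⟩⟩

theorem eu_split {X Y : Set P} (hY : Y ⊆ X) {p : Ch P → Prop} [DecidablePred p]
    (h : ∀ C, p C ↔ (∀ d ∈ C.1, d ∈ X) ∧ ¬ ∀ d ∈ C.1, d ∈ Y) :
    ∑ C ∈ univ.filter p, C.sg = eu Y - eu X := by
  simp only [eu, sum_filter]
  rw [neg_sub_neg, ← sum_sub_distrib]
  refine sum_congr rfl fun C _ => ?_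
  by_cases h1 : ∀ d ∈ C.1, d ∈ Y
  · rw [if_neg fun k => ((h C).1 k).2 h1, if_pos h1, if_pos fun d hd => hY (h1 d hd), sub_self]
  by_cases h2 : ∀ d ∈ C.1, d ∈ X
  · rw [if_pos ((h C).2 ⟨h2, h1⟩), if_pos h2, if_neg h1, sub_zero]
  · rw [if_neg fun k => h2 ((h C).1 k).1, if_neg h2, if_neg h1, sub_zero]

theorem sum_low {lo : P → Prop} {Lo : Ch P → Prop} {a : P} (ha : ¬ lo a)
    (h1 : ∀ d : Ch P, d.top ≤ a → Lo d → lo d.bot) (h2 : ∀ d : Ch P, d.top ≤ a → lo d.top → Lo d) :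
    ∑ C ∈ univ.filter (fun C : Ch (Ch P) => C.top.top = a ∧ ∀ d ∈ C.1, Lo d), C.sg = 0 := by
  have w := ws_drop (X := {d : Ch P | d.top ≤ a ∧ Lo d}) (t := a) fun y hy hty => by
    have hne : y.bot ≠ a := fun e => ha (e ▸ h1 y hy.1 hy.2)
    have k : ∃ x ∈ y.1, x ≠ a := ⟨_, y.bot_mem, hne⟩
    have l : ers y a k ≤ y := erase_subset _ _
    have l2 : ∀ d ≤ ers y a k, d.top ≤ a := fun d hd => (Ch.top_mono (hd.trans l)).trans hy.1
    convert ctr_low (lo := lo) (Lo := Lo) (ers y a k) (fun d hd => h1 d (l2 d hd))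
      (fun d hd => h2 d (l2 d hd)) (by rw [bot_ers hne]; exact h1 y hy.1 hy.2) using 2
    ext d
    exact ⟨fun h => ⟨le_ers h.2 h.1.2, h.1.1.2⟩,
      fun h => ⟨⟨⟨l2 d h.1, h.2⟩, fun h' => (mem_erase.1 (h.1 h')).1 rfl⟩, h.1.trans l⟩⟩
  rw [eu_split (X := {d : Ch P | d.top ≤ a ∧ Lo d})
    (Y := {d | d ∈ {d : Ch P | d.top ≤ a ∧ Lo d} ∧ a ∉ d.1}) (fun _ h => h.1), w.eu_eq, sub_self]
  intro C
  refine ⟨fun h => ⟨fun d hd => ⟨h.1 ▸ Ch.top_mono (Ch.le_top hd), h.2 d hd⟩,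
    fun k => (k _ C.top_mem).2 (h.1 ▸ C.top.top_mem)⟩, fun h => ⟨?_, fun d hd => (h.1 d hd).2⟩⟩
  by_contra k
  exact h.2 fun d hd => ⟨h.1 d hd, fun h' => k (le_antisymm (h.1 _ C.top_mem).1
    (Ch.le_top (Ch.le_top hd h')))⟩

theorem sum_range_lt {n : ℤ} {N : ℕ} (h0 : 0 ≤ n) (h1 : n ≤ N) :
    ∑ i ∈ range N, (if (i : ℤ) < n then (1 : ℤ) else 0) = n := by
  induction N with
  | zero => simp; omega
  | succ N ih =>
    rw [sum_range_succ]
    by_cases h : n ≤ N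
    · rw [ih h, if_neg (by omega), add_zero]
    · rw [if_pos (by omega), sum_congr rfl fun i hi => if_pos (by have := mem_range.1 hi; omega)]
      simp; omega

theorem InR.sum_gd (h : InR A z δ) (hz : Coc A z) (hm : Mono A z) :
    ∑ C, eps C * gd A δ z C = 0 := by
  obtain ⟨N, hN⟩ : ∃ N : ℕ, ∀ C, dep δ z C ≤ N :=
    let ⟨N, hN⟩ := (Set.finite_range (dep δ z)).bddAbove
    ⟨N.toNat, fun C => (hN ⟨C, rfl⟩).trans (Int.self_le_toNat N)⟩
  let F : ℕ → P → Ch (Ch P) → ℤ := fun i a C =>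
    if C.top.top = a ∧ ∀ d ∈ C.1, (i : ℤ) < δ d + z d.top a then C.sg else 0
  have k : ∀ C : Ch (Ch P), eps C * gd A δ z C =
      ∑ i ∈ range N, ∑ a ∈ univ.filter (· ∈ A), F i a C := by
    intro C
    by_cases h1 : C.top.top ∈ A
    · rw [gd, if_pos h1, eps_ch, neg_mul_neg,
        ← sum_range_lt (h.dep_nn hz hm (Mt.dom ⟨_, C.top.top_mem, h1⟩)) (hN C), mul_sum]
      refine sum_congr rfl fun i _ => ?_
      rw [sum_eq_single C.top.top (fun a _ ha => if_neg fun h => ha h.1.symm)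
        (fun h => absurd (mem_filter.2 ⟨mem_univ _, h1⟩) h)]
      by_cases h2 : (i : ℤ) < dep δ z C
      · rw [if_pos h2, mul_one]
        exact (if_pos ⟨rfl, fun d hd => h2.trans_le (dep_le hd)⟩).symm
      · rw [if_neg h2, mul_zero]
        obtain ⟨d, hd, e⟩ := dep_ex δ z C
        exact (if_neg fun h3 => h2 (e ▸ h3.2 d hd)).symm
    · rw [gd, if_neg h1, mul_zero]
      refine (sum_eq_zero fun i _ => sum_eq_zero fun a ha => if_neg fun h => h1 ?_).symm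
      rw [h.1]; exact (mem_filter.1 ha).2
  rw [sum_congr rfl fun C _ => k C, sum_comm]
  refine sum_eq_zero fun i _ => ?_
  rw [sum_comm]
  refine sum_eq_zero fun a ha => ?_
  have ha : a ∈ A := (mem_filter.1 ha).2
  have dm : ∀ d : Ch P, d.top ≤ a → Dom A d := fun d hd =>
    ⟨a, ha, fun x hx => Or.inr ((Ch.le_top hx).trans hd)⟩
  have := sum_low (a := a) (lo := fun x => (i : ℤ) < z x a)
    (Lo := fun d => (i : ℤ) < δ d + z d.top a) (by rw [self0 hz ha]; omega) (fun d hd k => by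
      have := h.le d (dm d hd)
      rw [(tri3 ha d.bot_le_top hd).add hz]; omega) fun d hd k => by
      have := h.nn d (dm d hd); omega
  rw [sum_filter] at this
  convert this using 2
  simp only [F]
  congr

theorem InR.chi (h : InR A z δ) (hM : Mf 3 (A2 A)) (hz : Coc A z) (hm : Mono A z) :
    chi (A2 A) (rf δ z) = chi A z := by
  rw [chi_congr (h.eqD hz hm), chi_add, chi_cb hM (g := gd A δ z) fun _ hC => if_neg hC,
    h.sum_gd hz hm, mul_zero, add_zero]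
  exact (chi_top (A := Ch.top ⁻¹' A) (pb Ch.top z)).trans (chi_top z)

end Crest.Agent.X212.Cut21
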