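import Crest.Agent.X212.Cut21.Ref1
import Crest.Agent.X212.Ind26.Main

/-!
# X212 / Cut21 (helper21): refinement in the range keeps `NC` and `CondP`; `refStmt`
-/

set_option autoImplicit false
set_option linter.unusedSectionVars false

open Finset Classical

noncomputable section

namespace Crest.Agent.X212.Cut21

open Crest.Agent.X212.Hp13 Crest.Agent.X212.Alg36
open Crest.Agent.X212.Kh11 (Ch.dn)
open Crest.Agent.X212.Ind26 (tri tri_val top_tri bot_tri)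

variable {P : Type} [PartialOrder P] [Fintype P] {A : Set P} {z : P → P → ℤ} {δ : Ch P → ℤ}

/-- standing data: a carrier with a chart -/
structure Cx (A : Set P) (z : P → P → ℤ) (δ : Ch P → ℤ) (e : Ch P) (u : P → ℤ) : Prop where
  conv : A.OrdConnected
  mono : Mono A z
  inr : InR A z δ
  dom : Dom A e
  ch : Chart z e u

/-- the part of a chain meeting `A` that lies under its last point of `A` -/
theorem exists_c0 {e : Ch P} (he : Mt A e) :
    ∃ c : Ch P, c ≤ e ∧ c.top ∈ A ∧ (∀ x ∈ e.1, x ≤ c.top → x ∈ c.1) ∧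
      ∀ x ∈ e.1, x ∈ A → x ≤ c.top := by
  obtain ⟨a, ha, ha'⟩ := he
  let f := e.sub (e.1.filter (· ∈ A)) ⟨a, mem_filter.2 ⟨ha, ha'⟩⟩ (filter_subset _ _)
  obtain ⟨h1, h2⟩ := mem_filter.1 f.top_mem
  refine ⟨Ch.dn e f.top (Ch.bot_le h1), dn_le, by rwa [top_dn h1], fun x hx h => ?_, fun x hx h => ?_⟩
  · rw [top_dn h1] at h; exact mem_dn.2 ⟨hx, h⟩
  · rw [top_dn h1]; exact Ch.le_top (c := f) (mem_filter.2 ⟨hx, h⟩)

namespace Cx

variable {e : Ch P} {u : P → ℤ} (h : Cx A z δ e u) {t : ℤ} {C D E : Ch (Ch P)}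
include h

theorem sub {e' : Ch P} (k : e' ≤ e) : Cx A z δ e' u :=
  ⟨h.conv, h.mono, h.inr, h.dom.mono k, h.ch.mono k⟩

/-- the sheet of level `t` through the edge reaches the boundary -/
def TT (A : Set P) (z : P → P → ℤ) (δ : Ch P → ℤ) (u : P → ℤ) (t : ℤ) (C D : Ch (Ch P)) : Prop :=
  Tb (A2 A) (rf δ z) C D (t - vv δ z u C)

theorem mR (k : Tri (A2 A) C D E) (hD : D.top ≤ e) (h1 : vv δ z u C ≤ t) (h2 : t < vv δ z u D) :
    TT A z δ u t C D ↔ TT A z δ u t C E :=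
  Tb.R k (by omega) (by rw [h.ch.rf hD k.1]; omega)

theorem mL (k : Tri (A2 A) C D E) (hE : E.top ≤ e) (h1 : vv δ z u D ≤ t) (h2 : t < vv δ z u E) :
    TT A z δ u t D E ↔ TT A z δ u t C E :=
  Tb.L k (by omega) (by rw [h.ch.rf hE k.2.1]; omega)
    (by rw [h.ch.rf ((Ch.top_mono k.2.1).trans hE) k.1]; ring)

theorem lo_tp {d : Ch P} (k : C.top ≤ d) (hd : d ≤ e) (h1 : vv δ z u C ≤ t) (h2 : mu δ u d ≤ t) :
    vv δ z u (tp C d k) ≤ t :=
  (h.ch.vv_le (by simpa using hd)).2 fun c hc => (mem_tp.1 hc).elim (fun e => e ▸ h2)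
    fun hc => (h.ch.le_vv (k.trans hd) hc).trans h1

theorem hi_of {d : Ch P} (hd : d ∈ C.1) (hC : C.top ≤ e) (h2 : t < mu δ u d) : t < vv δ z u C :=
  h2.trans_le (h.ch.le_vv hC hd)

theorem hi_up (k : C ≤ D) (hD : D.top ≤ e) (h2 : t < vv δ z u C) : t < vv δ z u D :=
  h2.trans_le (h.ch.vv_mono hD k)

theorem lo_dn (k : C ≤ D) (hD : D.top ≤ e) (h2 : vv δ z u D ≤ t) : vv δ z u C ≤ t :=
  (h.ch.vv_mono hD k).trans h2

theorem mu_pt {x : P} (hx : x ∈ e.1) : mu δ u (Ch.pt x) = u x := h.inr.mu_pt h.dom h.ch hx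
theorem mu_le {d : Ch P} (hd : d ≤ e) : mu δ u d ≤ u d.top := h.inr.mu_le h.dom hd
theorem le_mu {d : Ch P} (hd : d ≤ e) : u d.bot ≤ mu δ u d := h.inr.le_mu h.dom h.ch hd
theorem ule {x y : P} (hx : x ∈ e.1) (hy : y ∈ e.1) (k : x ≤ y) : u x ≤ u y :=
  h.ch.le h.mono h.dom hx hy k
theorem vv_off (hC : C.top ≤ e) (k : C ∉ A2 A) : vv δ z u C = u C.top.top :=
  h.inr.vv_off h.mono h.dom h.ch hC k

/-- a mixed edge of the refinement inside the carrier -/
def Mx (A : Set P) (z : P → P → ℤ) (δ : Ch P → ℤ) (e : Ch P) (u : P → ℤ) (t : ℤ)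
    (C D : Ch (Ch P)) : Prop :=
  C ≤ D ∧ D.top ≤ e ∧ vv δ z u C ≤ t ∧ t < vv δ z u D ∧ (C ∈ A2 A ∨ D ∈ A2 A)

/-- FIBRE: the sheet is connected inside a carrier -/
theorem fibre (he : Mt A e) (t : ℤ) :
    ∃ X : Prop, ∀ C D, Mx A z δ e u t C D → (TT A z δ u t C D ↔ X) := by
  obtain ⟨c, c1, c2, c3, c4⟩ := exists_c0 he
  have inA : ∀ {C : Ch (Ch P)}, C.top = c → C ∈ A2 A := fun {C} k => by
    show C.top.top ∈ A; rwa [k]
  have kp : ∀ {C : Ch (Ch P)}, C.top ≤ e → C ∈ A2 A → C.top ≤ c := fun {C} k1 k2 x hx =>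
    c3 x (k1 hx) ((Ch.le_top hx).trans (c4 _ (k1 C.top.top_mem) k2))
  have kp' : ∀ {C D}, Mx A z δ e u t C D → C.top ≤ c := fun {C D} ⟨k1, k2, _, _, k5⟩ =>
    k5.elim (kp ((Ch.top_mono k1).trans k2)) fun k => (Ch.top_mono k1).trans (kp k2 k)
  have eh : ∀ {d : Ch P}, d ≤ e → ¬ d ≤ c → u d.top ≤ mu δ u e := by
    intro d k1 k2
    have k3 : ¬ d.top ≤ c.top := fun k => k2 fun x hx => c3 x (k1 hx) ((Ch.le_top hx).trans k)
    rw [h.inr.mu_off fun k => k3 ((Ch.top_mono k1).trans (c4 _ e.top_mem k))]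
    exact h.ule (k1 d.top_mem) e.top_mem (Ch.top_mono k1)
  -- reduction of an edge whose upper end is outside
  have out : ∀ {C D} (m : Mx A z δ e u t C D), ¬ D.top ≤ c → C ∈ A2 A ∧ t < mu δ u e ∧
      (TT A z δ u t C D ↔ TT A z δ u t C (tp (tp C c (kp' m)) e (by simpa using c1))) := by
    intro C D m k
    obtain ⟨k1, k2, k3, k4, k5⟩ := id m
    have hC : C ∈ A2 A := k5.resolve_right fun k' => k (kp k2 k')
    have hD : D ∉ A2 A := fun k' => k (kp k2 k')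
    have he : t < mu δ u e := by rw [h.vv_off k2 hD] at k4; exact k4.trans_le (eh k2 k)
    have k6 := (Ch.top_mono k1).trans k2
    have k7 : t < vv δ z u (tp C e k6) := h.hi_of (d := e) (by simp) (by simp) he
    refine ⟨hC, he, ?_⟩
    rw [h.mR (tri1 hC k1 (le_tp D e k2)) k2 k3 k4,
      ← h.mR (tri1 hC (le_tp C e k6) (tp_mono k1)) (by simp) k3 k7,
      h.mR (tri1 hC (le_tp C e k6) (tp_mono (le_tp C c _))) (by simp) k3 k7]
  by_cases hc : mu δ u c ≤ t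
  · have p0 : vv δ z u (Ch.pt c) ≤ t := by rwa [h.ch.vv_pt c1]
    have pA : Ch.pt c ∈ A2 A := inA (by simp)
    -- edges from `{c}`
    let f : Ch (Ch P) → Prop := fun D => TT A z δ u t (Ch.pt c) D
    have f1 : ∀ D D' : Ch (Ch P), c ∈ D.1 → D ≤ D' → D.top ≤ e → t < vv δ z u D → (f D ↔ f D') :=
      fun D D' k1 k2 k3 k4 => h.mR (tri1 pA (Ch.pt_le.2 k1) k2) k3 p0 k4
    have f2 : ∃ X : Prop, ∀ D : Ch (Ch P), c ∈ D.1 → D.top ≤ e → t < vv δ z u D → (f D ↔ X) := by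
      by_cases he : t < mu δ u e
      · refine ⟨f (Ch.pr c e c1), fun D k1 k2 k3 => ?_⟩
        rw [f1 D _ k1 (le_tp D e k2) k2 k3,
          f1 (Ch.pr c e c1) (tp D e k2) (by simp) (pr_le (by simp [k1]) (by simp)) (by simp)
            (h.hi_of (d := e) (by simp) (by simp) he)]
      have g1 : ∀ (d d' : Ch P) (k : d ≤ d') (k' : d' ≤ c), t < mu δ u d → t < mu δ u d' →
          (f (Ch.pr d c (k.trans k')) ↔ f (Ch.pr d' c k')) := fun d d' k k' k1 k2 => by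
        rw [f1 _ (tri d d' c k k') (by simp) (pr_le (by simp) (by simp)) (by simpa using c1)
            (h.hi_of (d := d) (by simp) (by simpa using c1) k1),
          f1 (Ch.pr d' c k') (tri d d' c k k') (by simp) (pr_le (by simp) (by simp))
            (by simpa using c1) (h.hi_of (d := d') (by simp) (by simpa using c1) k2)]
      refine ⟨f (Ch.pr (Ch.pt c.top) c (Ch.pt_le.2 c.top_mem)), fun D k1 k2 k3 => ?_⟩
      obtain ⟨d, d1, d2⟩ := h.ch.ex_vv δ k2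
      rw [d2] at k3
      have d3 := le_top' d1 k2
      have d4 : d ≤ c := by
        by_contra k; exact he ((k3.trans_le (h.mu_le d3)).trans_le (eh d3 k))
      have d5 : t < u d.top := k3.trans_le (h.mu_le d3)
      have d6 : d.top ≤ c.top := Ch.top_mono d4
      have d7 : Ch.pr d.top c.top d6 ≤ c := pr_le (d4 d.top_mem) c.top_mem
      have d8 : t < mu δ u (Ch.pr d.top c.top d6) :=
        d5.trans_le (by simpa using h.le_mu (d7.trans c1))
      have d9 : t < mu δ u (Ch.pt d.top) := by rwa [h.mu_pt (d3 d.top_mem)]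
      rw [← f1 (Ch.pr d c d4) D (by simp) (pr_le d1 k1) (by simpa using c1)
          (h.hi_of (d := d) (by simp) (by simpa using c1) k3),
        ← g1 _ d (Ch.pt_le.2 d.top_mem) d4 d9 k3, g1 _ _ (Ch.pt_le.2 (by simp)) d7 d9 d8,
        ← g1 (Ch.pt c.top) _ (Ch.pt_le.2 (by simp)) d7 (by
          rw [h.mu_pt (c1 c.top_mem)]
          exact d5.trans_le (h.ule (d3 d.top_mem) (c1 c.top_mem) d6)) d8]
    obtain ⟨X, hX⟩ := f2
    refine ⟨X, fun C D m => ?_⟩
    have k6 := kp' m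
    have l1 : vv δ z u (tp C c k6) ≤ t := h.lo_tp k6 c1 m.2.2.1 hc
    have l2 : tp C c k6 ∈ A2 A := inA (by simp)
    have fin : ∀ E : Ch (Ch P), tp C c k6 ≤ E → E.top ≤ e → t < vv δ z u E →
        (TT A z δ u t C E ↔ X) := fun E a1 a2 a3 => by
      rw [← h.mL (tri2 l2 (le_tp C c k6) a1) a2 l1 a3, h.mL (tri2 l2 (pt_le_tp C c k6) a1) a2 l1 a3]
      exact hX E (a1 (by simp)) a2 a3
    by_cases k : D.top ≤ c
    · rw [h.mR (tri3 (inA (top_tp D c k)) m.1 (le_tp D c k)) m.2.1 m.2.2.1 m.2.2.2.1]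
      exact fin _ (tp_mono m.1) (by simpa using c1)
        (h.hi_up (le_tp D c k) (by simpa using c1) m.2.2.2.1)
    · obtain ⟨-, a2, a3⟩ := out m k
      rw [a3]
      exact fin _ (le_tp _ _ _) (by simp) (h.hi_of (d := e) (by simp) (by simp) a2)
  · rw [not_le] at hc
    let g : Ch P → Prop := fun d => ∀ k : d ≤ c, TT A z δ u t (Ch.pt d) (Ch.pr d c k)
    have hi : ∀ {E : Ch (Ch P)}, c ∈ E.1 → E.top ≤ e → t < vv δ z u E := fun k1 k2 =>
      h.hi_of k1 k2 hc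
    have g1 : ∀ (C : Ch (Ch P)) (k : C.top ≤ c), vv δ z u C ≤ t → ∀ d ∈ C.1,
        (TT A z δ u t C (tp C c k) ↔ g d) := fun C k k1 d hd => by
      have l2 : tp C c k ∈ A2 A := inA (by simp)
      have k2 := le_top' hd k
      rw [h.mL (tri3 l2 (Ch.pt_le.2 hd) (le_tp C c k)) (by simpa using c1) k1
          (hi (by simp) (by simpa using c1)),
        ← h.mR (D := Ch.pr d c k2) (tri3 l2 (Ch.pt_le.2 (by simp)) (pr_le (by simp [hd]) (by simp)))
          (by simpa using c1) (h.lo_dn (Ch.pt_le.2 hd) (k.trans c1) k1)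
          (hi (by simp) (by simpa using c1))]
      exact ⟨fun a _ => a, fun a => a k2⟩
    have g2 : ∀ (d d' : Ch P), d ≤ d' → d' ≤ c → mu δ u d ≤ t → mu δ u d' ≤ t → (g d ↔ g d') :=
      fun d d' k k' k1 k2 => by
        have l : vv δ z u (Ch.pr d d' k) ≤ t := (h.ch.vv_le (by simpa using k'.trans c1)).2
          fun x hx => (mem_pr.1 hx).elim (fun e => e ▸ k1) fun e => e ▸ k2
        rw [← g1 (Ch.pr d d' k) (by simpa using k') l d (by simp),
          g1 (Ch.pr d d' k) (by simpa using k') l d' (by simp)]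
    refine ⟨g (Ch.pt c.bot), fun C D m => ?_⟩
    have k6 := kp' m
    have a1 : TT A z δ u t C D ↔ TT A z δ u t C (tp C c k6) := by
      by_cases k : D.top ≤ c
      · rw [h.mR (tri3 (inA (top_tp D c k)) m.1 (le_tp D c k)) m.2.1 m.2.2.1 m.2.2.2.1,
          h.mR (E := tp D c k) (tri3 (inA (top_tp D c k)) (le_tp C c k6) (tp_mono m.1))
            (by simpa using c1) m.2.2.1 (hi (by simp) (by simpa using c1))]
      · obtain ⟨a1, -, a3⟩ := out m k
        rw [a3, h.mR (tri1 a1 (le_tp C c k6) (le_tp _ _ _)) (by simpa using c1) m.2.2.1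
          (hi (by simp) (by simpa using c1))]
    have d4 : mu δ u C.top ≤ t := (h.ch.le_vv (k6.trans c1) C.top_mem).trans m.2.2.1
    have d5 : u C.top.bot ≤ t := (h.le_mu (k6.trans c1)).trans d4
    have d6 : c.bot ≤ C.top.bot := Ch.bot_anti k6
    have d7 : Ch.pr c.bot C.top.bot d6 ≤ c := pr_le c.bot_mem (k6 C.top.bot_mem)
    have d8 : mu δ u (Ch.pr c.bot C.top.bot d6) ≤ t :=
      (h.mu_le (d7.trans c1)).trans (by simpa using d5)
    have d9 : mu δ u (Ch.pt C.top.bot) ≤ t := by rwa [h.mu_pt (c1 (k6 C.top.bot_mem))]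
    rw [a1, g1 C k6 m.2.2.1 _ C.top_mem, ← g2 _ _ (Ch.pt_le.2 C.top.bot_mem) k6 d9 d4,
      g2 _ _ (Ch.pt_le.2 (by simp)) d7 d9 d8, ← g2 (Ch.pt c.bot) _ (Ch.pt_le.2 (by simp)) d7 (by
        rw [h.mu_pt (c1 c.bot_mem)]
        exact (h.ule (c1 c.bot_mem) (c1 (k6 C.top.bot_mem)) d6).trans d5) d8]

/-- a boundary edge of the carrier gives a boundary edge of the refinement -/
theorem base (he : Mt A e) {x y : P} (hx : x ∈ e.1) (hy : y ∈ e.1) (hxy : x ≤ y) (hx' : x ∉ A)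
    (hy' : y ∉ A) (h1 : u x ≤ t) (h2 : t < u y) :
    ∃ C D, Mx A z δ e u t C D ∧ TT A z δ u t C D := by
  obtain ⟨c, c1, c2, c3, c4⟩ := exists_c0 he
  have inA : ∀ {C : Ch (Ch P)}, C.top = c → C ∈ A2 A := fun {C} k => by
    show C.top.top ∈ A; rwa [k]
  have p1 : vv δ z u (Ch.pt (Ch.pt x)) ≤ t := by rwa [h.ch.vv_pt (Ch.pt_le.2 hx), h.mu_pt hx]
  have p2 : Ch.pt (Ch.pt x) ∉ A2 A := by simpa using hx'
  have q1 : c.top ≤ y → e.top ∉ A ∧ t < mu δ u e := fun k => by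
    have := not_up h.conv c2 k hy' (Ch.le_top hy)
    exact ⟨this, by rw [h.inr.mu_off this]; exact h2.trans_le (h.ule hy e.top_mem (Ch.le_top hy))⟩
  rcases e.total hy (c1 c.top_mem) with k | k
  · have l1 : Ch.pr x y hxy ≤ c := pr_le (c3 x hx (hxy.trans k)) (c3 y hy k)
    let D := Ch.pr (Ch.pt x) (Ch.pr x y hxy) (Ch.pt_le.2 (by simp))
    have l2 : D.top ≤ c := by simpa [D] using l1
    have l3 : D ∉ A2 A := by simpa [D] using hy'
    have l4 : t < vv δ z u D := by rw [h.vv_off (l2.trans c1) l3]; simpa [D] using h2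
    have l5 : Ch.pt (Ch.pt x) ≤ D := Ch.pt_le.2 (by simp [D])
    exact ⟨_, tp D c l2, ⟨l5.trans (le_tp _ _ _), by simpa using c1, p1,
      h.hi_up (le_tp _ _ _) (by simpa using c1) l4, Or.inr (inA (by simp))⟩,
      (h.mR (tri3 (inA (by simp)) l5 (le_tp _ _ _)) (l2.trans c1) p1 l4).1 (Tb.base p2 l3)⟩
  obtain ⟨q2, q3⟩ := q1 k
  rcases e.total hx (c1 c.top_mem) with k' | k'
  · let D := Ch.pr (Ch.pt x) c (Ch.pt_le.2 (c3 x hx k'))
    have l2 : D.top ≤ e := by simpa [D] using c1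
    have l3 : D ∈ A2 A := inA (by simp [D])
    have l5 : Ch.pt (Ch.pt x) ≤ D := Ch.pt_le.2 (by simp [D])
    have l6 : t < vv δ z u (tp D e l2) := h.hi_of (d := e) (by simp) (by simp) q3
    have b : TT A z δ u t (Ch.pt (Ch.pt x)) (tp D e l2) := Tb.base p2 (by simpa using q2)
    by_cases l4 : vv δ z u D ≤ t
    · exact ⟨D, tp D e l2, ⟨le_tp _ _ _, by simp, l4, l6, Or.inl l3⟩,
        (h.mL (tri2 l3 l5 (le_tp _ _ _)) (by simp) l4 l6).2 b⟩
    · exact ⟨_, D, ⟨l5, l2, p1, not_le.1 l4, Or.inr l3⟩,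
        (h.mR (tri2 l3 l5 (le_tp _ _ _)) l2 p1 (not_le.1 l4)).2 b⟩
  · have l1 : c ≤ Ch.dn e x (Ch.bot_le hx) := le_dn c1 k'
    let D := Ch.pr c _ l1
    have l2 : D.top ≤ e := by simpa [D] using dn_le
    have l3 : D ∉ A2 A := by simpa [D, top_dn hx] using hx'
    have l4 : vv δ z u D ≤ t := by rw [h.vv_off l2 l3]; simpa [D, top_dn hx] using h1
    have l5 : Ch.pt c ≤ D := Ch.pt_le.2 (by simp [D])
    have l6 : t < vv δ z u (tp D e l2) := h.hi_of (d := e) (by simp) (by simp) q3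
    have l7 : Ch.pt c ∈ A2 A := inA (by simp)
    exact ⟨_, tp D e l2, ⟨l5.trans (le_tp _ _ _), by simp, h.lo_dn l5 l2 l4, l6, Or.inl l7⟩,
      (h.mL (tri1 l7 l5 (le_tp _ _ _)) (by simp) l4 l6).1 (Tb.base l3 (by simpa using q2))⟩

/-- a mixed edge over an edge -/
theorem wit {x y : P} (hxy : x ≤ y) (hx : x ∈ e.1) (hy : y ∈ e.1) (hA : x ∈ A ∨ y ∈ A)
    {e' : Ch P} {u' : P → ℤ} (hx' : x ∈ e'.1) (hy' : y ∈ e'.1)
    (e1 : u' x = u x) (e2 : u' y = u y) (h1 : u x ≤ t) (h2 : t < u y) :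
    ∃ C D, Mx A z δ e u t C D ∧ Mx A z δ e' u' t C D ∧ vv δ z u' C = vv δ z u C := by
  let d := Ch.pr x y hxy
  have l : d ≤ e := pr_le hx hy
  have l' : d ≤ e' := pr_le hx' hy'
  have v : ∀ C : Ch (Ch P), C.top ≤ d → vv δ z u' C = vv δ z u C := fun C k => by
    unfold vv
    rcases mem_pr.1 (k C.top.top_mem) with a | a <;> rw [a] <;> omega
  suffices ∃ C D, D.top ≤ d ∧ Mx A z δ e u t C D by
    obtain ⟨C, D, k, m⟩ := this
    have k2 := (Ch.top_mono m.1).trans k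
    exact ⟨C, D, m, ⟨m.1, k.trans l', v C k2 ▸ m.2.2.1, v D k ▸ m.2.2.2.1, m.2.2.2.2⟩, v C k2⟩
  have px : Ch.pt x ≤ d := Ch.pt_le.2 (by simp [d])
  have py : Ch.pt y ≤ d := Ch.pt_le.2 (by simp [d])
  by_cases k : mu δ u d ≤ t
  · have hy2 : y ∈ A := by
      by_contra k2
      rw [h.inr.mu_off (by simpa [d] using k2)] at k
      simp only [d, Ch.top_pr] at k; omega
    exact ⟨Ch.pt d, Ch.pr _ d py, by simp, Ch.pt_le.2 (by simp), by simpa using l,
      by rwa [h.ch.vv_pt l], h.hi_of (d := Ch.pt y) (by simp) (by simpa using l)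
        (by rwa [h.mu_pt hy]), Or.inl (by simpa [d] using hy2)⟩
  · exact ⟨Ch.pt (Ch.pt x), Ch.pr _ d px, by simp, Ch.pt_le.2 (by simp), by simpa using l,
      by rwa [h.ch.vv_pt (Ch.pt_le.2 hx), h.mu_pt hx], h.hi_of (d := d) (by simp) (by simpa using l)
        (not_le.1 k), hA.imp (by simp) (by simp [d])⟩

end Cx

open Cx in
theorem InR.nc (h : InR A z δ) (hA : A.OrdConnected) (hz : Coc A z) (hm : Mono A z) (hn : NC A z) :
    NC (A2 A) (rf δ z) := by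
  let G : P → P → ℤ → Prop := fun x y k => ∀ e u, Mt A e → Chart z e u → x ∈ e.1 → y ∈ e.1 →
    ∀ C D, Mx A z δ e u (u x + k) C D → TT A z δ u (u x + k) C D
  have cx : ∀ {e u}, Mt A e → Chart z e u → Cx A z δ e u := fun he hu => ⟨hA, hm, h, he.dom, hu⟩
  have gb : ∀ x y k, x ≤ y → x ∉ A → y ∉ A → 0 ≤ k → k < z x y → G x y k := by
    intro x y k hxy hx hy h0 h1 e u he hu a1 a2 C D m
    obtain ⟨X, hX⟩ := (cx he hu).fibre he (u x + k)
    obtain ⟨C', D', m', b⟩ := (cx he hu).base (t := u x + k) he a1 a2 hxy hx hy (by omega)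
      (by rw [hu x a1 y a2 hxy] at h1; omega)
    exact (hX C D m).2 ((hX C' D' m').1 b)
  have gm : ∀ (E : Ch P) (x y x' y' : P) (k k' : ℤ), Mt A E → x ∈ E.1 → y ∈ E.1 → x' ∈ E.1 →
      y' ∈ E.1 → x' ≤ y' → 0 ≤ k' → k' < z x' y' → (∀ u, Chart z E u → u x + k = u x' + k') →
      G x y k → G x' y' k' := by
    intro E x y x' y' k k' hE a1 a2 a3 a4 hxy h0 h1 ek g
    by_cases hA' : x' ∈ A ∨ y' ∈ A
    swap
    · exact gb _ _ _ hxy (fun h => hA' (Or.inl h)) (fun h => hA' (Or.inr h)) h0 h1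
    intro e u he hu b1 b2 C D m
    obtain ⟨a, ha, ha'⟩ := hE.dom
    have hu' := chart_pot hz ha ha' (u x' - pot z a x')
    obtain ⟨X, hX⟩ := (cx he hu).fibre he (u x' + k')
    have e1 := hu x' b1 y' b2 hxy
    have e2 := hu' x' a3 y' a4 hxy
    have e3 := ek _ hu'
    beta_reduce at e2 e3
    obtain ⟨C', D', m1, m2, ev⟩ := (cx he hu).wit (t := u x' + k') hxy b1 b2 hA'
      (e' := E) (u' := fun x => pot z a x + (u x' - pot z a x')) a3 a4
      (by ring) (by omega) (by omega) (by omega)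
    have := g E _ hE hu' a1 a2 C' D' (by convert m2 using 1; omega)
    refine (hX C D m).2 ((hX C' D' m1).1 ?_)
    unfold TT at this ⊢
    convert this using 1
    omega
  have big : ∀ {x y w}, Tri A x y w → ∃ E : Ch P, Mt A E ∧ x ∈ E.1 ∧ y ∈ E.1 ∧ w ∈ E.1 := by
    intro x y w t
    obtain ⟨E, k, hE⟩ := dom_iff.1 (show Dom A (tri x y w t.1 t.2.1) from
      let ⟨_, _, a, ha, c1, c2, c3⟩ := t; ⟨a, ha, by simp [c1, c2, c3]⟩)
    exact ⟨E, hE, k (by simp), k (by simp), k (by simp)⟩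
  have all : ∀ x y k, Dp A x y → 0 ≤ k → k < z x y → G x y k := by
    intro x y k hp h0 h1
    refine NC.ind hn hz hm (G := G) (fun x y k hp => gb x y k hp.1) ?_ ?_ hp h0 h1
    · intro x y w k t h0 h1
      obtain ⟨E, hE, a1, a2, a3⟩ := big t
      have := t.add hz; have := hm _ _ t.d23
      exact ⟨gm E _ _ _ _ _ _ hE a1 a2 a1 a3 t.d13.1 h0 (by omega) fun _ _ => rfl,
        gm E _ _ _ _ _ _ hE a1 a3 a1 a2 t.1 h0 h1 fun _ _ => rfl⟩
    · intro x y w k t h0 h1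
      obtain ⟨E, hE, a1, a2, a3⟩ := big t
      have := t.add hz; have := hm _ _ t.d12
      exact ⟨gm E _ _ _ _ _ _ hE a2 a3 a1 a3 t.d13.1 (by omega) (by omega)
          fun u hu => by rw [hu x a1 y a2 t.1]; ring,
        gm E _ _ _ _ _ _ hE a1 a3 a2 a3 t.2.1 h0 h1 fun u hu => by rw [hu x a1 y a2 t.1]; ring⟩
  intro C D k hp h0 h1
  by_cases hA' : C ∈ A2 A ∨ D ∈ A2 A
  swap
  · exact Tb.base (fun h => hA' (Or.inl h)) (fun h => hA' (Or.inr h))
  have he : Mt A D.top := hA'.elim (fun h => ⟨_, Ch.top_mono hp.1 C.top.top_mem, h⟩)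
    fun h => ⟨_, D.top.top_mem, h⟩
  obtain ⟨u, hu⟩ := exists_chart hz he.dom
  have c := cx he hu
  rw [hu.rf le_rfl hp.1] at h1
  have k1 := Ch.top_mono hp.1
  have k2 : u D.top.bot ≤ vv δ z u C := ((c.ule D.top.bot_mem (k1 C.top.bot_mem)
    (Ch.bot_anti k1)).trans (c.le_mu k1)).trans (hu.le_vv k1 C.top_mem)
  have k3 := h.vv_le hm he.dom hu (le_refl D.top)
  have := all _ _ (vv δ z u C + k - u D.top.bot) he.bt (by omega)
    (by rw [hu _ D.top.bot_mem _ D.top.top_mem D.top.bot_le_top]; omega) D.top u he hu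
    D.top.bot_mem D.top.top_mem C D ⟨hp.1, le_rfl, by omega, by omega, hA'⟩
  unfold TT at this
  convert this using 1
  ring

end Crest.Agent.X212.Cut21
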