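import Crest.Agent.X212.Cut21.Ref2

/-!
# X212 / Cut21 (helper21): refinement in the range keeps `CondP`; thickening and halving
-/

set_option autoImplicit false
set_option linter.unusedSectionVars false

open Finset Classical

noncomputable section

namespace Crest.Agent.X212.Cut21

open Crest.Agent.X212.Hp13 Crest.Agent.X212.Alg36
open Crest.Agent.X212.Ind26 (tri tri_val top_tri bot_tri)

variable {P : Type} [PartialOrder P] [Fintype P] {A : Set P} {z : P → P → ℤ} {δ : Ch P → ℤ}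

namespace Cx

variable {e : Ch P} {u : P → ℤ} (h : Cx A z δ e u) (he : e.top ∉ A) {C D E : Ch (Ch P)}

/-- the canonical pair over `C` in the carrier -/
def QQ (A : Set P) (z : P → P → ℤ) (δ : Ch P → ℤ) (e : Ch P) (C : Ch (Ch P)) : Prop :=
  ∀ k : C.top ≤ e, PP (A2 A) (rf δ z) C (tp C e k)

include he in
theorem q0 (hE : E ∉ A2 A) (k : C ≤ E) (k' : E.top ≤ e) :
    PP (A2 A) (rf δ z) C E ↔ QQ A z δ e C := by
  have n1 : ∀ (D : Ch (Ch P)) (k : D.top ≤ e), tp D e k ∉ A2 A := fun D k => by simpa using he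
  exact ⟨fun a _ => PP.mv (n1 E k') (k.trans (le_tp _ _ _)) (Or.inl (tp_mono k))
      (PP.mv hE k (Or.inr (le_tp _ _ _)) a),
    fun a => PP.mv (n1 E k') (k.trans (le_tp _ _ _)) (Or.inl (le_tp _ _ _))
      (PP.mv (n1 C _) (le_tp _ _ _) (Or.inr (tp_mono k)) (a ((Ch.top_mono k).trans k')))⟩

include h he in
theorem q1 (hC : C ∈ A2 A) (hD : D ∈ A2 A) (k : C ≤ D) (k' : D.top ≤ e)
    (v : vv δ z u C = vv δ z u D) : QQ A z δ e C ↔ QQ A z δ e D := by
  have n1 : tp D e k' ∉ A2 A := by simpa using he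
  have v' : rf δ z C D = 0 := by rw [h.ch.rf k' k, v, sub_self]
  rw [← q0 he n1 (k.trans (le_tp _ _ _)) (by simp), ← q0 he n1 (le_tp _ _ _) (by simp)]
  exact ⟨PP.dn hC k v', PP.up hD k (le_tp _ _ _) v'⟩

include h in
theorem q2 (k : C ≤ D) (k' : D.top ≤ e) (v : C ∉ A2 A ∨ vv δ z u C < vv δ z u D) :
    QQ A z δ e D := fun _ => by
  by_cases hC : C ∈ A2 A
  · exact PP.low hC k (by rw [h.ch.rf k' k]; have := v.resolve_left (not_not.2 hC); omega)
  · exact PP.sut hC k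

include h he in
theorem q3 {x y : P} (hx : x ∈ e.1) (hy : y ∈ e.1) (hxy : x ≤ y) (hA : y ∈ A) :
    ((x ∉ A ∨ u x < u y) → QQ A z δ e (Ch.pt (Ch.pt y))) ∧
      (x ∈ A → u x = u y → (QQ A z δ e (Ch.pt (Ch.pt x)) ↔ QQ A z δ e (Ch.pt (Ch.pt y)))) := by
  let d := Ch.pr x y hxy
  have l : d ≤ e := pr_le hx hy
  have px : Ch.pt x ≤ d := Ch.pt_le.2 (by simp [d])
  have py : Ch.pt y ≤ d := Ch.pt_le.2 (by simp [d])
  have m1 : u x ≤ mu δ u d := by simpa [d] using h.le_mu l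
  have m2 : mu δ u d ≤ u y := by simpa [d] using h.mu_le l
  have v0 : ∀ w ∈ e.1, vv δ z u (Ch.pt (Ch.pt w)) = u w := fun w hw => by
    rw [h.ch.vv_pt (Ch.pt_le.2 hw), h.mu_pt hw]
  have v1 : vv δ z u (Ch.pr _ d py) = u y := le_antisymm
    (by simpa [d] using h.inr.vv_le h.mono h.dom h.ch (C := Ch.pr _ d py) (by simpa using l))
    (h.mu_pt hy ▸ h.ch.le_vv (by simpa using l) (by simp))
  have v2 : vv δ z u (Ch.pt d) = mu δ u d := h.ch.vv_pt l
  have v3 : vv δ z u (Ch.pr _ d px) = mu δ u d := le_antisymm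
    ((h.ch.vv_le (by simpa using l)).2 fun c hc => (mem_pr.1 hc).elim
      (fun e => by rw [e, h.mu_pt hx]; exact m1) fun e => e ▸ le_rfl)
    (h.ch.le_vv (by simpa using l) (by simp))
  have a1 : Ch.pr _ d py ∈ A2 A := by simpa [d] using hA
  have a2 : Ch.pt d ∈ A2 A := by simpa [d] using hA
  have a3 : Ch.pr _ d px ∈ A2 A := by simpa [d] using hA
  have e1 := h.q1 he (by simpa using hA) a1 (Ch.pt_le.2 (by simp)) (by simpa using l)
    ((v0 y hy).trans v1.symm)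
  have e2 : mu δ u d = u y → (QQ A z δ e (Ch.pr _ d px) ↔ QQ A z δ e (Ch.pt (Ch.pt y))) :=
    fun k => by
      rw [e1, ← h.q1 he a2 a1 (Ch.pt_le.2 (by simp)) (by simpa using l) (by rw [v1, v2, k]),
        h.q1 he a2 a3 (Ch.pt_le.2 (by simp)) (by simpa using l) (by rw [v2, v3])]
  refine ⟨fun k => ?_, fun k1 k2 => ?_⟩
  · by_cases k3 : mu δ u d = u y
    · exact (e2 k3).1 (h.q2 (C := Ch.pt (Ch.pt x)) (Ch.pt_le.2 (by simp)) (by simpa using l)
        (k.imp (by simp) fun k => by rw [v0 x hx, v3]; omega))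
    · exact e1.2 (h.q2 (C := Ch.pt d) (Ch.pt_le.2 (by simp)) (by simpa using l)
        (Or.inr (by rw [v1, v2]; omega)))
  · rw [← e2 (by omega)]
    exact h.q1 he (by simpa using k1) a3 (Ch.pt_le.2 (by simp)) (by simpa using l)
      (by rw [v0 x hx, v3]; omega)

end Cx

open Cx in
theorem InR.condP (h : InR A z δ) (hA : A.OrdConnected) (hz : Coc A z) (hm : Mono A z)
    (hc : CondP A z) : CondP (A2 A) (rf δ z) := by
  have cx : ∀ {e : Ch P} {x : P}, x ∈ e.1 → x ∈ A → ∃ u, Cx A z δ e u := fun {e x} h1 h2 =>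
    let ⟨u, hu⟩ := exists_chart hz (Mt.dom ⟨x, h1, h2⟩); ⟨u, hA, hm, h, Mt.dom ⟨x, h1, h2⟩, hu⟩
  -- independence of the carrier
  have tr : ∀ {x o : P} (hxo : x ≤ o), o ∉ A → ∀ e : Ch P, x ∈ e.1 → o ∈ e.1 → e.top ∉ A →
      (QQ A z δ (Ch.pr x o hxo) (Ch.pt (Ch.pt x)) ↔ QQ A z δ e (Ch.pt (Ch.pt x))) := by
    intro x o hxo ho e h1 h2 h3
    have k : Ch.pr (Ch.pt x) (Ch.pr x o hxo) (Ch.pt_le.2 (by simp)) ∉ A2 A := by simpa using ho
    rw [← q0 (by simpa using ho) k (Ch.pt_le.2 (by simp)) (by simp),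
      q0 h3 k (Ch.pt_le.2 (by simp)) (by simpa using pr_le h1 h2)]
  have key : ∀ x o, PP A z x o → x ∈ A → o ∉ A → ∀ hxo : x ≤ o,
      QQ A z δ (Ch.pr x o hxo) (Ch.pt (Ch.pt x)) := by
    intro x o hp
    induction hp with
    | @sut w a o hw h2 =>
      intro ha ho hao
      obtain ⟨u, c⟩ := cx (e := tri w a o h2 hao) (by simp) ha
      exact (tr hao ho _ (by simp) (by simp) (by simpa using ho)).2
        ((c.q3 (by simpa using ho) (by simp) (by simp) h2 ha).1 (Or.inl hw))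
    | @low w a o _ h2 h3 =>
      intro ha ho hao
      obtain ⟨u, c⟩ := cx (e := tri w a o h2 hao) (by simp) ha
      rw [c.ch w (by simp) a (by simp) h2] at h3
      exact (tr hao ho _ (by simp) (by simp) (by simpa using ho)).2
        ((c.q3 (by simpa using ho) (by simp) (by simp) h2 ha).1 (Or.inr (by omega)))
    | @up a b o hb h2 h3 h4 _ ih =>
      intro ha ho hao
      obtain ⟨u, c⟩ := cx (e := tri a b o h2 h3) (by simp) ha
      rw [c.ch a (by simp) b (by simp) h2] at h4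
      exact (tr hao ho _ (by simp) (by simp) (by simpa using ho)).2
        (((c.q3 (by simpa using ho) (by simp) (by simp) h2 hb).2 ha (by omega)).2
          ((tr h3 ho _ (by simp) (by simp) (by simpa using ho)).1 (ih hb ho h3)))
    | @dn a b o hb h2 h4 _ ih =>
      intro ha ho hao
      obtain ⟨u, c⟩ := cx (e := tri b a o h2 hao) (by simp) ha
      rw [c.ch b (by simp) a (by simp) h2] at h4
      exact (tr hao ho _ (by simp) (by simp) (by simpa using ho)).2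
        (((c.q3 (by simpa using ho) (by simp) (by simp) h2 ha).2 hb (by omega)).1
          ((tr (h2.trans hao) ho _ (by simp) (by simp) (by simpa using ho)).1 (ih hb ho _)))
    | @mv a o p hp h2 h3 _ ih =>
      intro ha ho hao
      rcases h3 with h3 | h3
      · exact (tr hao ho (tri a o p hao h3) (by simp) (by simp) (by simpa using hp)).2
          ((tr h2 hp _ (by simp) (by simp) (by simpa using hp)).1 (ih ha hp h2))
      · exact (tr hao ho (tri a p o h2 h3) (by simp) (by simp) (by simpa using ho)).2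
          ((tr h2 hp _ (by simp) (by simp) (by simpa using ho)).1 (ih ha hp h2))
  intro C hC E hE k
  have k1 : C.top ≤ E.top := Ch.top_mono k
  have hE' : E.top.top ∉ A := hE
  obtain ⟨u, c⟩ := cx (k1 C.top.top_mem) (show C.top.top ∈ A from hC)
  rw [q0 hE' hE k le_rfl]
  have k2 : Ch.pt C.bot.bot ≤ C.bot := Ch.pt_le.2 C.bot.bot_mem
  have k3 : C.bot ≤ E.top := le_top' C.bot_mem k1
  have k4 : bt C _ k2 ∈ A2 A := by simpa using hC
  have k5 : vv δ z u C = vv δ z u (bt C _ k2) := le_antisymm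
    (c.ch.vv_mono (by simpa using k1) (le_bt _ _ _))
    ((c.ch.vv_le (by simpa using k1)).2 fun d hd => (mem_bt.1 hd).elim
      (fun e => by
        rw [e, c.mu_pt (k3 C.bot.bot_mem)]
        exact (c.le_mu k3).trans (c.ch.le_vv k1 C.bot_mem))
      fun hd => c.ch.le_vv k1 hd)
  rw [c.q1 hE' hC k4 (le_bt _ _ _) (by simpa using k1) k5]
  have k6 : Ch.pt (Ch.pt C.bot.bot) ≤ bt C _ k2 := Ch.pt_le.2 (by simp)
  by_cases k7 : Ch.pt (Ch.pt C.bot.bot) ∉ A2 A ∨
      vv δ z u (Ch.pt (Ch.pt C.bot.bot)) < vv δ z u (bt C _ k2)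
  · exact c.q2 k6 (by simpa using k1) k7
  rw [not_or, not_not, not_lt] at k7
  have k8 : C.bot.bot ∈ A := by simpa using k7.1
  have k9 : C.bot.bot ≤ E.top.top := Ch.le_top (k3 C.bot.bot_mem)
  exact (c.q1 hE' k7.1 k4 k6 (by simpa using k1)
    (le_antisymm (c.ch.vv_mono (by simpa using k1) k6) k7.2)).1
    ((tr k9 hE' _ (k3 C.bot.bot_mem) E.top.top_mem hE').1 (key _ _ (hc _ k8 _ hE' k9) k8 hE' k9))

theorem refStmt : RefStmt := fun _ _ δ hA hM hz hm h =>
  ⟨h.eqv hz hm, mono_rf hz δ, h.chi hM hz hm, h.nc hA hz hm, h.condP hA hz hm⟩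

theorem InR.sf (h : InR A z δ) (hA : A.OrdConnected) (hz : Sf A z) : Sf (A2 A) (rf δ z) :=
  sf_iff.2 ⟨mono_rf hz.coc δ, coc_rf hz.coc δ, h.nc hA hz.coc hz.mono hz.nc⟩

theorem inR_dT (hm : Mono A z) : InR A z (dT A z) :=
  ⟨fun d hd => by unfold dT; split_ifs; exacts [hm _ _ hd.bt, le_rfl],
    fun d hd => by unfold dT; split_ifs; exacts [le_rfl, hm _ _ hd.bt], fun _ hd => if_neg hd⟩

theorem inR_dH (hm : Mono A z) : InR A z (dH A z) :=
  ⟨fun d hd => by have := hm _ _ hd.bt; unfold dH; split_ifs <;> omega,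
    fun d hd => by have := hm _ _ hd.bt; unfold dH; split_ifs <;> omega, fun _ hd => if_neg hd⟩

theorem mu_dT {e d : Ch P} {u : P → ℤ} (hu : Chart z e u) (hd : d ≤ e) (h : d.top ∈ A) :
    mu (dT A z) u d = u d.bot := by
  rw [mu, dT, if_pos h, hu _ (hd d.bot_mem) _ (hd d.top_mem) d.bot_le_top]; ring

/-- a refinement that takes the lowest value on chains from `O₋` to `A` -/
def LowM (A : Set P) (z : P → P → ℤ) (δ : Ch P → ℤ) : Prop :=
  ∀ d : Ch P, d.top ∈ A → d.bot ∉ A → δ d = z d.bot d.top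

theorem lowM_dT : LowM A z (dT A z) := fun _ h _ => if_pos h
theorem lowM_dH : LowM A z (dH A z) := fun _ h h' => by rw [dH, if_pos h, if_neg h']

/-- under a point of the region lying over `O₋` there is a largest point of `O₋`, at the same
level -/
theorem LowM.max (hl : LowM A z δ) (h : InR A z δ) (hA : A.OrdConnected) (hz : Coc A z)
    (hm : Mono A z) {C D : Ch (Ch P)} (hC : C ∈ A2 A) (hD : D ∉ A2 A) (k : D ≤ C) :
    ∃ M, M ∉ A2 A ∧ M ≤ C ∧ rf δ z M C = 0 ∧ ∀ D, D ∉ A2 A → D ≤ C → D ≤ M := by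
  have he : Dom A C.top := Mt.dom ⟨_, C.top.top_mem, hC⟩
  obtain ⟨u, hu⟩ := exists_chart hz he
  have c : Cx A z δ C.top u := ⟨hA, hm, h, he, hu⟩
  have n : ∀ D, D ∉ A2 A → D ≤ C → ∀ d ∈ D.1, d.top ∉ A := fun D h1 h2 d hd =>
    not_dn hA hC (Ch.top_mono (Ch.top_mono h2)) h1 (Ch.top_mono (Ch.le_top hd))
  let M := C.sub (C.1.filter fun d => d.top ∉ A)
    ⟨D.top, mem_filter.2 ⟨k D.top_mem, hD⟩⟩ (filter_subset _ _)
  have m1 : M ≤ C := filter_subset _ _
  have m2 : M ∉ A2 A := (mem_filter.1 M.top_mem).2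
  refine ⟨M, m2, m1, ?_, fun D h1 h2 d hd => mem_filter.2 ⟨h2 hd, n D h1 h2 d hd⟩⟩
  rw [hu.rf le_rfl m1, sub_eq_zero]
  refine le_antisymm ((hu.vv_le le_rfl).2 fun d hd => ?_) (hu.vv_mono le_rfl m1)
  by_cases h1 : d.top ∈ A
  swap
  · exact hu.le_vv (Ch.top_mono m1) (mem_filter.2 ⟨hd, h1⟩)
  have h2 : M.top ≤ d := (C.total (m1 M.top_mem) hd).resolve_right fun h' =>
    m2 (hA.out h1 hC ⟨Ch.top_mono h', Ch.top_mono (Ch.top_mono m1)⟩)
  have h3 : d.bot ∉ A := not_dn hA h1 (Ch.top_mono h2) m2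
    ((Ch.bot_anti h2).trans M.top.bot_le_top)
  have h4 := Ch.le_top hd
  rw [c.vv_off (Ch.top_mono m1) m2, mu, hl d h1 h3, hu _ (h4 d.bot_mem) _ (h4 d.top_mem) d.bot_le_top]
  have := c.ule (h4 d.bot_mem) (h4 (h2 M.top.top_mem)) (Ch.bot_le (h2 M.top.top_mem))
  omega

end Crest.Agent.X212.Cut21
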