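import Crest.Agent.X212.Cut21.Psh2
import Crest.Agent.X212.Ind26.Hb
import Crest.Agent.X212.Hlf24.Bdy
import Crest.Agent.X212.Mcg32.Prep

/-!
# X212 / Cut21 (helper21): refinement that moves the boundary on `R₋` only, the counts
-/

set_option autoImplicit false
set_option linter.unusedSectionVars false

open Finset Classical

noncomputable section

namespace Crest.Agent.X212.Cut21

open Crest.Agent.X212.Hp13 Crest.Agent.X212.Alg36
open Crest.Agent.X212.Ind26 (nm)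

variable {P : Type} [PartialOrder P] [Fintype P] {A : Set P} {z : P → P → ℤ} {δ : Ch P → ℤ}

/-! ### three sums -/

theorem sum_cone {Y : Set P} {o : P} (ho : o ∉ Y) (h : ∀ y ∈ Y, Cm o y) {p : Ch P → Prop}
    [DecidablePred p] (hp : ∀ e, p e ↔ o ∈ e.1 ∧ Mt Y e ∧ ∀ x ∈ e.1, x ∈ insert o Y) :
    ∑ e ∈ univ.filter p, e.sg = eu Y := by
  have h1 := eu_split (X := insert o Y) (Y := Y) (Set.subset_insert _ _)
    (p := fun e => o ∈ e.1 ∧ ∀ x ∈ e.1, x ∈ insert o Y) fun e =>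
      ⟨fun k => ⟨k.2, fun l => ho (l o k.1)⟩, fun k => ⟨by_contra fun n => k.2 fun x hx =>
        (k.1 x hx).resolve_left fun e => n (e ▸ hx), k.1⟩⟩
  rw [eu_cone (Set.mem_insert _ _) (by rintro x (rfl | k); exacts [Cm.rfl, h x k])] at h1
  have m : Ch.pt o ∈ univ.filter fun e : Ch P => o ∈ e.1 ∧ ∀ x ∈ e.1, x ∈ insert o Y := by simp
  rw [← add_sum_erase _ _ m, Ch.sg_pt] at h1
  refine (sum_congr ?_ fun _ _ => rfl).trans (by linear_combination h1)
  ext e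
  simp only [mem_filter, mem_univ, true_and, mem_erase, hp]
  refine ⟨fun k => ⟨fun l => ho (mt_pt.1 (l ▸ k.2.1)), k.1, k.2.2⟩,
    fun k => ⟨k.2.1, by_contra fun n => k.1 (Ch.ext ?_), k.2.2⟩⟩
  exact eq_singleton_iff_unique_mem.2 ⟨k.2.1, fun x hx =>
    (k.2.2 x hx).resolve_right fun l => n ⟨x, hx, l⟩⟩

theorem rho_om (hA : A.OrdConnected) (hM : Mf 3 A) (hN : Nice A) {o : P} (ho : o ∈ Om A) :
    eps o * ∑ c ∈ univ.filter (fun c : Ch P => c.bot = o), c.sg * iMt A c = 1 := by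
  let F : Ch P → ℤ := fun e => if o ∈ e.1 ∧ Mt A e ∧ ∀ x ∈ e.1, x = o ∨ x ∈ A then 1 else 0
  have h1 := Mf.dual_sum hM F fun e he => if_neg fun k => he k.2.1
  have h2 : ∑ e : Ch P, e.sg * F e = 1 := by
    simp only [F, mul_ite, mul_one, mul_zero, ← sum_filter]
    rw [sum_cone (Y := {a | a ∈ A ∧ o ≤ a}) (o := o) (fun k => ho.1 k.1) (fun _ k => Or.inl k.2),
      (Nice.ctr_ge hA hN ho).eu]
    have k : ∀ e : Ch P, o ∈ e.1 → ∀ x ∈ e.1, x ∈ A → o ≤ x := fun e h1 x h2 h3 =>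
      (e.total h1 h2).resolve_right fun l => let ⟨n, _, ha, l'⟩ := ho; n (hA.out h3 ha ⟨l, l'⟩)
    exact fun e => and_congr_right fun h1 => ⟨fun ⟨⟨a, a1, a2⟩, h3⟩ => ⟨⟨a, a1, a2, k e h1 a a1 a2⟩,
      fun x hx => (h3 x hx).imp_right fun l => ⟨l, k e h1 x hx l⟩⟩,
      fun ⟨⟨a, a1, a2⟩, h3⟩ => ⟨⟨a, a1, a2.1⟩, fun x hx => (h3 x hx).imp_right fun l => l.1⟩⟩
  have h3 : ∀ c : Ch P, c.sg * ∑ e ∈ univ.filter (· ≤ c), e.sg * F e =
      if o ∈ c.1 then c.sg * iMt A c else 0 := fun c => by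
    simp only [F, mul_ite, mul_one, mul_zero, ← sum_filter, filter_filter]
    by_cases k : o ∈ c.1 ∧ Mt A c
    · obtain ⟨k1, a, k2, k3⟩ := k
      rw [if_pos k1, iMt_of ⟨a, k2, k3⟩, sum_cone (Y := {x | x ∈ A ∧ x ∈ c.1}) (o := o)
        (fun k => ho.1 k.1) (fun _ k => c.cm k1 k.2), eu_cone (E := {x | x ∈ A ∧ x ∈ c.1}) (m := a) ⟨k3, k2⟩
        fun _ k => c.cm k2 k.2]
      exact fun e => ⟨fun ⟨l, h1, ⟨a, a1, a2⟩, h3⟩ => ⟨h1, ⟨a, a1, a2, l a1⟩,
        fun x hx => (h3 x hx).imp_right fun k => ⟨k, l hx⟩⟩,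
        fun ⟨h1, ⟨a, a1, a2⟩, h3⟩ => ⟨fun x hx => (h3 x hx).elim (fun e => e ▸ k1) fun k => k.2,
          h1, ⟨a, a1, a2.1⟩, fun x hx => (h3 x hx).imp_right fun l => l.1⟩⟩
    · rw [sum_eq_zero fun e he => absurd ⟨(mem_filter.1 he).2.1 (mem_filter.1 he).2.2.1,
        (mem_filter.1 he).2.2.2.1.mono (mem_filter.1 he).2.1⟩ k, mul_zero]
      split_ifs with l
      · rw [iMt_not fun m => k ⟨l, m⟩, mul_zero]
      · rfl
  rw [sum_congr rfl fun c _ => h3 c, ← sum_filter, h2,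
    sum_through o (fun _ => 1) (iMt A) (iMt A)] at h1
  · simp only [mul_one] at h1
    rw [eps]; linear_combination h1
  · intro c c₁ c₂ e1 e2 e
    rw [one_mul]
    by_cases k : Mt A c₂
    · rw [iMt_of k, iMt_of (k.mono fun x hx => e ▸ mem_union_right _ hx)]
    · rw [iMt_not k, iMt_not]
      rintro ⟨a, a1, a2⟩
      exact (mem_union.1 (e ▸ a1)).elim (fun l => (om_dn hA ho (e1 ▸ Ch.le_top l)).1 a2)
        fun l => k ⟨a, l, a2⟩

/-- the Möbius function of a simplex -/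
theorem sum_bt (O C : Ch P) (h : O ≤ C) :
    ∑ κ ∈ univ.filter (fun κ : Ch (Ch P) => κ.bot = O ∧ κ.top = C), κ.sg = -(O.sg * C.sg) := by
  induction C using WellFoundedLT.induction with
  | ind C ih =>
  rcases h.eq_or_lt with rfl | hl
  · rw [Ch.sg_sq, ← Ch.sg_pt O]
    refine sum_eq_single_of_mem _ (by simp) fun κ hκ n => absurd (Ch.ext ?_) n
    obtain ⟨k1, k2⟩ := (mem_filter.1 hκ).2
    exact eq_singleton_iff_unique_mem.2 ⟨k1 ▸ κ.bot_mem, fun x hx =>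
      le_antisymm (k2 ▸ Ch.le_top hx) (k1 ▸ Ch.bot_le hx)⟩
  have h1 := toggle (univ.filter fun κ : Ch (Ch P) => κ.bot = O ∧ κ.top ≤ C) C
    (fun κ hκ x hx => Or.inr ((Ch.le_top hx).trans (mem_filter.1 hκ).2.2))
    (fun κ hκ _ => mem_filter.2 ⟨mem_univ _, (bot_tp κ C (mem_filter.1 hκ).2.2).trans
      (mem_filter.1 hκ).2.1, (top_tp κ C (mem_filter.1 hκ).2.2).le⟩) fun κ hκ => by
      obtain ⟨k1, k2⟩ := (mem_filter.1 hκ).2
      have n : κ.bot ≠ C := k1 ▸ hl.ne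
      exact ⟨ers κ C ⟨_, κ.bot_mem, n⟩, mem_filter.2 ⟨mem_univ _, (bot_ers n _).trans k1,
        (Ch.top_mono (erase_subset _ _ : ers κ C _ ≤ κ)).trans k2⟩, rfl⟩
  rw [← sum_fiberwise_of_maps_to (s := univ.filter fun κ : Ch (Ch P) => κ.bot = O ∧ κ.top ≤ C)
    (t := univ.filter fun e => O ≤ e ∧ e ≤ C) (g := Ch.top)
    fun κ hκ => mem_filter.2 ⟨mem_univ _, (mem_filter.1 hκ).2.1 ▸ κ.bot_le_top,
      (mem_filter.1 hκ).2.2⟩] at h1
  have h2 := sum_Icc hl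
  have he : C ∈ univ.filter (fun e => O ≤ e ∧ e ≤ C) := mem_filter.2 ⟨mem_univ _, h, le_rfl⟩
  rw [← add_sum_erase _ _ he] at h1 h2
  have k : ∀ e ≤ C, (univ.filter fun κ : Ch (Ch P) => κ.bot = O ∧ κ.top ≤ C).filter
      (fun κ => κ.top = e) = univ.filter fun κ => κ.bot = O ∧ κ.top = e := fun e l => by
    ext κ
    simp only [mem_filter, mem_univ, true_and]
    exact ⟨fun k => ⟨k.1.1, k.2⟩, fun k => ⟨⟨k.1, k.2 ▸ l⟩, k.2⟩⟩
  have k2 : ∀ e ∈ (univ.filter fun e => O ≤ e ∧ e ≤ C).erase C,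
      ∑ κ ∈ (univ.filter fun κ : Ch (Ch P) => κ.bot = O ∧ κ.top ≤ C).filter (fun κ => κ.top = e),
        κ.sg = -(O.sg * e.sg) := fun e he => by
    have m := (mem_filter.1 (mem_erase.1 he).2).2
    rw [k e m.2, ih e (lt_of_le_of_ne m.2 (mem_erase.1 he).1) m.1]
  rw [k C le_rfl, sum_congr rfl k2, sum_neg_distrib, ← mul_sum] at h1
  linear_combination h1 + O.sg * h2

/-- the low chains of faces with a given crossing carrier -/
theorem sum_car {lo : P → Prop} {Lo : Ch P → Prop} {e : Ch P} (ht : ¬ lo e.top)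
    (h1 : ∀ d ≤ e, Lo d → lo d.bot) (h2 : ∀ d ≤ e, lo d.top → Lo d) :
    ∑ O ∈ univ.filter (fun O : Ch (Ch P) => O.top = e ∧ ∀ d ∈ O.1, Lo d), O.sg = 0 := by
  by_cases he : Lo e
  swap
  · exact sum_eq_zero fun O hO => absurd
      ((mem_filter.1 hO).2.1 ▸ (mem_filter.1 hO).2.2 _ O.top_mem) he
  let r : Ch P → Ch P := fun d =>
    if h : (d.1.filter lo).Nonempty then d.sub _ h (filter_subset _ _) else d
  have rv : ∀ d ≤ e, Lo d → (r d).1 = d.1.filter lo := fun d k l => by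
    have : (d.1.filter lo).Nonempty := ⟨_, mem_filter.2 ⟨d.bot_mem, h1 d k l⟩⟩
    exact congrArg Subtype.val (dif_pos this)
  have e1 := eu_int (E := {d | d ∈ {d | d ≤ e ∧ Lo d} ∧ d ≠ e})
    (D := {d | d ≤ r e}) r (fun d hd => ?_) (fun d hd => ?_) fun d hd b hb l x hx => ?_
  · rw [eu_split (X := {d | d ≤ e ∧ Lo d}) (Y := {d | d ∈ {d | d ≤ e ∧ Lo d} ∧ d ≠ e})
      (fun _ h => h.1), ← e1, eu_cone (E := {d | d ≤ e ∧ Lo d}) (m := e) ⟨le_rfl, he⟩ fun _ h => Or.inr h.1,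
      eu_cone (E := {d | d ≤ r e}) (m := r e) (le_refl (r e)) fun _ h => Or.inr h, sub_self]
    refine fun O => ⟨fun h => ⟨fun d hd => ⟨h.1 ▸ Ch.le_top hd, h.2 d hd⟩,
      fun k => (k _ O.top_mem).2 h.1⟩, fun h => ⟨by_contra fun n => h.2 fun d hd =>
        ⟨h.1 d hd, fun l => n (le_antisymm (h.1 _ O.top_mem).1 (l ▸ Ch.le_top hd))⟩,
      fun d hd => (h.1 d hd).2⟩⟩
  · have k : ∀ x ∈ d.1, x ∈ e.1 ∧ lo x := fun x hx => mem_filter.1 (rv e le_rfl he ▸ hd hx)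
    exact ⟨⟨fun x hx => (k x hx).1, h2 d (fun x hx => (k x hx).1) (k _ d.top_mem).2⟩,
      fun l => ht (l ▸ (k _ d.top_mem).2)⟩
  · exact ⟨by
      rw [Set.mem_ofPred_eq, Ch.le_iff, rv d hd.1.1 hd.1.2, rv e le_rfl he]
      exact filter_subset_filter _ hd.1.1, by
      rw [Ch.le_iff, rv d hd.1.1 hd.1.2]; exact filter_subset _ _⟩
  · rw [rv d hd.1.1 hd.1.2]
    exact mem_filter.2 ⟨l hx, (mem_filter.1 (rv e le_rfl he ▸ hb hx)).2⟩

/-! ### the move -/

/-- `δ` is in the range of the carrier and vanishes off `top ⁻¹' O₋` -/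
structure InM (A : Set P) (z : P → P → ℤ) (δ : Ch P → ℤ) : Prop where
  nn : ∀ d, Dom A d → 0 ≤ δ d
  le : ∀ d, Dom A d → δ d ≤ z d.bot d.top
  off : ∀ d : Ch P, d.top ∉ Om A → δ d = 0

theorem dom_om {d : Ch P} (h : d.top ∈ Om A) : Dom A d :=
  let ⟨_, a, ha, k⟩ := h; ⟨a, ha, fun _ hx => Or.inr ((Ch.le_top hx).trans k)⟩

/-- the amount by which a point of `O₋` is lowered -/
def gm (A : Set P) (δ : Ch P → ℤ) (z : P → P → ℤ) (C : Ch (Ch P)) : ℤ :=
  if C.top.top ∈ Om A then dep δ z C else 0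

namespace InM

variable (h : InM A z δ) {e d : Ch P} {u : P → ℤ} {C : Ch (Ch P)}
include h

theorem mu_le (he : Dom A e) (hd : d ≤ e) : mu δ u d ≤ u d.top := by
  have := h.nn d (he.mono hd); unfold mu; omega

theorem le_mu (he : Dom A e) (hu : Chart z e u) (hd : d ≤ e) : u d.bot ≤ mu δ u d := by
  have := h.le d (he.mono hd)
  rw [hu _ (hd d.bot_mem) _ (hd d.top_mem) d.bot_le_top] at this
  unfold mu; omega

theorem mu_pt (he : Dom A e) (hu : Chart z e u) {x : P} (hx : x ∈ e.1) :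
    mu δ u (Ch.pt x) = u x := by
  have h1 := h.mu_le (u := u) he (Ch.pt_le.2 hx)
  have h2 := h.le_mu he hu (Ch.pt_le.2 hx)
  simp only [Ch.top_pt, Ch.bot_pt] at h1 h2; omega

theorem vv_le (hm : Mono A z) (he : Dom A e) (hu : Chart z e u) (hC : C.top ≤ e) :
    vv δ z u C ≤ u C.top.top :=
  (hu.vv_le hC).2 fun d hd => (h.mu_le he (le_top' hd hC)).trans
    (hu.le hm he (le_top' hd hC d.top_mem) (hC C.top.top_mem) (Ch.top_mono (Ch.le_top hd)))

theorem le_vv (he : Dom A e) (hu : Chart z e u) (hC : C.top ≤ e) :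
    u C.bot.bot ≤ vv δ z u C :=
  (h.le_mu he hu (le_top' C.bot_mem hC)).trans (hu.le_vv hC C.bot_mem)

theorem vv_off (hm : Mono A z) (he : Dom A e) (hu : Chart z e u) (hC : C.top ≤ e)
    (k : C.top.top ∉ Om A) : vv δ z u C = u C.top.top :=
  le_antisymm (h.vv_le hm he hu hC) (by
    have := hu.le_vv (δ := δ) hC C.top_mem
    rwa [mu, h.off _ k, sub_zero] at this)

theorem gm_eq (hz : Coc A z) (hm : Mono A z) (hC : Dom A C.top) : gm A δ z C = dep δ z C := by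
  unfold gm
  split_ifs with h1
  · rfl
  obtain ⟨u, hu⟩ := exists_chart hz hC
  have := h.vv_off hm hC hu le_rfl h1
  unfold vv at this; omega

theorem dep_nn (hz : Coc A z) (hm : Mono A z) (hC : Dom A C.top) : 0 ≤ dep δ z C := by
  obtain ⟨u, hu⟩ := exists_chart hz hC
  have := h.vv_le hm hC hu le_rfl
  unfold vv at this; omega

theorem eqD (hz : Coc A z) (hm : Mono A z) :
    EqD (A2 A) (rf δ z) (pb (Ch.top ∘ Ch.top) z + cb (-gm A δ z)) := fun C D hp => by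
  have := dp_dom2 hp
  simp only [rf, cb, Pi.sub_apply, Pi.add_apply, Pi.neg_apply, h.gm_eq hz hm this,
    h.gm_eq hz hm (this.mono (Ch.top_mono hp.1))]
  ring

theorem sumc (hz : Coc A z) (hm : Mono A z) (F : Ch P → ℤ) :
    ∑ O : Ch (Ch P), O.sg * (gm A δ z O * F O.top) = 0 := by
  obtain ⟨N, hN⟩ : ∃ N : ℕ, ∀ C, dep δ z C ≤ N :=
    let ⟨N, hN⟩ := (Set.finite_range (dep δ z)).bddAbove
    ⟨N.toNat, fun C => (hN ⟨C, rfl⟩).trans (Int.self_le_toNat N)⟩
  rw [← sum_fiberwise (s := univ) (g := Ch.top)]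
  refine sum_eq_zero fun e _ => ?_
  by_cases he : e.top ∈ Om A
  swap
  · exact sum_eq_zero fun O hO => by
      rw [gm, (mem_filter.1 hO).2, if_neg he, zero_mul, mul_zero]
  have dm := dom_om he
  have k : ∀ O ∈ univ.filter (fun O : Ch (Ch P) => O.top = e), O.sg * (gm A δ z O * F O.top) =
      ∑ i ∈ range N, F e * if ∀ d ∈ O.1, (i : ℤ) < δ d + z d.top e.top then O.sg else 0 := by
    intro O hO
    obtain rfl := (mem_filter.1 hO).2
    rw [gm, if_pos he, ← sum_range_lt (h.dep_nn hz hm dm) (hN O), sum_mul, mul_sum]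
    refine sum_congr rfl fun i _ => ?_
    by_cases h2 : (i : ℤ) < dep δ z O
    · rw [if_pos h2, if_pos fun d hd => h2.trans_le (dep_le hd)]; ring
    · obtain ⟨d, hd, e⟩ := dep_ex δ z O
      rw [if_neg h2, if_neg fun h3 => h2 (e ▸ h3 d hd)]; ring
  rw [sum_congr rfl k, sum_comm]
  refine sum_eq_zero fun i _ => ?_
  rw [← mul_sum, ← sum_filter, filter_filter]
  have := sum_car (e := e) (lo := fun x => (i : ℤ) < z x e.top)
    (Lo := fun d => (i : ℤ) < δ d + z d.top e.top) (by rw [Kh11.dom_self hz dm e.top_mem]; omega)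
    (fun d hd k => by
      have := h.le d (dm.mono hd)
      rw [hz.add' dm (hd d.bot_mem) (hd d.top_mem) e.top_mem d.bot_le_top (Ch.top_mono hd)]
      omega) fun d hd k => by
      have := h.nn d (dm.mono hd); omega
  exact mul_eq_zero_of_right _ (by convert this)

theorem chi (hA : A.OrdConnected) (hM : Mf 3 (A2 A)) (hN : Nice (A2 A)) (hz : Coc A z)
    (hm : Mono A z) : chi (A2 A) (rf δ z) = chi A z := by
  have c2 : (A2 A).OrdConnected := convex_pre Ch.top_mono (convex_pre Ch.top_mono hA)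
  have om : ∀ O : Ch (Ch P), O ∈ Om (A2 A) ↔ O.top.top ∈ Om A := fun O =>
    Hlf24.om_sd.trans Hlf24.om_sd
  have e : Hp13.chi (A2 A) (cb (-gm A δ z)) =
      ∑ κ : Ch (Ch (Ch P)), κ.sg * iMt (A2 A) κ * gm A δ z κ.bot := by
    rw [Hp13.chi, sum_filter]
    refine sum_congr rfl fun κ _ => ?_
    split_ifs with k
    · obtain ⟨a, a1, a2⟩ := id k
      rw [iMt_of k, cb, Pi.neg_apply, Pi.neg_apply, show gm A δ z κ.top = 0 from if_neg fun l =>
        (om_dn c2 ((om _).2 l) (Ch.le_top a1)).1 a2]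
      ring
    · rw [iMt_not k]; ring
  rw [chi_congr (h.eqD hz hm), chi_add, e, ← sum_fiberwise (s := univ) (g := Ch.bot),
    sum_congr rfl (g := fun O => -(O.sg * (gm A δ z O * 1))), sum_neg_distrib,
    h.sumc hz hm fun _ => 1, neg_zero, add_zero]
  · exact (chi_top (A := Ch.top ⁻¹' A) (pb Ch.top z)).trans (chi_top z)
  intro O _
  rw [sum_congr rfl (g := fun κ => κ.sg * iMt (A2 A) κ * gm A δ z O) fun κ hκ => by
    rw [(mem_filter.1 hκ).2], ← sum_mul]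
  by_cases k : O.top.top ∈ Om A
  · have := rho_om c2 hM hN ((om O).2 k)
    rw [eps_ch] at this
    linear_combination (-O.sg * gm A δ z O) * this - (gm A δ z O *
      ∑ κ ∈ univ.filter (fun κ : Ch (Ch (Ch P)) => κ.bot = O), κ.sg * iMt (A2 A) κ) * O.sg_sq
  · rw [gm, if_neg k]; ring

end InM

theorem nm_top (z : P → P → ℤ) : nm (Ch.top ⁻¹' A : Set (Ch P)) (pb Ch.top z) = nm A z := by
  have := acyc_top.sum Ch.top_mono fun e : Ch P => if e.top ∈ Om A then z e.bot e.top else 0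
  simp only [Ch.top_img, Ch.bot_img, mul_ite, mul_zero, ← sum_filter] at this
  rw [nm, nm, ← this]
  exact sum_congr (filter_congr fun _ _ => Hlf24.om_sd) fun _ _ => rfl

theorem nm_congr {w : P → P → ℤ} (h : EqD A z w) : nm A z = nm A w :=
  sum_congr rfl fun c hc => by rw [h _ _ (dom_om (mem_filter.1 hc).2).bt]

theorem nm_add (z w : P → P → ℤ) : nm A (z + w) = nm A z + nm A w := by
  simp only [nm, Pi.add_apply, mul_add, sum_add_distrib]

theorem sum_bot_top {p : Ch P → Prop} [DecidablePred p] (g : Ch P → ℤ) :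
    ∑ κ ∈ univ.filter (fun κ : Ch (Ch P) => p κ.top), κ.sg * g κ.bot =
      -∑ O, O.sg * (g O * ∑ C ∈ univ.filter (fun C => O ≤ C ∧ p C), C.sg) := by
  rw [← sum_fiberwise (g := Ch.bot), ← sum_neg_distrib]
  refine sum_congr rfl fun O _ => ?_
  have k : ∀ C ∈ univ.filter (fun C => O ≤ C ∧ p C),
      ∑ κ ∈ ((univ.filter fun κ : Ch (Ch P) => p κ.top).filter
        fun κ => κ.bot = O).filter (fun κ => κ.top = C), κ.sg = -(O.sg * C.sg) := fun C hC => by
    rw [← sum_bt O C (mem_filter.1 hC).2.1]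
    refine sum_congr ?_ fun _ _ => rfl
    ext κ
    simp only [mem_filter, mem_univ, true_and]
    exact ⟨fun k => ⟨k.1.2, k.2⟩, fun k => ⟨⟨k.2 ▸ (mem_filter.1 hC).2.2, k.1⟩, k.2⟩⟩
  rw [sum_congr rfl (g := fun κ => κ.sg * g O) fun κ hκ => by rw [(mem_filter.1 hκ).2], ← sum_mul,
    ← sum_fiberwise_of_maps_to (t := univ.filter fun C => O ≤ C ∧ p C) (g := Ch.top)
      (s := (univ.filter fun κ : Ch (Ch P) => p κ.top).filter fun κ => κ.bot = O)
      fun κ hκ => mem_filter.2 ⟨mem_univ _, (mem_filter.1 hκ).2 ▸ κ.bot_le_top,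
        (mem_filter.1 (mem_filter.1 hκ).1).2⟩, sum_congr rfl k, sum_neg_distrib, ← mul_sum]
  ring

theorem InM.nm (h : InM A z δ) (hz : Coc A z) (hm : Mono A z) :
    nm (A2 A) (rf δ z) = nm A z := by
  have om : ∀ O : Ch (Ch P), O ∈ Om (A2 A) ↔ O.top.top ∈ Om A := fun O =>
    Hlf24.om_sd.trans Hlf24.om_sd
  have e1 : ∑ κ ∈ univ.filter (fun κ : Ch (Ch (Ch P)) => κ.top ∈ Om (A2 A)),
      κ.sg * gm A δ z κ.top = 0 := by
    rw [sum_filter, sum_congr rfl (g := fun κ => κ.sg * gm A δ z κ.top) fun κ _ => by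
      split_ifs with k
      · rfl
      · rw [gm, if_neg fun l => k ((om _).2 l), mul_zero], sum_top, neg_eq_zero]
    simp only [eps_ch, neg_mul, sum_neg_distrib, neg_eq_zero]
    simpa using h.sumc hz hm fun _ => 1
  have e2 : ∑ κ ∈ univ.filter (fun κ : Ch (Ch (Ch P)) => κ.top ∈ Om (A2 A)),
      κ.sg * gm A δ z κ.bot = 0 := by
    rw [sum_bot_top (p := fun C => C ∈ Om (A2 A)), neg_eq_zero, ← h.sumc hz hm
      fun e => ∑ m ∈ univ.filter (fun m => e ≤ m ∧ m.top ∈ Om A), m.sg]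
    refine sum_congr rfl fun O _ => ?_
    have k1 := sum_Ft O fun m => m.top ∈ Om A
    rw [sum_congr rfl fun m hm => Ft_eq O (mem_filter.1 hm).2.1] at k1
    have k2 : ∑ C ∈ univ.filter (fun C => O ≤ C ∧ C ∈ Om (A2 A)), C.sg =
        ∑ m ∈ univ.filter (fun m => O.top ≤ m ∧ m.top ∈ Om A), m.sg := by
      refine Eq.trans (sum_congr ?_ fun _ _ => rfl) (k1.symm.trans (sum_congr ?_ fun _ _ => rfl))
      · ext C; simp only [mem_filter, om]
      · ext C; simp only [mem_filter]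
    exact congrArg (fun t => O.sg * (gm A δ z O * t)) k2
  have e3 : Ind26.nm (A2 A) (cb (-gm A δ z)) = 0 := by
    simp only [Ind26.nm, cb, Pi.neg_apply, neg_sub_neg, mul_sub, sum_sub_distrib, e1, e2, sub_self]
  rw [nm_congr (h.eqD hz hm), nm_add, e3, add_zero]
  exact (nm_top (A := Ch.top ⁻¹' A) (pb Ch.top z)).trans (nm_top z)

end Crest.Agent.X212.Cut21
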