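import Crest.Agent.X212.Cut21.Reg1

/-!
# X212 / Cut21 (helper21): moving the boundary on `R₋` is an isotopy; `RegStmt`
-/

set_option autoImplicit false
set_option linter.unusedSectionVars false

open Finset Classical

noncomputable section

namespace Crest.Agent.X212.Cut21

open Crest.Agent.X212.Hp13 Crest.Agent.X212.Alg36
open Crest.Agent.X212.Ind26 (nm Iso tri tri_val top_tri bot_tri)
open Crest.Agent.X212.Kh11 (Rf)

variable {P : Type} [PartialOrder P] [Fintype P] {A : Set P} {z : P → P → ℤ} {δ : Ch P → ℤ}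

instance [hz : IsCoc A z] : IsCoc (A2 A) (rf δ z) := ⟨coc_rf hz.coc δ⟩
instance [hz : IsCoc A z] : IsCoc (A2 A) (pb (Ch.top ∘ Ch.top) z) :=
  ⟨hz.coc.pb (Ch.top_mono.comp Ch.top_mono)⟩

theorem dom3 {κ : Ch (Ch (Ch P))} (h : Dom (A2 A) κ) : Dom A κ.top.top := dp_dom2 h.bt

theorem bot3 (κ : Ch (Ch (Ch P))) : κ.bot.top ≤ κ.top.top := Ch.top_mono κ.bot_le_top

theorem rf_tt (A : Set P) (z : P → P → ℤ) :
    Rf (Ch.top ∘ Ch.top) A z (A2 A) (pb (Ch.top ∘ Ch.top) z) := (desc2 ⟨P, A⟩).rf z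

/-- the same cell before and after the move -/
def JR (δ : Ch P → ℤ) (q : Lv (A2 A) (pb (Ch.top ∘ Ch.top) z)) (p : Lv (A2 A) (rf δ z)) : Prop :=
  p.1.1 = q.1.1 ∧ p.1.2 = q.1.2 + dep δ z q.1.1.bot

theorem rf_val (X Y : Ch (Ch P)) :
    rf δ z X Y = pb (Ch.top ∘ Ch.top) z X Y - (dep δ z Y - dep δ z X) := rfl

theorem lr_jr [IsCoc A z] : LR (JR (A := A) (z := z) δ) :=
  ⟨fun k => k.1, fun {q q' p p'} k k' => by
    rw [Lv.le_iff, Lv.le_iff, k.1, k'.1, k.2, k'.2, rf_val]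
    exact and_congr_right fun _ => by omega⟩

namespace InM

variable (h : InM A z δ) [hz : IsCoc A z] (hm : Mono A z)
include h hm

theorem car_aux {κ : Ch (Ch (Ch P))} {k : ℤ} (hd : Dom (A2 A) κ) (h0 : 0 ≤ k)
    (h1 : k < rf δ z κ.bot κ.top) :
    0 ≤ k + z κ.top.top.bot κ.bot.top.top - dep δ z κ.bot ∧
      k + z κ.top.top.bot κ.bot.top.top - dep δ z κ.bot < z κ.top.top.bot κ.top.top.top := by
  have he := dom3 hd
  obtain ⟨u, hu⟩ := exists_chart hz.coc he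
  have l := bot3 κ
  have e1 := hu _ κ.top.top.bot_mem _ (l κ.bot.top.top_mem) (Ch.bot_le (l κ.bot.top.top_mem))
  have e2 := hu _ κ.top.top.bot_mem _ κ.top.top.top_mem κ.top.top.bot_le_top
  have e3 := h.le_vv he hu l
  have e4 := h.vv_le hm he hu (le_refl κ.top.top)
  have e5 := hu.le hm he κ.top.top.bot_mem (l (Mcg32.bb_mem κ.bot))
    (Ch.bot_le (l (Mcg32.bb_mem κ.bot)))
  rw [hu.rf le_rfl κ.bot_le_top] at h1
  unfold vv at *
  omega

/-- the carrier of a cell -/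
def car (h : InM A z δ) (hm : Mono A z) (p : Lv (A2 A) (rf δ z)) : Lv A z :=
  ⟨(p.1.1.top.top, p.1.2 + z p.1.1.top.top.bot p.1.1.bot.top.top - dep δ z p.1.1.bot),
    dom3 p.2.1, h.car_aux hm p.2.1 p.2.2.1 p.2.2.2⟩

theorem car_lv {e : Ch P} {u : P → ℤ} (hu : Chart z e u) (p : Lv (A2 A) (rf δ z))
    (l : p.1.1.top.top ≤ e) :
    (h.car hm p).1.2 + u p.1.1.top.top.bot = p.1.2 + vv δ z u p.1.1.bot := by
  have m := bot3 p.1.1 p.1.1.bot.top.top_mem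
  have := hu _ (l p.1.1.top.top.bot_mem) _ (l m) (Ch.bot_le m)
  simp only [car, vv]; omega

theorem car_mono : Monotone (h.car hm) := fun p q k => by
  obtain ⟨k1, k2⟩ := Lv.le_iff.1 k
  obtain ⟨u, hu⟩ := exists_chart hz.coc (dom3 q.2.1)
  have l : p.1.1.top.top ≤ q.1.1.top.top := Ch.top_mono (Ch.top_mono k1)
  refine Lv.le_iff.2 ⟨l, ?_⟩
  have e1 := h.car_lv hm hu p l
  have e2 := h.car_lv hm hu q le_rfl
  have e3 := hu _ q.1.1.top.top.bot_mem _ (l p.1.1.top.top.bot_mem) (Ch.bot_anti l)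
  rw [hu.rf ((bot3 _).trans l) (Ch.bot_anti k1)] at k2
  change _ = _ + z q.1.1.top.top.bot p.1.1.top.top.bot
  omega

theorem car_la {p : Lv (A2 A) (rf δ z)} (k : p ∈ LA (A2 A) (rf δ z)) : h.car hm p ∈ LA A z :=
  let ⟨C, h1, h2⟩ := k; ⟨_, Ch.top_mono (Ch.le_top h1) C.top.top_mem, h2⟩

theorem car_rch {p q : Lv (A2 A) (rf δ z)} (k : Rch (LA (A2 A) (rf δ z)) p q) :
    Rch (LA A z) (h.car hm p) (h.car hm q) := k.map fun _ ha _ hb l =>
  Rch.of_cm (h.car_la hm ha) (h.car_la hm hb) (Or.inl (h.car_mono hm l))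

theorem exists_jr (q : Lv (A2 A) (pb (Ch.top ∘ Ch.top) z)) (k : q.1.1.top.top.top ∉ Om A) :
    ∃ p, JR δ q p := by
  have he := dom3 q.2.1
  have e1 := h.dep_nn hz.coc hm (he.mono (bot3 q.1.1))
  have e2 := h.gm_eq hz.coc hm he
  rw [gm, if_neg k] at e2
  have := q.2.2.1
  have := q.2.2.2
  exact ⟨⟨(q.1.1, q.1.2 + dep δ z q.1.1.bot), q.2.1, by simp only; omega, by
    simp only [rf_val]; omega⟩, rfl, rfl⟩

theorem map_le {q : Lv (A2 A) (pb (Ch.top ∘ Ch.top) z)} {p : Lv (A2 A) (rf δ z)} (k : JR δ q p) :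
    (rf_tt A z).map q ≤ h.car hm p := Lv.le_iff.2 ⟨fun x hx => by
  obtain ⟨C, h1, rfl⟩ := (Ch.mem_img (f := Ch.top ∘ Ch.top)
    (hf := Ch.top_mono.comp Ch.top_mono)).1 hx
  exact (show C.top ≤ p.1.1.top.top from Ch.top_mono (Ch.le_top (k.1 ▸ h1))) C.top.top_mem, by
  rw [Rf.map_ch, Rf.map_lv, Rf.im_bot]
  simp only [car, k.1, k.2, Function.comp]; omega⟩

theorem cell {e : Ch P} {u : P → ℤ} (hu : Chart z e u) {κ : Ch (Ch (Ch P))} (hd : Dom (A2 A) κ)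
    (l : κ.top.top ≤ e) {t : ℤ} (h1 : vv δ z u κ.bot ≤ t) (h2 : t < vv δ z u κ.top) :
    ∃ p : Lv (A2 A) (rf δ z), p.1.1 = κ ∧ p.1.2 + vv δ z u κ.bot = t :=
  ⟨⟨(κ, t - vv δ z u κ.bot), hd, by simp only; omega, by
    simp only [hu.rf l κ.bot_le_top]; omega⟩, rfl, by simp⟩

theorem le_of {e : Ch P} {u : P → ℤ} (hu : Chart z e u) {p q : Lv (A2 A) (rf δ z)}
    (k : p.1.1 ≤ q.1.1) (l : q.1.1.top.top ≤ e)
    (h1 : p.1.2 + vv δ z u p.1.1.bot = q.1.2 + vv δ z u q.1.1.bot) : p ≤ q :=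
  Lv.le_iff.2 ⟨k, by
    rw [hu.rf ((bot3 _).trans ((Ch.top_mono (Ch.top_mono k)).trans l)) (Ch.bot_anti k)]; omega⟩

theorem old {p : Lv (A2 A) (rf δ z)} (hp : p ∈ LA (A2 A) (rf δ z)) :
    ∃ q ∈ LA (A2 A) (pb (Ch.top ∘ Ch.top) z), ∃ p', JR δ q p' ∧ Rch (LA (A2 A) (rf δ z)) p p' := by
  have he := dom3 p.2.1
  obtain ⟨u, hu⟩ := exists_chart hz.coc he
  generalize hE : p.1.1.top.top = e at he hu
  obtain ⟨t, ht⟩ : ∃ t, p.1.2 + vv δ z u p.1.1.bot = t := ⟨_, rfl⟩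
  let H : Ch (Ch (Ch P)) → Prop := fun κ => ∀ p' : Lv (A2 A) (rf δ z), p'.1.1 = κ →
    p'.1.2 + vv δ z u κ.bot = t → Rch (LA (A2 A) (rf δ z)) p p'
  have fin : ∀ κ, H κ → Mt (A2 A) κ → κ.top.top ≤ e → u κ.bot.top.top ≤ t → t < vv δ z u κ.top →
      ∃ q ∈ LA (A2 A) (pb (Ch.top ∘ Ch.top) z), ∃ p', JR δ q p' ∧
        Rch (LA (A2 A) (rf δ z)) p p' := fun κ k1 k2 k3 k4 k5 => by
    have l := (bot3 κ).trans k3
    have e1 := h.vv_le hm he hu l
    have e2 := h.vv_le hm he hu k3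
    have e3 := hu _ (l κ.bot.top.top_mem) _ (k3 κ.top.top.top_mem) (Ch.top_mono (bot3 κ))
    obtain ⟨p', a1, a2⟩ := h.cell hm hu k2.dom k3 (e1.trans k4) k5
    refine ⟨⟨(κ, t - u κ.bot.top.top), k2.dom, by simp only; omega, by
      simp only [pb, Function.comp]; omega⟩, k2, p', ⟨a1, ?_⟩, k1 p' a1 a2⟩
    unfold vv at a2; simp only; omega
  have step : ∀ κ κ', κ ≤ κ' → κ'.top.top ≤ e → Mt (A2 A) κ → vv δ z u κ.bot ≤ t →
      t < vv δ z u κ.top → (H κ ↔ H κ') := fun κ κ' k1 k2 k3 k4 k5 => by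
    have l := (Ch.top_mono (Ch.top_mono k1)).trans k2
    obtain ⟨a, a1, a2⟩ := h.cell hm hu k3.dom l k4 k5
    obtain ⟨b, b1, b2⟩ := h.cell hm hu (k3.mono k1).dom k2
      ((hu.vv_mono ((bot3 κ).trans l) (Ch.bot_anti k1)).trans k4)
      (k5.trans_le (hu.vv_mono k2 (Ch.top_mono k1)))
    have r := Rch.of_cm (E := LA (A2 A) (rf δ z)) (show Mt _ a.1.1 from a1 ▸ k3)
      (show Mt _ b.1.1 from b1 ▸ k3.mono k1)
      (Or.inl (h.le_of hm hu (a1 ▸ b1 ▸ k1) (b1 ▸ k2) (by rw [a1, b1, a2, b2])))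
    exact ⟨fun k c c1 c2 => Lv.ext (b1.trans c1.symm) (by omega) ▸ (k a a1 a2).trans r,
      fun k c c1 c2 => Lv.ext (a1.trans c1.symm) (by omega) ▸ (k b b1 b2).trans r.symm⟩
  have H0 : H p.1.1 := fun c c1 c2 => Lv.ext c1.symm (by omega) ▸ Rch.rfl
  have t1 : vv δ z u p.1.1.bot ≤ t := by have := p.2.2.1; omega
  have t2 : t < vv δ z u p.1.1.top := by
    have := p.2.2.2; rw [hu.rf hE.le p.1.1.bot_le_top] at this; omega
  by_cases k : u p.1.1.bot.top.top ≤ t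
  · exact fin _ H0 hp hE.le k t2
  obtain ⟨C, c1, c2⟩ := hp
  have c3 : C.top ≤ e := hE ▸ Ch.top_mono (Ch.le_top c1)
  have c4 : p.1.1.bot ≤ C := Ch.bot_le c1
  have hi : ∀ D : Ch (Ch P), D.top = C.top → t < vv δ z u D := fun D l => by
    rw [h.vv_off hm he hu (l ▸ c3) (l ▸ fun o => o.1 c2), l]
    have := hu.le hm he (c3 (Ch.top_mono c4 p.1.1.bot.top.top_mem)) (c3 C.top.top_mem)
      (Ch.top_mono (Ch.top_mono c4))
    omega
  have inA : ∀ D : Ch (Ch P), D.top = C.top → D ∈ A2 A := fun D l => by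
    show D.top.top ∈ A; rwa [l]
  have eR : ∀ X Y W (l : X ≤ Y) (l' : Y ≤ W), Y.top = C.top → W.top = C.top → vv δ z u X ≤ t →
      (H (Ch.pr X Y l) ↔ H (Ch.pr X W (l.trans l'))) := fun X Y W l l' a b c => by
    rw [step _ (tri X Y W l l') (pr_le (by simp) (by simp)) (by simpa [b] using c3)
        ⟨Y, by simp, inA Y a⟩ (by simpa using c) (by simpa using hi Y a),
      step (Ch.pr X W _) (tri X Y W l l') (pr_le (by simp) (by simp)) (by simpa [b] using c3)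
        ⟨W, by simp, inA W b⟩ (by simpa using c) (by simpa using hi W b)]
  have eL : ∀ X Y W (l : X ≤ Y) (l' : Y ≤ W), W.top = C.top → vv δ z u Y ≤ t →
      (H (Ch.pr Y W l') ↔ H (Ch.pr X W (l.trans l'))) := fun X Y W l l' b c => by
    rw [step _ (tri X Y W l l') (pr_le (by simp) (by simp)) (by simpa [b] using c3)
        ⟨W, by simp, inA W b⟩ (by simpa using c) (by simpa using hi W b),
      step (Ch.pr X W _) (tri X Y W l l') (pr_le (by simp) (by simp)) (by simpa [b] using c3)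
        ⟨W, by simp, inA W b⟩
        (by simpa using (hu.vv_mono ((Ch.top_mono l').trans (b ▸ c3)) l).trans c)
        (by simpa using hi W b)]
  have H1 : H (Ch.pr _ C c4) := (step _ _ (pr_le p.1.1.bot_mem c1) hE.le ⟨C, by simp, c2⟩
    (by simpa using t1) (by simpa using hi C rfl)).2 H0
  generalize p.1.1.bot = O at *
  have o1 := Ch.top_mono c4
  have x1 : Ch.pt O.bot.bot ≤ O.bot := Ch.pt_le.2 O.bot.bot_mem
  have x2 := (h.le_vv he hu (o1.trans c3)).trans t1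
  let O' := bt O _ x1
  have o2 : O'.top ≤ C.top := by simpa [O'] using o1
  have o3 : vv δ z u O' ≤ t := (hu.vv_le (o2.trans c3)).2 fun d hd => (mem_bt.1 hd).elim
    (fun e => by rw [e, h.mu_pt he hu ((o1.trans c3) (Mcg32.bb_mem O))]; exact x2)
    fun hd => (hu.le_vv (o1.trans c3) hd).trans t1
  have H2 := (eR O (tp O _ o1) C (le_tp _ _ _) (tp_le c4 C.top_mem) (by simp) rfl t1).2 H1
  have H3 := (eR O _ (tp O' _ o2) _ (tp_mono (le_bt _ _ _)) (by simp) (by simp) t1).1 H2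
  have H4 := (eL O O' _ (le_bt _ _ _) (le_tp _ _ _) (by simp) o3).2 H3
  have H5 := (eL (Ch.pt (Ch.pt O.bot.bot)) O' _ (Ch.pt_le.2 (by simp [O'])) _ (by simp) o3).1 H4
  exact fin _ H5 ⟨tp O' _ o2, by simp, inA _ (by simp)⟩ (by simpa using c3) (by simpa using x2)
    (by simpa using hi (tp O' _ o2) (by simp))

theorem la_off (hA : A.OrdConnected) {κ : Ch (Ch (Ch P))} (k : Mt (A2 A) κ) :
    κ.top.top.top ∉ Om A := fun o =>
  let ⟨_, h1, h2⟩ := k; (om_dn hA o (Ch.top_mono (Ch.top_mono (Ch.le_top h1)))).1 h2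

theorem rch (hA : A.OrdConnected) {p p' : Lv (A2 A) (rf δ z)} (hp : p ∈ LA (A2 A) (rf δ z))
    (hp' : p' ∈ LA (A2 A) (rf δ z)) (k : Rch (LA A z) (h.car hm p) (h.car hm p')) :
    Rch (LA (A2 A) (rf δ z)) p p' := by
  obtain ⟨q, q1, a, q2, q3⟩ := h.old hm hp
  obtain ⟨q', r1, b, r2, r3⟩ := h.old hm hp'
  have ws := (rf_tt A z).ws_LA hm
  have c : ∀ {q a}, q ∈ LA (A2 A) (pb (Ch.top ∘ Ch.top) z) → JR δ q a →
      Rch (LA A z) ((rf_tt A z).map q) (h.car hm a) := fun k1 k2 =>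
    Rch.of_cm (ws.maps k1) (LA.upper (ws.maps k1) (h.map_le hm k2)) (Or.inl (h.map_le hm k2))
  refine (q3.trans (lr_jr.rch (fun q hq => ?_) q2 r2 ((ws.rch_iff q1 r1).2 ?_))).trans r3.symm
  · obtain ⟨p, k⟩ := h.exists_jr hm q (h.la_off hm hA hq)
    exact ⟨p, (lr_jr.la k).1 hq, k⟩
  · exact ((((c q1 q2).trans (h.car_rch hm q3).symm).trans k).trans (h.car_rch hm r3)).trans
      (c r1 r2).symm

theorem noCl (hA : A.OrdConnected) (hn : NoCl A z) : NoCl (A2 A) (rf δ z) := by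
  rintro _ ⟨p, hp, rfl⟩
  obtain ⟨a, ⟨a1, a2⟩, r, r1, r2⟩ := hn _ (isCmp_cmp (h.car_la hm hp))
  suffices ∃ p' ∈ LA (A2 A) (rf δ z), Cm (h.car hm p') a ∧ ∃ r', r' ∉ LA (A2 A) (rf δ z) ∧
      r' ≤ p' by
    obtain ⟨p', k1, k2, k3⟩ := this
    exact ⟨p', ⟨k1, h.rch hm hA hp k1 (a2.trans (Rch.of_cm a1 (h.car_la hm k1) k2.symm))⟩, k3⟩
  by_cases y : r.1.1.top ∈ Om A
  swap
  · obtain ⟨q, rfl⟩ := (rf_tt A z).surj a1
    obtain ⟨q', q1, rfl⟩ := (rf_tt A z).face r2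
    have q2 := (rf_tt A z).map_LA.1 a1
    obtain ⟨p', k⟩ := h.exists_jr hm q (h.la_off hm hA q2)
    obtain ⟨r', k'⟩ := h.exists_jr hm q' (by simpa [Rf.im_top] using y)
    exact ⟨p', (lr_jr.la k).1 q2, Or.inr (h.map_le hm k), r',
      fun l => r1 ((rf_tt A z).map_LA.2 ((lr_jr.la k').2 l)), (lr_jr.le_iff k' k).1 q1⟩
  obtain ⟨l0, l1⟩ := Lv.le_iff.1 r2
  obtain ⟨c, c1, c2, c3, -⟩ := exists_c0 a1
  obtain ⟨u, hu⟩ := exists_chart hz.coc a.2.1
  have l2 : r.1.1 ≤ c := fun x hx => c3 x (l0 hx) ((a.1.1.total (l0 hx) (c1 c.top_mem)).resolve_right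
    fun k => (om_dn hA y (k.trans (Ch.le_top hx))).1 c2)
  have e1 := hu _ (l0 r.1.1.bot_mem) _ (l0 r.1.1.top_mem) r.1.1.bot_le_top
  have e2 := r.2.2.1
  have e3 := r.2.2.2
  obtain ⟨O, O', o1, o2, o3, o4⟩ : ∃ O O' : Ch (Ch P), O ≤ O' ∧ O'.top = r.1.1 ∧
      vv δ z u O ≤ r.1.2 + u r.1.1.bot ∧ r.1.2 + u r.1.1.bot < vv δ z u O' := by
    by_cases k : mu δ u r.1.1 ≤ r.1.2 + u r.1.1.bot
    · refine ⟨Ch.pt r.1.1, Ch.pr _ _ (Ch.pt_le.2 r.1.1.top_mem), Ch.pt_le.2 (by simp), by simp,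
        by rwa [hu.vv_pt l0], lt_of_lt_of_le ?_
          (hu.le_vv (d := Ch.pt r.1.1.top) (by simpa using l0) (by simp))⟩
      rw [h.mu_pt a.2.1 hu (l0 r.1.1.top_mem)]; omega
    · refine ⟨Ch.pt (Ch.pt r.1.1.bot), Ch.pr _ _ (Ch.pt_le.2 r.1.1.bot_mem), Ch.pt_le.2 (by simp),
        by simp, ?_, (not_le.1 k).trans_le (hu.le_vv (by simpa using l0) (by simp))⟩
      rw [hu.vv_pt (Ch.pt_le.2 (l0 r.1.1.bot_mem)), h.mu_pt a.2.1 hu (l0 r.1.1.bot_mem)]; omega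
  have o5 : O'.top ≤ c := o2 ▸ l2
  have mt : Mt (A2 A) (tri O O' (tp O' c o5) o1 (le_tp _ _ _)) := ⟨tp O' c o5, by simp, by simpa⟩
  have le : Ch.pr O O' o1 ≤ tri O O' (tp O' c o5) o1 (le_tp _ _ _) := pr_le (by simp) (by simp)
  obtain ⟨p', k1, k2⟩ := h.cell hm hu mt.dom (by simpa using c1) (t := r.1.2 + u r.1.1.bot)
    (by simpa using o3)
    (by simpa using o4.trans_le (hu.vv_mono (by simpa using c1) (le_tp O' c o5)))
  obtain ⟨r', j1, j2⟩ := h.cell hm hu (mt.dom.mono le) (by simpa using o5.trans c1)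
    (t := r.1.2 + u r.1.1.bot) (by simpa using o3) (by simpa using o4)
  have tp' : p'.1.1.top.top = c := by simp [k1]
  refine ⟨p', show Mt _ p'.1.1 from k1 ▸ mt, Or.inl (Lv.le_iff.2 ⟨tp'.le.trans c1, ?_⟩), r', ?_,
    h.le_of hm hu (j1 ▸ k1 ▸ le) (tp' ▸ c1) (by rw [j1, k1, j2, k2])⟩
  · have e4 := h.car_lv hm hu p' (tp' ▸ c1)
    have e5 := hu _ a.1.1.bot_mem _ (l0 r.1.1.bot_mem) (Ch.bot_anti l0)
    have e6 := hu _ a.1.1.bot_mem _ (c1 c.bot_mem) (Ch.bot_anti c1)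
    change _ = _ + z _ p'.1.1.top.top.bot
    rw [k1] at e4
    rw [tp'] at *
    simp only [top_tri, top_tp] at e4
    omega
  · rintro ⟨X, x1, x2⟩
    rw [j1] at x1
    have : X.top ≤ r.1.1 := o2 ▸ Ch.top_mono (by simpa using Ch.le_top x1)
    exact (om_dn hA y (Ch.top_mono this)).1 x2

/-- the move on a union of components -/
def dS (T : Set (Lv A z)) (δ : Ch P → ℤ) (d : Ch P) : ℤ :=
  nlev T d (z d.bot d.top - δ d) (z d.bot d.top)

theorem inM_cnt {T : Set (Lv A z)} (hT : Sat T) : InM A (cnt T) (dS T δ) where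
  nn _ _ := nlev_nonneg _ _ _
  le d hd := by
    have := h.nn d hd
    have := h.le d hd
    have := nlev_nonneg (T := T) d 0 (z d.bot d.top - δ d)
    rw [hT.cnt_bt hm hd, nlev_add d (b := z d.bot d.top - δ d) (by omega) (by omega), dS]
    omega
  off d k := by simp [dS, h.off d k, nlev]

theorem cnt_car {T : Set (Lv A z)} (hT : Sat T) :
    EqD (A2 A) (cnt (h.car hm ⁻¹' T)) (rf (dS T δ) (cnt T)) := by
  intro X Y hp
  have he := dp_dom2 hp
  generalize hE : Y.top = e at he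
  have hu : Chart z e (z e.bot) := fun x hx y hy l => by
    rw [hz.coc.add' he e.bot_mem hx hy (Ch.bot_le hx) l]; ring
  have u0 : ∀ x ∈ e.1, 0 ≤ z e.bot x := fun x hx => hm _ _ (he.dp e.bot_mem hx (Ch.bot_le hx))
  have hv : Chart (cnt T) e fun x => nlev T e 0 (z e.bot x) := fun x hx y hy l => by
    beta_reduce
    rw [hT.cnt_eq hm he hx hy l, nlev_add e (u0 x hx) (hu.le hm he hx hy l)]; ring
  have m0 : ∀ d ≤ e, 0 ≤ mu δ (z e.bot) d := fun d l => (u0 _ (l d.bot_mem)).trans (h.le_mu he hu l)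
  have k1 : ∀ d ≤ e, mu (dS T δ) (fun x => nlev T e 0 (z e.bot x)) d =
      nlev T e 0 (mu δ (z e.bot) d) := fun d l => by
    have e1 := hu _ (l d.bot_mem) _ (l d.top_mem) d.bot_le_top
    have := h.le d (he.mono l)
    rw [mu, dS, hT.shift hm he l (by omega) le_rfl, nlev_add e (m0 d l) (h.mu_le he l),
      show z d.bot d.top - δ d + z e.bot d.bot = mu δ (z e.bot) d by unfold mu; omega,
      show z d.bot d.top + z e.bot d.bot = z e.bot d.top by omega]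
    ring
  have k2 : ∀ C : Ch (Ch P), C.top ≤ e → vv (dS T δ) (cnt T) (fun x => nlev T e 0 (z e.bot x)) C =
      nlev T e 0 (vv δ z (z e.bot) C) := fun C l => by
    obtain ⟨d, d1, d2⟩ := hu.ex_vv δ l
    refine le_antisymm ((hv.vv_le l).2 fun c hc => ?_) ?_
    · have := nlev_nonneg (T := T) e (mu δ (z e.bot) c) (vv δ z (z e.bot) C)
      rw [k1 c (le_top' hc l), nlev_add e (m0 c (le_top' hc l)) (hu.le_vv l hc)]
      omega
    · rw [d2, ← k1 d (le_top' d1 l)]; exact hv.le_vv l d1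
  have l1 : X.top ≤ e := hE ▸ Ch.top_mono hp.1
  have v0 : 0 ≤ vv δ z (z e.bot) X := (m0 _ l1).trans (hu.le_vv l1 X.top_mem)
  have v1 := hu.vv_mono (δ := δ) hE.le hp.1
  rw [hv.rf hE.le hp.1, k2 X l1, k2 Y hE.le, nlev_add e v0 v1, add_sub_cancel_left, cnt,
    dif_pos hp.1, hu.rf hE.le hp.1, nlev, nlev]
  congr 1
  have key : ∀ k, 0 ≤ k → k < vv δ z (z e.bot) Y - vv δ z (z e.bot) X →
      (lev (h.car hm ⁻¹' T) (Ch.pr X Y hp.1) k ↔ lev T e (k + vv δ z (z e.bot) X)) := by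
    intro k h1 h2
    obtain ⟨p, p1, p2⟩ := h.cell hm hu ((dom_pr hp.1).2 hp) (by simpa using hE.le)
      (t := k + vv δ z (z e.bot) X) (by simpa using h1) (by simp only [Ch.top_pr]; omega)
    have e0 : p.1.1.top.top = e := by simpa [p1] using hE
    have e1 := h.car_lv hm hu p e0.le
    rw [e0, Kh11.dom_self hz.coc he e.bot_mem, p1, p2, add_zero] at e1
    rw [Ch.bot_pr, add_left_inj] at p2
    rw [← p1, ← p2, lev_self, p2, ← e1, ← e0]
    exact (lev_self (q := h.car hm p)).symm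
  refine card_bij (fun k _ => k + vv δ z (z e.bot) X) (fun k hk => ?_) (fun k _ k' _ e => by omega)
    fun k hk => ?_
  · obtain ⟨k1, k2⟩ := mem_filter.1 hk
    rw [mem_Ico] at k1
    exact mem_filter.2 ⟨mem_Ico.2 ⟨by omega, by omega⟩, (key k k1.1 k1.2).1 k2⟩
  · obtain ⟨k1, k2⟩ := mem_filter.1 hk
    rw [mem_Ico] at k1
    exact ⟨k - vv δ z (z e.bot) X, mem_filter.2 ⟨mem_Ico.2 ⟨by omega, by omega⟩,
      (key _ (by omega) (by omega)).2 (by rwa [sub_add_cancel])⟩, sub_add_cancel _ _⟩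

theorem iso (hA : A.OrdConnected) (hM : Mf 3 (A2 A)) (hN : Nice (A2 A)) :
    Iso (Ch.top ∘ Ch.top) A z (A2 A) (rf δ z) (h.car hm) where
  mono := h.car_mono hm
  la _ := h.car_la hm
  surj a ha := by
    obtain ⟨q, rfl⟩ := (rf_tt A z).surj ha
    have q2 := (rf_tt A z).map_LA.1 ha
    obtain ⟨p, k⟩ := h.exists_jr hm q (h.la_off hm hA q2)
    exact ⟨p, (lr_jr.la k).1 q2,
      Rch.of_cm (LA.upper ha (h.map_le hm k)) ha (Or.inr (h.map_le hm k))⟩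
  rch _ hp _ hq := h.rch hm hA hp hq
  chi T hT := (chi_congr (h.cnt_car hm hT)).trans
    ((h.inM_cnt hm hT).chi hA hM hN (hT.coc hm) mono_cnt)
  nm T hT := (nm_congr (h.cnt_car hm hT)).trans ((h.inM_cnt hm hT).nm (hT.coc hm) mono_cnt)
  coh T hT := ⟨-gm A (dS T δ) (cnt T), fun o ho => neg_eq_zero.2 (if_neg fun k =>
      let ⟨_, _, a1, a2⟩ := ho; (om_dn hA k (Ch.top_mono (Ch.top_mono a2))).1 a1),
    (h.cnt_car hm hT).trans ((h.inM_cnt hm hT).eqD (hT.coc hm) mono_cnt)⟩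
  dip X Y hp hX hY k := by
    have he := dp_dom2 hp
    obtain ⟨u, hu⟩ := exists_chart hz.coc he
    have l := Ch.top_mono hp.1
    obtain ⟨y1, C, y2, y3⟩ := hY
    have e1 := h.vv_le hm he hu (le_refl Y.top)
    rw [hu.rf le_rfl hp.1] at k
    suffices ∃ x ∈ X.top.1, x ∉ A ∧ u x ≤ vv δ z u X by
      obtain ⟨x, x1, x2, x3⟩ := this
      have x4 := Ch.le_top (l x1)
      exact ⟨x, _, he.dp (l x1) Y.top.top_mem x4, x2, ⟨y1, _, y2, Ch.top_mono (Ch.top_mono y3)⟩,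
        by rw [hu _ (l x1) _ Y.top.top_mem x4]; omega⟩
    by_cases o : X.top.top ∈ Om A
    · exact ⟨_, Mcg32.bb_mem X, (om_dn hA o (Ch.le_top (Mcg32.bb_mem X))).1, h.le_vv he hu l⟩
    · exact ⟨_, X.top.top_mem, hX, (h.vv_off hm he hu l o).ge⟩

end InM

/-! ### iteration -/

theorem iso_refl [IsCoc A z] : Iso id A z A z id :=
  ⟨monotone_id, fun _ h => h, fun q h => ⟨q, h, Rch.rfl⟩, fun _ _ _ _ h => h, fun _ _ => rfl,
    fun _ _ => rfl, fun _ _ => ⟨0, fun _ _ => rfl, by rw [cb_zero, add_zero]; exact EqD.rfl⟩,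
    fun x y h1 h2 h3 h4 => ⟨x, y, h1, h2, h3, h4⟩⟩

theorem iso_comp {Q R : Type} [PartialOrder Q] [Fintype Q] [PartialOrder R] [Fintype R]
    {f : Q → P} {g : R → Q} {B : Set Q} {C : Set R} {w : Q → Q → ℤ} {v : R → R → ℤ} [IsCoc A z]
    [IsCoc B w] [IsCoc C v] {m : Lv B w → Lv A z} {n : Lv C v → Lv B w} (h : Iso f A z B w m)
    (h' : Iso g B w C v n) (hg : Monotone g) (e : C = g ⁻¹' B) : Iso (f ∘ g) A z C v (m ∘ n) := by
  have sat : ∀ T, Sat T → Sat (m ⁻¹' T) := fun T hT p q k => hT _ _ (h.mono k)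
  refine ⟨h.mono.comp h'.mono, fun p k => h.la _ (h'.la p k), fun q hq => ?_,
    fun p hp q hq k => h'.rch p hp q hq (h.rch _ (h'.la p hp) _ (h'.la q hq) k),
    fun T hT => (h'.chi _ (sat T hT)).trans (h.chi T hT),
    fun T hT => (h'.nm _ (sat T hT)).trans (h.nm T hT), fun T hT => ?_,
    fun x y h1 h2 h3 h4 => let ⟨x, y, h1, h2, h3, h4⟩ := h'.dip x y h1 h2 h3 h4
      h.dip x y h1 h2 h3 h4⟩
  · obtain ⟨p, p1, p2⟩ := h.surj q hq
    obtain ⟨r, r1, r2⟩ := h'.surj p p1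
    exact ⟨r, r1, (r2.map fun a ha b hb l =>
      Rch.of_cm (h.la a ha) (h.la b hb) (Or.inl (h.mono l))).trans p2⟩
  · obtain ⟨a, a1, a2⟩ := h.coh T hT
    obtain ⟨b, b1, b2⟩ := h'.coh _ (sat T hT)
    subst e
    exact ⟨a ∘ g + b, fun o ho => by
      rw [Pi.add_apply, b1 o ho, Function.comp, a1 _ ⟨ho.1, let ⟨_, c, k, l⟩ := ho; ⟨_, k, hg l⟩⟩,
        add_zero], b2.trans (by rw [cb_add, ← add_assoc]; exact (a2.pb hg).add EqD.rfl)⟩

theorem InM.om_val (h : InM A z δ) (hz : Coc A z) {N : ℤ}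
    (hN : ∀ d : Ch P, d.top ∈ Om A → δ d ≤ N ∧ z d.bot d.top - δ d ≤ N) (hA : A.OrdConnected)
    (hm : Mono A z) {C D : Ch (Ch P)} (hD : D ∈ Om (A2 A)) (k : C ≤ D) : rf δ z C D ≤ N := by
  have o : D.top.top ∈ Om A := Hlf24.om_sd.1 (Hlf24.om_sd.1 hD)
  have he := dom_om o
  obtain ⟨u, hu⟩ := exists_chart hz he
  obtain ⟨d, hd, e⟩ := hu.ex_vv δ (C := D) le_rfl
  have h1 := hu.le_vv (δ := δ) (Ch.top_mono k) C.top_mem
  have l1 := Ch.le_top hd
  have l2 := Ch.top_mono k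
  have k1 := hN d (om_dn hA o (Ch.top_mono l1))
  have k2 := hN C.top (om_dn hA o (Ch.top_mono l2))
  have e1 := hu _ (l1 d.bot_mem) _ (l1 d.top_mem) d.bot_le_top
  have e2 := h.le _ (he.mono l2)
  have e3 := h.nn _ (he.mono l1)
  have e4 := hu _ (l2 C.top.bot_mem) _ (l2 C.top.top_mem) C.top.bot_le_top
  rw [hu.rf le_rfl k, e]
  simp only [mu] at h1 ⊢
  rcases D.total (k C.top_mem) hd with l | l
  · have := hu.le hm he (l1 d.bot_mem) (l2 C.top.bot_mem) (Ch.bot_anti l)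
    omega
  · have := hu.le hm he (l1 d.top_mem) (l2 C.top.top_mem) (Ch.top_mono l)
    omega

/-- the conclusion of REG -/
def Reg (s : St) (z : s.P → s.P → ℤ) [IsCoc s.A z] : Prop :=
  ∃ (t : St) (f : t.P → s.P) (w : t.P → t.P → ℤ) (_ : IsCoc t.A w) (m : Lv t.A w → Lv s.A z),
    Desc s t f ∧ Sf t.A w ∧ Iso f s.A z t.A w m ∧ JO t.A w ∧ BR t.A w

theorem InM.step {s : St} {z : s.P → s.P → ℤ} {δ : Ch s.P → ℤ} [IsCoc s.A z] (h : InM s.A z δ)
    (hs : Good s) (hz : Sf s.A z) : Sf (A2 s.A) (rf δ z) ∧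
      Iso (Ch.top ∘ Ch.top) s.A z (A2 s.A) (rf δ z) (h.car hz.mono) :=
  have g := Good.desc hs (desc2 s)
  ⟨⟨mono_rf hz.coc δ, _, h.noCl hz.mono hs.conv hz.noCl⟩, h.iso hz.mono hs.conv g.mf g.nice⟩

theorem reg_last {s : St} {z : s.P → s.P → ℤ} [IsCoc s.A z] (hs : Good s) (hz : Sf s.A z)
    (hj : JO s.A z) : Reg s z := by
  let δ : Ch s.P → ℤ := fun d => if d.top ∈ Om s.A then z d.bot d.top else 0
  have h : InM s.A z δ := ⟨fun d hd => by
      have := hz.mono _ _ hd.bt; simp only [δ]; split_ifs <;> omega,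
    fun d hd => by have := hz.mono _ _ hd.bt; simp only [δ]; split_ifs <;> omega,
    fun _ k => if_neg k⟩
  have e : ∀ C D : Ch (Ch s.P), D ∈ Om (A2 s.A) → C ≤ D →
      rf δ z C D = pb (fun C : Ch (Ch s.P) => C.bot.bot) z C D := fun C D hD k => by
    have o : D.top.top ∈ Om s.A := Hlf24.om_sd.1 (Hlf24.om_sd.1 hD)
    have he := dom_om o
    obtain ⟨u, hu⟩ := exists_chart hz.coc he
    have v : ∀ C : Ch (Ch s.P), C.top ≤ D.top → vv δ z u C = u C.bot.bot := fun C l =>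
      le_antisymm ((hu.vv_le l).2 fun d hd => by
        have l1 := le_top' hd l
        have := hu.le hz.mono he (l1 d.bot_mem) (l (Mcg32.bb_mem C)) (Ch.bot_anti (Ch.bot_le hd))
        simp only [mu, δ, if_pos (om_dn hs.conv o (Ch.top_mono l1)),
          hu _ (l1 d.bot_mem) _ (l1 d.top_mem) d.bot_le_top]
        omega) (h.le_vv he hu l)
    rw [hu.rf le_rfl k, v D le_rfl, v C (Ch.top_mono k), pb,
      hu _ (Ch.top_mono k (Mcg32.bb_mem C)) _ (Mcg32.bb_mem D) (Mcg32.bb_mono k)]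
  refine ⟨s.sd.sd, _, rf δ z, _, _, desc2 s, (h.step hs hz).1, (h.step hs hz).2,
    fun C D hD k => (e C D hD k).trans_le (hj _ _ (om_dn hs.conv (Hlf24.om_sd.1 (Hlf24.om_sd.1 hD))
      (Ch.le_top (Mcg32.bb_mem D))) (Mcg32.bb_mono k)), fun o ho y hy l k => ?_⟩
  have k' := Mcg32.br_bb hs.conv hz.coc hz.mono o ho y hy l (e o y hy l ▸ k)
  exact (congrArg Ctr (Set.ext fun p => and_congr_right fun a => and_congr_right fun b => by
    rw [e o p a b])).mpr k'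

theorem reg_ind (n : ℕ) : ∀ (s : St) (z : s.P → s.P → ℤ) [IsCoc s.A z], Good s → Sf s.A z →
    (∀ x y, y ∈ Om s.A → x ≤ y → z x y ≤ n + 1) → Reg s z := by
  induction n with
  | zero => exact fun s z _ hs hz h => reg_last hs hz fun x y a b => by simpa using h x y a b
  | succ n ih =>
    intro s z hc hs hz hn
    let δ : Ch s.P → ℤ := fun d => if d.top ∈ Om s.A then (z d.bot d.top + 1) / 2 else 0
    have h : InM s.A z δ := ⟨fun d hd => by
        have := hz.mono _ _ hd.bt; simp only [δ]; split_ifs <;> omega,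
      fun d hd => by have := hz.mono _ _ hd.bt; simp only [δ]; split_ifs <;> omega,
      fun _ k => if_neg k⟩
    obtain ⟨a, b⟩ := h.step hs hz
    obtain ⟨t, f, w, _, m, d, sf, i, r⟩ := @ih s.sd.sd (rf δ z) ⟨a.coc⟩ (Good.desc hs (desc2 s)) a
      fun C D hD k => h.om_val hz.coc (fun d o => by
        have := hn _ _ o d.bot_le_top
        simp only [δ, if_pos o]; push_cast at this; omega) hs.conv hz.mono hD k
    exact ⟨t, _, w, _, _, (desc2 s).trans d, sf, @iso_comp _ _ _ _ _ _ _ _ _ _ _ _ _ _ _ _ _ hc ⟨a.coc⟩ _ _ _ b i d.mono d.A_eq, r⟩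

theorem regStmt : Ind26.RegStmt := fun s z _ hs hz =>
  reg_ind _ s z hs hz fun x y _ _ => (le_sum z x y).trans (le_add_of_nonneg_right zero_le_one)

end Crest.Agent.X212.Cut21
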