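import Crest.Agent.X212.Cut21.Cov
import Crest.Agent.X212.Ind26.Main

/-!
# X212 / Cut21 (helper21): the cut along an admissible surface whose sum with `R` is maximal is taut
-/

set_option autoImplicit false
set_option linter.unusedSectionVars false

open Finset Classical

noncomputable section

namespace Crest.Agent.X212.Cut21

open Crest.Agent.X212.Hp13 Crest.Agent.X212.Alg36 Crest.Agent.X212.Ind26

section vals

variable {P : Type} [PartialOrder P] {A : Set P} {a x y : P}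

/-- the potential of `R₋` -/
def um (A : Set P) : P → ℤ := ind {x | ∃ a ∈ A, a ≤ x}
theorem Rm_um : Rm A x y = um A y - um A x := rfl
theorem um_ge (ha : a ∈ A) (h : a ≤ x) : um A x = 1 := ind_of_mem ⟨a, ha, h⟩
theorem um_mem (ha : a ∈ A) : um A a = 1 := um_ge ha le_rfl
theorem um_le (hA : A.OrdConnected) (ha : a ∈ A) (h : x ≤ a) (hx : x ∉ A) : um A x = 0 :=
  ind_of_not fun ⟨_, hb, h'⟩ => hx (hA.out hb ha ⟨h', h⟩)
/-- the potential of `R₊` -/
def up (A : Set P) : P → ℤ := ind {x | x ∉ A ∧ ∃ a ∈ A, a ≤ x}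
theorem Rp_up : Rp A x y = up A y - up A x := rfl
theorem up_ge (ha : a ∈ A) (h : a ≤ x) (hx : x ∉ A) : up A x = 1 := ind_of_mem ⟨hx, a, ha, h⟩
theorem up_mem (ha : a ∈ A) : up A a = 0 := ind_of_not fun h => h.1 ha
theorem up_le (hA : A.OrdConnected) (ha : a ∈ A) (h : x ≤ a) : up A x = 0 :=
  ind_of_not fun ⟨hx, _, hb, h'⟩ => hx (hA.out hb ha ⟨h', h⟩)

end vals

variable {s c : St} {z : s.P → s.P → ℤ} {π : c.P → s.P}

theorem lift_up (h : Lift s c π) {b : c.P} (hb : b ∈ c.A) {y : s.P} (hy : π b ≤ y) :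
    ∃ q, b ≤ q ∧ π q = y :=
  let ⟨q, h1, e⟩ := h.ex hb (Or.inl hy); ⟨q, (h.le_iff hb Cm.rfl h1).1 (e ▸ hy), e⟩
theorem lift_dn (h : Lift s c π) {b : c.P} (hb : b ∈ c.A) {y : s.P} (hy : y ≤ π b) :
    ∃ q, q ≤ b ∧ π q = y :=
  let ⟨q, h1, e⟩ := h.ex hb (Or.inr hy); ⟨q, (h.le_iff hb h1 Cm.rfl).1 (e ▸ hy), e⟩
theorem lift_tri (h : Lift s c π) {p q r : c.P} (t : Tri c.A p q r) : Tri s.A (π p) (π q) (π r) :=
  let ⟨h1, h2, b, hb, c1, c2, c3⟩ := t
  ⟨h.mon h1, h.mon h2, π b, h.mem hb, c1.map h.mon, c2.map h.mon, c3.map h.mon⟩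
theorem lift_dp (h : Lift s c π) {p q : c.P} (t : Dp c.A p q) : Dp s.A (π p) (π q) :=
  let ⟨h1, b, hb, c1, c2⟩ := t; ⟨h.mon h1, π b, h.mem hb, c1.map h.mon, c2.map h.mon⟩

theorem cov_conv (h : Cov s c z π) (hA : s.A.OrdConnected) (hz : Coc s.A z) (hm : Mono s.A z) :
    c.A.OrdConnected := ⟨fun b hb b' hb' q hq => by
  have h1 : π q ∈ s.A := hA.out (h.mem hb) (h.mem hb') ⟨h.mon hq.1, h.mon hq.2⟩
  have h2 := ((h.up b hb b' (hq.1.trans hq.2)).1 hb').2
  have := (tri1 (h.mem hb) (h.mon hq.1) (h.mon hq.2)).add hz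
  have := hm _ _ (Dp.of_left (h.mem hb) (h.mon hq.1))
  have := hm _ _ (Dp.of_left h1 (h.mon hq.2))
  exact (h.up b hb q hq.1).2 ⟨h1, by omega⟩⟩

theorem lift_eps (h : Lift s c π) {b : c.P} (hb : b ∈ c.A) : eps b = eps (π b) := by
  unfold eps
  congr 1
  refine sum_bij (fun d _ => h.im d) (fun d hd => ?_) (fun d hd d' hd' e => ?_)
    (fun e he => ?_) fun d _ => (h.sg_im d).symm
  · simp only [mem_filter, mem_univ, true_and] at hd ⊢
    rw [h.top_im, hd]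
  · simp only [mem_filter, mem_univ, true_and] at hd hd'
    have k1 : ∀ q ∈ d.1, Cm b q := fun q hq => Or.inr (hd ▸ Ch.le_top hq)
    have k2 : ∀ q ∈ d'.1, Cm b q := fun q hq => Or.inr (hd' ▸ Ch.le_top hq)
    exact le_antisymm (h.le_of_im hb k1 k2 e.le) (h.le_of_im hb k2 k1 e.ge)
  · simp only [mem_filter, mem_univ, true_and] at he ⊢
    obtain ⟨d, h1, h2⟩ := h.ex_ch hb e fun x hx => Or.inr (he ▸ Ch.le_top hx)
    exact ⟨d, h.inj hb (h2 _ d.top_mem) Cm.rfl (by rw [← h.top_im, h1, he]), h1⟩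

section sf

variable (h : Cov s c z π) (hA : s.A.OrdConnected) (hz : Coc s.A z) (hm : Mono s.A z)
include h hA hz hm

theorem tb_rp_end {b p q : c.P} (hb : b ∈ c.A) (h1 : p ≤ b) (h2 : b ≤ q) (hp : p ∉ c.A)
    (hq : q ∉ c.A) : Tb c.A (Rp c.A) b q 0 :=
  Tb.dnL (tri2 hb h1 h2) le_rfl (by rw [Rp_up, up_ge hb h2 hq, up_mem hb]; norm_num)
    (Tb.base hp hq)

theorem tb_rp_pp {a o : s.P} (hp : PP s.A z a o) (ho : o ∉ s.A) :
    ∀ b ∈ c.A, π b = a → ∀ q, b ≤ q → π q = o → Tb c.A (Rp c.A) b q 0 := by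
  have nb : ∀ {q : c.P}, π q ∉ s.A → q ∉ c.A := fun hq h' => hq (h.mem h')
  induction hp with
  | sut hx h1 =>
    rintro b hb rfl q hq rfl
    obtain ⟨p, h2, rfl⟩ := lift_dn h.toLift hb h1
    exact tb_rp_end h hA hz hm hb h2 hq (nb hx) (nb ho)
  | low _ h1 h0 =>
    rintro b hb rfl q hq rfl
    obtain ⟨p, h2, rfl⟩ := lift_dn h.toLift hb h1
    exact tb_rp_end h hA hz hm hb h2 hq (fun h' => h0.ne' ((h.dn b hb p h2).1 h').2) (nb ho)
  | up h1 h2 h3 h4 _ ih =>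
    rintro b hb rfl q hq rfl
    obtain ⟨p, h5, rfl⟩ := lift_up h.toLift hb h2
    have hp := (h.up b hb p h5).2 ⟨h1, h4⟩
    have h6 := (h.le_iff hb (Or.inl h5) (Or.inl hq)).1 h3
    exact (Tb.L (tri1 hb h5 h6) le_rfl (by rw [Rp_up, up_ge hb hq (nb ho), up_mem hp]; norm_num)
      (by rw [Rp_up, up_mem hb, up_mem hp]; norm_num)).1 (ih ho p hp rfl q h6 rfl)
  | dn h1 h2 h4 _ ih =>
    rintro b hb rfl q hq rfl
    obtain ⟨p, h5, rfl⟩ := lift_dn h.toLift hb h2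
    have hp := (h.dn b hb p h5).2 ⟨h1, h4⟩
    exact (Tb.L (tri1 hp h5 hq) le_rfl (by rw [Rp_up, up_ge hb hq (nb ho), up_mem hb]; norm_num)
      (by rw [Rp_up, up_mem hb, up_mem hp]; norm_num)).2 (ih ho p hp rfl q (h5.trans hq) rfl)
  | mv h1 h2 h3 _ ih =>
    rintro b hb rfl q hq rfl
    obtain ⟨p, h5, rfl⟩ := lift_up h.toLift hb h2
    have := ih h1 b hb rfl p h5 rfl
    rcases h3 with h3 | h3
    · exact Tb.dnR (tri1 hb hq ((h.le_iff hb (Or.inl hq) (Or.inl h5)).1 h3)) le_rfl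
        (by rw [Rp_up, up_ge hb hq (nb ho), up_mem hb]; norm_num) this
    · exact Tb.upR (tri1 hb h5 ((h.le_iff hb (Or.inl h5) (Or.inl hq)).1 h3)) le_rfl
        (by rw [Rp_up, up_ge hb h5 (nb h1), up_mem hb]; norm_num) this

theorem nc_rp (hn : NC s.A z) (hc : CondP s.A z) : NC c.A (Rp c.A) := by
  have hB := cov_conv h hA hz hm
  have nb : ∀ {q : c.P}, π q ∉ s.A → q ∉ c.A := fun hq h' => hq (h.mem h')
  have k0 : ∀ b ∈ c.A, ∀ q, b ≤ q → π q ∉ s.A → Tb c.A (Rp c.A) b q 0 := fun b hb q hq ho =>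
    tb_rp_pp h hA hz hm (hc _ (h.mem hb) _ ho (h.mon hq)) ho b hb rfl q hq rfl
  have one : ∀ b ∈ c.A, ∀ q, b ≤ q → q ∉ c.A → 0 < Rp c.A b q := fun b hb q hq hq' => by
    rw [Rp_up, up_ge hb hq hq', up_mem hb]; norm_num
  have k1 : ∀ x y k, Dp s.A x y → 0 ≤ k → k < z x y →
      ∀ b ∈ c.A, π b = x → k = 0 → ∀ q, b ≤ q → π q = y → Tb c.A (Rp c.A) b q 0 := by
    intro x y k hp h0 h1
    refine NC.ind hn hz hm (G := fun x y k =>
      ∀ b ∈ c.A, π b = x → k = 0 → ∀ q, b ≤ q → π q = y → Tb c.A (Rp c.A) b q 0) ?_ ?_ ?_ hp h0 h1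
    · rintro _ y k - hx - - - b hb rfl
      exact absurd (h.mem hb) hx
    · intro x y w k t h0 h1
      constructor
      · rintro H b hb rfl rfl r hr rfl
        obtain ⟨q, hq, rfl⟩ := lift_up h.toLift hb t.1
        exact Tb.upR (tri1 hb hq ((h.le_iff hb (Or.inl hq) (Or.inl hr)).1 t.2.1)) le_rfl
          (one b hb q hq fun h' => h1.ne' ((h.up b hb q hq).1 h').2) (H b hb rfl rfl q hq rfl)
      · rintro H b hb rfl rfl q hq rfl
        obtain ⟨r, hr, rfl⟩ := lift_up h.toLift hb (t.1.trans t.2.1)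
        exact Tb.dnR (tri1 hb hq ((h.le_iff hb (Or.inl hq) (Or.inl hr)).1 t.2.1)) le_rfl
          (one b hb q hq fun h' => h1.ne' ((h.up b hb q hq).1 h').2) (H b hb rfl rfl r hr rfl)
    · intro x y w k t h0 h1
      have hxy := hm _ _ t.d12
      constructor
      · rintro H b hb rfl e r hr rfl
        obtain rfl : k = 0 := by omega
        obtain ⟨q, hq, rfl⟩ := lift_up h.toLift hb t.1
        have hqr := (h.le_iff hb (Or.inl hq) (Or.inl hr)).1 t.2.1
        by_cases hy : π q ∈ s.A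
        · have hq' := (h.up b hb q hq).2 ⟨hy, by omega⟩
          exact (Tb.L (tri1 hb hq hqr) le_rfl
            (one q hq' r hqr fun h' => h1.ne' ((h.up q hq' r hqr).1 h').2)
            (by rw [Rp_up, up_mem hb, up_mem hq']; norm_num)).1 (H q hq' rfl rfl r hqr rfl)
        · exact k0 b hb r hr (not_up hA (h.mem hb) t.1 hy t.2.1)
      · rintro H b hb rfl rfl r hr rfl
        obtain ⟨p, hp, rfl⟩ := lift_dn h.toLift hb t.1
        have hr' : r ∉ c.A := fun h' => h1.ne' ((h.up b hb r hr).1 h').2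
        by_cases hp' : p ∈ c.A
        · exact (Tb.L (tri1 hp' hp hr) le_rfl (one b hb r hr hr')
            (by rw [Rp_up, up_mem hb, up_mem hp']; norm_num)).2
            (H p hp' rfl (by rw [((h.dn b hb p hp).1 hp').2]; rfl) r (hp.trans hr) rfl)
        · exact tb_rp_end h hA hz hm hb hp hr hp' hr'
  intro p q k hp h0 h1
  by_cases hq : q ∈ c.A
  · rw [Rp_up, up_mem hq, up_le hB hq hp.1] at h1; omega
  by_cases hp' : p ∈ c.A
  swap
  · exact Tb.base hp' hq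
  rw [Rp_up, up_mem hp', up_ge hp' hp.1 hq] at h1
  obtain rfl : k = 0 := by omega
  by_cases hy : π q ∈ s.A
  · have h2 : z (π p) (π q) ≠ 0 := fun e => hq ((h.up p hp' q hp.1).2 ⟨hy, e⟩)
    have h3 := lift_dp h.toLift hp
    exact k1 _ _ 0 h3 le_rfl (lt_of_le_of_ne (hm _ _ h3) h2.symm) p hp' rfl rfl q hp.1 rfl
  · exact k0 p hp' q hp.1 hy

theorem tb_rm_end {b p q : c.P} (hb : b ∈ c.A) (h1 : p ≤ b) (h2 : b ≤ q) (hp : p ∉ c.A)
    (hq : q ∉ c.A) : Tb c.A (Rm c.A) p b 0 :=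
  Tb.dnR (tri2 hb h1 h2) le_rfl
    (by rw [Rm_um, um_le (cov_conv h hA hz hm) hb h1 hp, um_mem hb]; norm_num) (Tb.base hp hq)

theorem tb_rm_pm {a o : s.P} (hp : PM s.A z a o) (ho : o ∉ s.A) :
    ∀ b ∈ c.A, π b = a → ∀ q, q ≤ b → π q = o → Tb c.A (Rm c.A) q b 0 := by
  have hB := cov_conv h hA hz hm
  have nb : ∀ {q : c.P}, π q ∉ s.A → q ∉ c.A := fun hq h' => hq (h.mem h')
  have one : ∀ b ∈ c.A, ∀ q, q ≤ b → q ∉ c.A → 0 < Rm c.A q b := fun b hb q hq hq' => by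
    rw [Rm_um, um_le hB hb hq hq', um_mem hb]; norm_num
  induction hp with
  | sut hx h1 =>
    rintro b hb rfl q hq rfl
    obtain ⟨p, h2, rfl⟩ := lift_up h.toLift hb h1
    exact tb_rm_end h hA hz hm hb hq h2 (nb ho) (nb hx)
  | hi _ h1 h0 =>
    rintro b hb rfl q hq rfl
    obtain ⟨p, h2, rfl⟩ := lift_up h.toLift hb h1
    exact tb_rm_end h hA hz hm hb hq h2 (nb ho) (fun h' => h0.ne' ((h.up b hb p h2).1 h').2)
  | dn h1 h2 h3 h4 _ ih =>
    rintro b hb rfl q hq rfl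
    obtain ⟨p, h5, rfl⟩ := lift_dn h.toLift hb h2
    have hp := (h.dn b hb p h5).2 ⟨h1, h4⟩
    have h6 := (h.le_iff hb (Or.inr hq) (Or.inr h5)).1 h3
    exact Tb.upR (tri3 hb h6 h5) le_rfl (one p hp q h6 (nb ho)) (ih ho p hp rfl q h6 rfl)
  | up h1 h2 h4 _ ih =>
    rintro b hb rfl q hq rfl
    obtain ⟨p, h5, rfl⟩ := lift_up h.toLift hb h2
    have hp := (h.up b hb p h5).2 ⟨h1, h4⟩
    exact Tb.dnR (tri2 hb hq h5) le_rfl (one b hb q hq (nb ho)) (ih ho p hp rfl q (hq.trans h5) rfl)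
  | mv h1 h2 h3 _ ih =>
    rintro b hb rfl q hq rfl
    obtain ⟨p, h5, rfl⟩ := lift_dn h.toLift hb h2
    have := ih h1 b hb rfl p h5 rfl
    have e1 := um_le hB hb hq (nb ho)
    have e2 := um_le hB hb h5 (nb h1)
    rcases h3 with h3 | h3
    · exact (Tb.L (tri3 hb ((h.le_iff hb (Or.inr hq) (Or.inr h5)).1 h3) h5) le_rfl
        (one b hb p h5 (nb h1)) (by rw [Rm_um, e1, e2]; norm_num)).1 this
    · exact (Tb.L (tri3 hb ((h.le_iff hb (Or.inr h5) (Or.inr hq)).1 h3) hq) le_rfl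
        (one b hb q hq (nb ho)) (by rw [Rm_um, e1, e2]; norm_num)).2 this

theorem nc_rm (hn : NC s.A z) (hc : CondM s.A z) : NC c.A (Rm c.A) := by
  have hB := cov_conv h hA hz hm
  have nb : ∀ {q : c.P}, π q ∉ s.A → q ∉ c.A := fun hq h' => hq (h.mem h')
  have k0 : ∀ b ∈ c.A, ∀ q, q ≤ b → π q ∉ s.A → Tb c.A (Rm c.A) q b 0 := fun b hb q hq ho =>
    tb_rm_pm h hA hz hm (hc _ (h.mem hb) _ ho (h.mon hq)) ho b hb rfl q hq rfl
  have one : ∀ b ∈ c.A, ∀ q, q ≤ b → q ∉ c.A → 0 < Rm c.A q b := fun b hb q hq hq' => by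
    rw [Rm_um, um_le hB hb hq hq', um_mem hb]; norm_num
  have k1 : ∀ x y k, Dp s.A x y → 0 ≤ k → k < z x y →
      ∀ b ∈ c.A, π b = y → k + 1 = z x y → ∀ q, q ≤ b → π q = x → Tb c.A (Rm c.A) q b 0 := by
    intro x y k hp h0 h1
    refine NC.ind hn hz hm (G := fun x y k =>
      ∀ b ∈ c.A, π b = y → k + 1 = z x y → ∀ q, q ≤ b → π q = x → Tb c.A (Rm c.A) q b 0)
      ?_ ?_ ?_ hp h0 h1
    · rintro x _ k - - hy - - b hb rfl
      exact absurd (h.mem hb) hy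
    · intro x y w k t h0 h1
      have hyw := hm _ _ t.d23
      have ha := t.add hz
      constructor
      · rintro H b hb rfl e p hp rfl
        obtain ⟨q, hq, rfl⟩ := lift_dn h.toLift hb t.2.1
        have hpq := (h.le_iff hb (Or.inr hp) (Or.inr hq)).1 t.1
        by_cases hy : π q ∈ s.A
        · have hq' := (h.dn b hb q hq).2 ⟨hy, by omega⟩
          exact Tb.upR (tri3 hb hpq hq) le_rfl
            (one q hq' p hpq fun h' => by have := ((h.dn q hq' p hpq).1 h').2; omega)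
            (H q hq' rfl (by omega) p hpq rfl)
        · exact k0 b hb p hp (not_dn hA (h.mem hb) t.2.1 hy t.1)
      · rintro H b hb rfl e p hp rfl
        obtain ⟨r, hr, rfl⟩ := lift_up h.toLift hb t.2.1
        have hp' : p ∉ c.A := fun h' => by have := ((h.dn b hb p hp).1 h').2; omega
        by_cases hr' : r ∈ c.A
        · exact Tb.dnR (tri2 hb hp hr) le_rfl (one b hb p hp hp')
            (H r hr' rfl (by have := ((h.up b hb r hr).1 hr').2; omega) p (hp.trans hr) rfl)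
        · exact tb_rm_end h hA hz hm hb hp hr hp' hr'
    · intro x y w k t h0 h1
      have hxy := hm _ _ t.d12
      have ha := t.add hz
      constructor
      · rintro H b hb rfl e p hp rfl
        obtain ⟨q, hq, rfl⟩ := lift_dn h.toLift hb t.2.1
        have hpq := (h.le_iff hb (Or.inr hp) (Or.inr hq)).1 t.1
        have hq' : q ∉ c.A := fun h' => by have := ((h.dn b hb q hq).1 h').2; omega
        exact (Tb.L (tri3 hb hpq hq) le_rfl (one b hb q hq hq')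
          (by rw [Rm_um, um_le hB hb hq hq', um_le hB hb hp (not_dn hB hb hq hq' hpq)]; norm_num)).1
          (H b hb rfl (by omega) q hq rfl)
      · rintro H b hb rfl e q hq rfl
        obtain ⟨p, hp, rfl⟩ := lift_dn h.toLift hb (t.1.trans t.2.1)
        have hpq := (h.le_iff hb (Or.inr hp) (Or.inr hq)).1 t.1
        have hq' : q ∉ c.A := fun h' => by have := ((h.dn b hb q hq).1 h').2; omega
        exact (Tb.L (tri3 hb hpq hq) le_rfl (one b hb q hq hq')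
          (by rw [Rm_um, um_le hB hb hq hq', um_le hB hb hp (not_dn hB hb hq hq' hpq)]; norm_num)).2
          (H b hb rfl (by omega) p hp rfl)
  intro p q k hp h0 h1
  by_cases hp' : p ∈ c.A
  · rw [Rm_um, um_mem hp', um_ge hp' hp.1] at h1; omega
  by_cases hq : q ∈ c.A
  swap
  · exact Tb.base hp' hq
  rw [Rm_um, um_mem hq, um_le hB hq hp.1 hp'] at h1
  obtain rfl : k = 0 := by omega
  by_cases hy : π p ∈ s.A
  · have h2 : z (π p) (π q) ≠ 0 := fun e => hp' ((h.dn q hq p hp.1).2 ⟨hy, e⟩)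
    have h3 := lift_dp h.toLift hp
    have := hm _ _ h3
    exact k1 _ _ (z (π p) (π q) - 1) h3 (by omega) (by omega) q hq rfl (by omega) p hp.1 rfl
  · exact k0 q hq p hp.1 hy

end sf

end Crest.Agent.X212.Cut21
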